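import Vale.Agent.P240.K.Defs
import Vale.Agent.P240.WB.B1

set_option linter.all false

section

namespace Vale.Agent.P240.K

open Finsupp

variable {𝕜 : Type*} [Field 𝕜]

variable {α β γ : Type*}

/-- Rational chains. -/
abbrev Ch (𝕜 : Type*) [Field 𝕜] (α : Type*) := List α →₀ 𝕜

/-- Linear maps out of `Ch 𝕜 α` agree if they agree on lists. -/
lemma lin_ext {M : Type*} [AddCommGroup M] [Module 𝕜 M] {f g : Ch 𝕜 α →ₗ[𝕜] M}
    (h : ∀ l, f (single l 1) = g (single l 1)) : f = g :=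
  Finsupp.lhom_ext' fun l => LinearMap.ext_ring (h l)

lemma lin_ext_apply {M : Type*} [AddCommGroup M] [Module 𝕜 M] {f g : Ch 𝕜 α →ₗ[𝕜] M}
    (h : ∀ l, f (single l 1) = g (single l 1)) (c : Ch 𝕜 α) : f c = g c := by
  rw [lin_ext h]

/-- Prepend an element. -/
noncomputable def cons (x : α) : Ch 𝕜 α →ₗ[𝕜] Ch 𝕜 α := Finsupp.lmapDomain 𝕜 𝕜 (List.cons x)

/-- Apply a map to all entries. -/
noncomputable def mp (f : α → β) : Ch 𝕜 α →ₗ[𝕜] Ch 𝕜 β := Finsupp.lmapDomain 𝕜 𝕜 (List.map f)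

/-- Append an element at the end. -/
noncomputable def ap (x : α) : Ch 𝕜 α →ₗ[𝕜] Ch 𝕜 α := Finsupp.lmapDomain 𝕜 𝕜 (fun l => l ++ [x])

/-- Sign operator. -/
noncomputable def sg : Ch 𝕜 α →ₗ[𝕜] Ch 𝕜 α :=
  Finsupp.linearCombination 𝕜 fun l : List α => (-1 : 𝕜) ^ l.length • single l (1 : 𝕜)

/-- Append an element at the end, with sign. -/
noncomputable def sn (x : α) : Ch 𝕜 α →ₗ[𝕜] Ch 𝕜 α := (ap x).comp sg

@[simp] lemma cons_single (x : α) (l : List α) (r : 𝕜) :
    cons x (single l r) = single (x :: l) r := by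
  simp [cons, Finsupp.lmapDomain_apply, Finsupp.mapDomain_single]

@[simp] lemma mp_single (f : α → β) (l : List α) (r : 𝕜) :
    mp f (single l r) = single (l.map f) r := by
  simp [mp, Finsupp.lmapDomain_apply, Finsupp.mapDomain_single]

@[simp] lemma ap_single (x : α) (l : List α) (r : 𝕜) :
    ap x (single l r) = single (l ++ [x]) r := by
  simp [ap, Finsupp.lmapDomain_apply, Finsupp.mapDomain_single]

@[simp] lemma sg_single (l : List α) (r : 𝕜) :
    sg (single l r) = (-1 : 𝕜) ^ l.length • single l r := by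
  simp [sg, Finsupp.linearCombination_single, mul_comm]

@[simp] lemma sn_single (x : α) (l : List α) (r : 𝕜) :
    sn x (single l r) = (-1 : 𝕜) ^ l.length • single (l ++ [x]) r := by
  rw [sn, LinearMap.comp_apply, sg_single, map_smul, ap_single]

lemma bd_single (l : List α) (r : 𝕜) :
    bd (single l r) =
      r • ∑ i ∈ Finset.range l.length, (-1 : 𝕜) ^ i • single (l.eraseIdx i) (1 : 𝕜) := by
  simp [bd, Finsupp.linearCombination_single]

@[simp] lemma bd_single_nil (r : 𝕜) : bd (single ([] : List α) r) = 0 := by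
  simp [bd_single]

lemma bd_single_cons (x : α) (l : List α) (r : 𝕜) :
    bd (single (x :: l) r) = single l r - cons x (bd (single l r)) := by
  rw [bd_single, bd_single, List.length_cons, Finset.sum_range_succ']
  simp only [List.eraseIdx_cons_succ, List.eraseIdx_cons_zero, pow_zero, one_smul, smul_add,
    map_sum, cons_single, Finset.smul_sum, smul_single, smul_eq_mul, mul_one, pow_succ]
  rw [add_comm, sub_eq_add_neg]
  congr 1
  rw [← Finset.sum_neg_distrib]
  refine Finset.sum_congr rfl fun i _ => ?_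
  rw [← single_neg]
  congr 1
  ring

@[simp] lemma bd_cons (x : α) (c : Ch 𝕜 α) : bd (cons x c) = c - cons x (bd c) := by
  have := lin_ext_apply (f := bd.comp (cons x)) (g := LinearMap.id - (cons x).comp bd)
    (fun l => by simp [bd_single_cons]) c
  simpa using this

/-- Induction principle for equality of linear maps. -/
lemma ch_ext {M : Type*} [AddCommGroup M] [Module 𝕜 M] {F G : Ch 𝕜 α →ₗ[𝕜] M}
    (h0 : F (single [] 1) = G (single [] 1))
    (hc : ∀ (y : α) (c : Ch 𝕜 α), F c = G c → F (cons y c) = G (cons y c)) : F = G := by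
  refine lin_ext fun l => ?_
  induction l with
  | nil => exact h0
  | cons y l ih => simpa using hc y _ ih

lemma ch_ext_apply {M : Type*} [AddCommGroup M] [Module 𝕜 M] {F G : Ch 𝕜 α →ₗ[𝕜] M}
    (h0 : F (single [] 1) = G (single [] 1))
    (hc : ∀ (y : α) (c : Ch 𝕜 α), F c = G c → F (cons y c) = G (cons y c)) (c : Ch 𝕜 α) :
    F c = G c := by
  rw [ch_ext h0 hc]

lemma bd_bd (c : Ch 𝕜 α) : bd (bd c) = 0 := by
  have := ch_ext_apply (F := bd.comp bd) (G := (0 : Ch 𝕜 α →ₗ[𝕜] Ch 𝕜 α)) (by simp)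
    (fun y c h => by
      simp only [LinearMap.comp_apply, LinearMap.zero_apply] at h
      simp [h]) c
  simpa using this

@[simp] lemma mp_cons (f : α → β) (x : α) (c : Ch 𝕜 α) : mp f (cons x c) = cons (f x) (mp f c) := by
  have := lin_ext_apply (f := (mp f).comp (cons x)) (g := (cons (f x)).comp (mp f))
    (fun l => by simp) c
  simpa using this

lemma bd_mp (f : α → β) (c : Ch 𝕜 α) : bd (mp f c) = mp f (bd c) := by
  have := ch_ext_apply (F := bd.comp (mp f)) (G := (mp f).comp bd) (by simp)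
    (fun y c h => by
      simp only [LinearMap.comp_apply] at h
      simp [h]) c
  simpa using this

@[simp] lemma mp_mp (f : α → β) (g : β → γ) (c : Ch 𝕜 α) : mp g (mp f c) = mp (g ∘ f) c := by
  have := lin_ext_apply (f := (mp g).comp (mp f)) (g := mp (g ∘ f))
    (fun l => by simp) c
  simpa using this

@[simp] lemma ap_cons (x y : α) (c : Ch 𝕜 α) : ap x (cons y c) = cons y (ap x c) := by
  have := lin_ext_apply (f := (ap x).comp (cons y)) (g := (cons y).comp (ap x))
    (fun l => by simp) c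
  simpa using this

@[simp] lemma sg_cons (y : α) (c : Ch 𝕜 α) : sg (cons y c) = - cons y (sg c) := by
  have := lin_ext_apply (f := (sg (𝕜 := 𝕜)).comp (cons y)) (g := - (cons y).comp (sg (𝕜 := 𝕜)))
    (fun l => by simp [pow_succ]) c
  simpa using this

@[simp] lemma sg_ap (y : α) (c : Ch 𝕜 α) : sg (ap y c) = - ap y (sg c) := by
  have := lin_ext_apply (f := (sg (𝕜 := 𝕜)).comp (ap y)) (g := - (ap y).comp (sg (𝕜 := 𝕜)))
    (fun l => by simp [pow_succ]) c
  simpa using this

@[simp] lemma sg_sg (c : Ch 𝕜 α) : sg (sg c) = c := by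
  have := lin_ext_apply (f := (sg).comp sg) (g := (LinearMap.id : Ch 𝕜 α →ₗ[𝕜] Ch 𝕜 α))
    (fun l => by simp [← pow_add, ← two_mul]) c
  simpa using this

lemma bd_sg (c : Ch 𝕜 α) : bd (sg c) = - sg (bd c) := by
  have := ch_ext_apply (F := (bd (𝕜 := 𝕜)).comp sg) (G := - (sg (𝕜 := 𝕜)).comp bd) (by simp)
    (fun y c h => by
      simp only [LinearMap.comp_apply, LinearMap.neg_apply] at h
      simp [h]) c
  simpa using this

@[simp] lemma sn_cons (x y : α) (c : Ch 𝕜 α) : sn x (cons y c) = - cons y (sn x c) := by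
  simp [sn]

@[simp] lemma bd_sn (x : α) (c : Ch 𝕜 α) : bd (sn x c) = c - sn x (bd c) := by
  have := ch_ext_apply (F := bd.comp (sn x)) (G := LinearMap.id - (sn x).comp bd)
    (by simp [bd_single_cons])
    (fun y c h => by
      simp only [LinearMap.comp_apply, LinearMap.sub_apply, LinearMap.id_apply] at h
      simp only [LinearMap.comp_apply, LinearMap.sub_apply, LinearMap.id_apply, sn_cons, map_neg,
        bd_cons, h, map_sub]
      abel) c
  simpa using this

lemma bd_ap (x : α) (c : Ch 𝕜 α) : bd (ap x c) = ap x (bd c) + sg c := by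
  have h := bd_sn x (sg c)
  simp only [sn, LinearMap.comp_apply, sg_sg, bd_sg, map_neg] at h
  rw [h]; abel

end Vale.Agent.P240.K
end

section

namespace Vale.Agent.P240.K

open Finsupp

variable {𝕜 : Type*} [Field 𝕜]

variable {α β γ : Type*}

/-- chains supported on lists satisfying `P`. -/
noncomputable abbrev Sp (𝕜 : Type*) [Field 𝕜] (P : List α → Prop) : Submodule 𝕜 (Ch 𝕜 α) :=
  Finsupp.supported 𝕜 𝕜 {l | P l}

lemma single_mem_Sp {P : List α → Prop} {l : List α} (h : P l) (r : 𝕜) : single l r ∈ Sp 𝕜 P :=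
  Finsupp.single_mem_supported 𝕜 r h

lemma map_mem {M : Type*} [AddCommGroup M] [Module 𝕜 M] {N : Submodule 𝕜 M}
    {P : List α → Prop} (F : Ch 𝕜 α →ₗ[𝕜] M) (h : ∀ l, P l → F (single l (1 : 𝕜)) ∈ N) {c : Ch 𝕜 α}
    (hc : c ∈ Sp 𝕜 P) : F c ∈ N := by
  have : Sp 𝕜 P ≤ N.comap F := by
    rw [Sp, Finsupp.supported_eq_span_single]
    refine Submodule.span_le.2 ?_
    rintro _ ⟨l, hl, rfl⟩
    exact h l hl
  exact this hc

lemma eq_of_Sp {M : Type*} [AddCommGroup M] [Module 𝕜 M] {P : List α → Prop}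
    {F G : Ch 𝕜 α →ₗ[𝕜] M} (h : ∀ l, P l → F (single l (1 : 𝕜)) = G (single l (1 : 𝕜))) {c : Ch 𝕜 α}
    (hc : c ∈ Sp 𝕜 P) : F c = G c := by
  have := map_mem (N := ⊥) (F - G) (fun l hl => by simp [h l hl]) hc
  simpa [sub_eq_zero] using this

lemma Sp_mono {P Q : List α → Prop} (h : ∀ l, P l → Q l) : Sp 𝕜 P ≤ Sp 𝕜 Q :=
  Finsupp.supported_mono fun l hl => h l hl

lemma mem_Sp {P : List α → Prop} {c : Ch 𝕜 α} : c ∈ Sp 𝕜 P ↔ ∀ l ∈ c.support, P l := by
  rw [Finsupp.mem_supported]; rfl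

lemma mem_Sp_inf {P Q : List α → Prop} {c : Ch 𝕜 α} (h : c ∈ Sp 𝕜 P) (h' : c ∈ Sp 𝕜 Q) :
    c ∈ Sp 𝕜 (fun l => P l ∧ Q l) := by
  rw [mem_Sp] at *
  exact fun l hl => ⟨h l hl, h' l hl⟩

lemma cons_mem {P Q : List α → Prop} {x : α} (h : ∀ l, P l → Q (x :: l)) {c : Ch 𝕜 α}
    (hc : c ∈ Sp 𝕜 P) : cons x c ∈ Sp 𝕜 Q :=
  map_mem _ (fun l hl => by rw [cons_single]; exact single_mem_Sp (h l hl) _) hc

lemma ap_mem {P Q : List α → Prop} {x : α} (h : ∀ l, P l → Q (l ++ [x])) {c : Ch 𝕜 α}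
    (hc : c ∈ Sp 𝕜 P) : ap x c ∈ Sp 𝕜 Q :=
  map_mem _ (fun l hl => by rw [ap_single]; exact single_mem_Sp (h l hl) _) hc

lemma mp_mem {P : List α → Prop} {Q : List β → Prop} {f : α → β} (h : ∀ l, P l → Q (l.map f))
    {c : Ch 𝕜 α} (hc : c ∈ Sp 𝕜 P) : mp f c ∈ Sp 𝕜 Q :=
  map_mem _ (fun l hl => by rw [mp_single]; exact single_mem_Sp (h l hl) _) hc

lemma sg_mem {P : List α → Prop} {c : Ch 𝕜 α} (hc : c ∈ Sp 𝕜 P) : sg c ∈ Sp 𝕜 P :=
  map_mem _ (fun l hl => by
    rw [sg_single]; exact Submodule.smul_mem _ _ (single_mem_Sp hl _)) hc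

lemma sn_mem {P Q : List α → Prop} {x : α} (h : ∀ l, P l → Q (l ++ [x])) {c : Ch 𝕜 α}
    (hc : c ∈ Sp 𝕜 P) : sn x c ∈ Sp 𝕜 Q := ap_mem h (sg_mem hc)

/-- `bd` preserves `Sp 𝕜 P` if `P` passes to sublists. -/
lemma bd_mem {P : List α → Prop} (h : ∀ l l' : List α, l'.Sublist l → P l → P l') {c : Ch 𝕜 α}
    (hc : c ∈ Sp 𝕜 P) : bd c ∈ Sp 𝕜 P :=
  map_mem _ (fun l hl => by
    rw [bd_single, one_smul]
    refine Submodule.sum_mem _ fun i _ => Submodule.smul_mem _ _ (single_mem_Sp ?_ _)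
    exact h _ _ (List.eraseIdx_sublist l i) hl) hc

/-- weakly decreasing lists in `S` -/
def wk [LE α] (S : Set α) (l : List α) : Prop := l.Pairwise (· ≥ ·) ∧ ∀ a ∈ l, a ∈ S

/-- strictly decreasing lists in `S` -/
def st [LT α] (S : Set α) (l : List α) : Prop := l.Pairwise (· > ·) ∧ ∀ a ∈ l, a ∈ S

lemma wk_sub [LE α] {S : Set α} (l l' : List α) (h : l'.Sublist l) (hl : wk S l) : wk S l' :=
  ⟨hl.1.sublist h, fun a ha => hl.2 a (h.subset ha)⟩

lemma st_sub [LT α] {S : Set α} (l l' : List α) (h : l'.Sublist l) (hl : st S l) : st S l' :=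
  ⟨hl.1.sublist h, fun a ha => hl.2 a (h.subset ha)⟩

lemma st_wk [Preorder α] {S : Set α} (l : List α) (hl : st S l) : wk S l :=
  ⟨hl.1.imp fun h => le_of_lt h, hl.2⟩

lemma wk_mono [LE α] {S T : Set α} (h : S ⊆ T) (l : List α) (hl : wk S l) : wk T l :=
  ⟨hl.1, fun a ha => h (hl.2 a ha)⟩

lemma st_mono [LT α] {S T : Set α} (h : S ⊆ T) (l : List α) (hl : st S l) : st T l :=
  ⟨hl.1, fun a ha => h (hl.2 a ha)⟩

lemma bd_wk [LE α] {S : Set α} {c : Ch 𝕜 α} (hc : c ∈ Sp 𝕜 (wk S)) : bd c ∈ Sp 𝕜 (wk S) :=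
  bd_mem wk_sub hc

lemma bd_st [LT α] {S : Set α} {c : Ch 𝕜 α} (hc : c ∈ Sp 𝕜 (st S)) : bd c ∈ Sp 𝕜 (st S) :=
  bd_mem st_sub hc

/-! ### Strictification -/

open Classical in
/-- keep only strictly decreasing lists -/
noncomputable def pi [LT α] : Ch 𝕜 α →ₗ[𝕜] Ch 𝕜 α :=
  Finsupp.linearCombination 𝕜 fun l : List α =>
    if l.Pairwise (· > ·) then single l (1 : 𝕜) else 0

open Classical in
lemma pi_single [LT α] (l : List α) :
    pi (single l (1 : 𝕜)) = if l.Pairwise (· > ·) then single l (1 : 𝕜) else 0 := by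
  simp [pi, Finsupp.linearCombination_single]

lemma pi_of_st [LT α] {S : Set α} {c : Ch 𝕜 α} (hc : c ∈ Sp 𝕜 (st S)) : pi c = c := by
  have := eq_of_Sp (F := pi) (G := LinearMap.id) (fun l (hl : st S l) => by
    rw [pi_single, if_pos hl.1]; rfl) hc
  simpa using this

lemma pi_mem [Preorder α] {S : Set α} {c : Ch 𝕜 α} (hc : c ∈ Sp 𝕜 (wk S)) : pi c ∈ Sp 𝕜 (st S) :=
  map_mem _ (fun l hl => by
    rw [pi_single]
    split_ifs with h
    · exact single_mem_Sp ⟨h, hl.2⟩ _
    · exact Submodule.zero_mem _) hc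

/-- more generally `pi` maps `Sp 𝕜 (P ∧ weak)` to `Sp 𝕜 (P ∧ strict)`. -/
lemma pi_mem' [LT α] {P : List α → Prop} {c : Ch 𝕜 α} (hc : c ∈ Sp 𝕜 P) : pi c ∈ Sp 𝕜 P :=
  map_mem _ (fun l hl => by
    rw [pi_single]
    split_ifs with h
    · exact single_mem_Sp hl _
    · exact Submodule.zero_mem _) hc

lemma pi_dup [Preorder α] (x : α) (c : Ch 𝕜 α) : pi (cons x (cons x c)) = 0 := by
  have := lin_ext_apply (f := pi.comp ((cons x).comp (cons x))) (g := (0 : Ch 𝕜 α →ₗ[𝕜] Ch 𝕜 α))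
    (fun l => by
      simp only [LinearMap.comp_apply, cons_single, LinearMap.zero_apply]
      rw [pi_single, if_neg]
      intro h
      rw [List.pairwise_cons] at h
      exact lt_irrefl x (h.1 x (by simp))) c
  simpa using this

lemma pi_cons_lt [Preorder α] {x : α} {c : Ch 𝕜 α} (hc : c ∈ Sp 𝕜 (fun l => ∀ a ∈ l, x > a)) :
    pi (cons x c) = cons x (pi c) := by
  have := eq_of_Sp (F := pi.comp (cons x)) (G := (cons x).comp pi)
    (fun l (hl : ∀ a ∈ l, x > a) => by
      simp only [LinearMap.comp_apply, cons_single, pi_single]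
      by_cases h : l.Pairwise (· > ·)
      · rw [if_pos h, if_pos (List.pairwise_cons.2 ⟨hl, h⟩), cons_single]
      · rw [if_neg h, if_neg (fun h' => h (List.pairwise_cons.1 h').2), map_zero]) hc
  simpa using this

lemma bd_pi_list [PartialOrder α] (l : List α) (h : l.Pairwise (· ≥ ·)) :
    pi (bd (single l (1 : 𝕜))) = bd (pi (single l (1 : 𝕜))) := by
  induction l with
  | nil => simp [pi_single]
  | cons x l ih =>
    rcases l with _ | ⟨y, l⟩
    · simp [pi_single, bd_single_cons]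
    · have h1 := List.pairwise_cons.1 h
      have h2 := List.pairwise_cons.1 h1.2
      have ih' := ih h1.2
      rcases (lt_or_eq_of_le (h1.1 y (by simp))) with hxy | hxy
      · -- strict
        have hall : ∀ a ∈ y :: l, x > a := by
          intro a ha
          rcases List.mem_cons.1 ha with rfl | ha
          · exact hxy
          · exact lt_of_le_of_lt (h2.1 a ha) hxy
        have hm : single (y :: l) (1 : 𝕜) ∈ Sp 𝕜 (fun l : List α => ∀ a ∈ l, x > a) :=
          single_mem_Sp hall 1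
        have hm' : bd (single (y :: l) (1 : 𝕜)) ∈ Sp 𝕜 (fun l : List α => ∀ a ∈ l, x > a) :=
          bd_mem (fun l l' hs hl a ha => hl a (hs.subset ha)) hm
        rw [bd_single_cons x, map_sub, pi_cons_lt hm', ih', ← cons_single x, pi_cons_lt hm,
          bd_cons]
      · subst hxy
        have e : single (y :: y :: l) (1 : 𝕜) = cons y (cons y (single l (1 : 𝕜))) := by simp
        rw [e, pi_dup, bd_cons, bd_cons, map_zero]
        simp only [map_sub, pi_dup]
        abel

lemma bd_pi [PartialOrder α] {S : Set α} {c : Ch 𝕜 α} (hc : c ∈ Sp 𝕜 (wk S)) :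
    bd (pi c) = pi (bd c) := by
  have := eq_of_Sp (F := bd.comp pi) (G := pi.comp bd)
    (fun l (hl : wk S l) => by simp [bd_pi_list l hl.1]) hc
  simpa using this

/-! ### Cone homotopy -/

/-- prism operator for `id ≤ φ` on lists -/
noncomputable def h1L (φ : α → α) : List α → Ch 𝕜 α
  | [] => 0
  | x :: l => single (φ x :: x :: l) 1 - cons (φ x) (h1L φ l)

/-- prism operator for `id ≤ φ` -/
noncomputable def h1 (φ : α → α) : Ch 𝕜 α →ₗ[𝕜] Ch 𝕜 α := Finsupp.linearCombination 𝕜 (h1L φ)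

lemma h1_single (φ : α → α) (l : List α) : h1 φ (single l (1 : 𝕜)) = h1L φ l := by
  simp [h1, Finsupp.linearCombination_single]

lemma h1_cons (φ : α → α) (x : α) (c : Ch 𝕜 α) :
    h1 φ (cons x c) = cons (φ x) (cons x c) - cons (φ x) (h1 φ c) := by
  have := lin_ext_apply (f := (h1 φ).comp (cons x))
    (g := (cons (φ x)).comp (cons x) - (cons (φ x)).comp (h1 φ))
    (fun l => by simp [h1_single, h1L]) c
  simpa using this

lemma bd_h1 (φ : α → α) (c : Ch 𝕜 α) : bd (h1 φ c) + h1 φ (bd c) = c - mp φ c := by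
  have := ch_ext_apply (F := bd.comp (h1 φ) + (h1 φ).comp bd)
    (G := LinearMap.id - mp φ) (by simp [h1_single, h1L])
    (fun y c h => by
      simp only [LinearMap.comp_apply, LinearMap.sub_apply, LinearMap.id_apply,
        LinearMap.add_apply] at h
      simp only [LinearMap.comp_apply, LinearMap.sub_apply, LinearMap.id_apply,
        LinearMap.add_apply, h1_cons, map_sub, bd_cons, mp_cons]
      have h' : bd (h1 φ c) = c - mp φ c - h1 φ (bd c) := by rw [← h]; abel
      rw [h']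
      simp only [map_sub]
      abel) c
  simpa using this

/-- cone homotopy attached to `x ≤ φ x ≥ F` -/
noncomputable def hc (φ : α → α) (F : α) : Ch 𝕜 α →ₗ[𝕜] Ch 𝕜 α := h1 φ + (sn F).comp (mp φ)

lemma bd_hc (φ : α → α) (F : α) (c : Ch 𝕜 α) : bd (hc φ F c) + hc φ F (bd c) = c := by
  have h := bd_h1 φ c
  simp only [hc, LinearMap.add_apply, LinearMap.comp_apply, map_add, bd_sn, bd_mp]
  calc _ = (bd (h1 φ c) + h1 φ (bd c)) + mp φ c := by abel
    _ = c := by rw [h]; abel

/-- support of the prism operator -/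
lemma h1_mem [Preorder α] {T S : Set α} {φ : α → α} (hTS : T ⊆ S) (hφS : ∀ x ∈ T, φ x ∈ S)
    (hle : ∀ x ∈ T, x ≤ φ x) (hmono : ∀ x ∈ T, ∀ y ∈ T, x ≤ y → φ x ≤ φ y) {c : Ch 𝕜 α}
    (hc : c ∈ Sp 𝕜 (wk T)) : h1 φ c ∈ Sp 𝕜 (wk S) := by
  refine map_mem _ (fun l hl => ?_) hc
  rw [h1_single]
  -- prove the stronger statement about heads
  have key : ∀ l : List α, wk T l → h1L φ l ∈ Sp 𝕜 (fun m : List α => wk S m ∧
      ∀ a ∈ m, ∃ b ∈ l, a ≤ φ b) := by
    intro l
    induction l with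
    | nil => intro _; exact Submodule.zero_mem _
    | cons x l ih =>
      intro hl
      have hp := List.pairwise_cons.1 hl.1
      have hxT : x ∈ T := hl.2 x (by simp)
      have hlT : wk T l := ⟨hp.2, fun a ha => hl.2 a (by simp [ha])⟩
      have c1 : wk S (φ x :: x :: l) ∧ ∀ a ∈ φ x :: x :: l, ∃ b ∈ x :: l, a ≤ φ b := by
        refine ⟨⟨?_, ?_⟩, ?_⟩
        · rw [List.pairwise_cons]
          refine ⟨?_, hl.1⟩
          intro a ha
          rcases List.mem_cons.1 ha with h | ha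
          · rw [h]; exact hle _ hxT
          · exact le_trans (hp.1 a ha) (hle _ hxT)
        · intro a ha
          rcases List.mem_cons.1 ha with h | ha
          · rw [h]; exact hφS _ hxT
          · exact hTS (hl.2 a ha)
        · intro a ha
          refine ⟨x, by simp, ?_⟩
          rcases List.mem_cons.1 ha with h | ha
          · rw [h]
          rcases List.mem_cons.1 ha with h | ha
          · rw [h]; exact hle _ hxT
          · exact le_trans (hp.1 a ha) (hle _ hxT)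
      have c2 : ∀ m : List α, (wk S m ∧ ∀ a ∈ m, ∃ b ∈ l, a ≤ φ b) →
          (wk S (φ x :: m) ∧ ∀ a ∈ φ x :: m, ∃ b ∈ x :: l, a ≤ φ b) := by
        rintro m ⟨hm, hm'⟩
        refine ⟨⟨?_, ?_⟩, ?_⟩
        · rw [List.pairwise_cons]
          refine ⟨?_, hm.1⟩
          intro a ha
          obtain ⟨b, hb, hab⟩ := hm' a ha
          exact le_trans hab (hmono _ (hlT.2 b hb) _ hxT (hp.1 b hb))
        · intro a ha
          rcases List.mem_cons.1 ha with h | ha
          · rw [h]; exact hφS _ hxT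
          · exact hm.2 a ha
        · intro a ha
          rcases List.mem_cons.1 ha with h | ha
          · rw [h]; exact ⟨x, by simp, le_refl _⟩
          · obtain ⟨b, hb, hab⟩ := hm' a ha
            exact ⟨b, by simp [hb], hab⟩
      exact Submodule.sub_mem _ (single_mem_Sp c1 _) (cons_mem c2 (ih hlT))
  exact Sp_mono (fun m hm => hm.1) (key l hl)

lemma hc_mem [Preorder α] {T S : Set α} {φ : α → α} {F : α} (hTS : T ⊆ S) (hFS : F ∈ S)
    (hφS : ∀ x ∈ T, φ x ∈ S) (hF : ∀ x ∈ T, F ≤ φ x)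
    (hle : ∀ x ∈ T, x ≤ φ x) (hmono : ∀ x ∈ T, ∀ y ∈ T, x ≤ y → φ x ≤ φ y) {c : Ch 𝕜 α}
    (hc' : c ∈ Sp 𝕜 (wk T)) : hc φ F c ∈ Sp 𝕜 (wk S) := by
  refine Submodule.add_mem _ (h1_mem hTS hφS hle hmono hc') ?_
  have h1 : mp φ c ∈ Sp 𝕜 (fun m : List α => wk S m ∧ ∀ a ∈ m, F ≤ a) := by
    refine mp_mem (P := wk T) ?_ hc'
    intro l hl
    refine ⟨⟨?_, ?_⟩, ?_⟩
    · rw [List.pairwise_map]
      exact hl.1.imp_of_mem fun {a b} ha hb hab => hmono _ (hl.2 b hb) _ (hl.2 a ha) hab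
    · intro a ha
      obtain ⟨b, hb, rfl⟩ := List.mem_map.1 ha
      exact hφS _ (hl.2 b hb)
    · intro a ha
      obtain ⟨b, hb, rfl⟩ := List.mem_map.1 ha
      exact hF _ (hl.2 b hb)
  refine sn_mem ?_ h1
  rintro m ⟨hm, hm'⟩
  refine ⟨?_, ?_⟩
  · rw [List.pairwise_append]
    refine ⟨hm.1, by simp, ?_⟩
    intro a ha b hb
    rw [List.mem_singleton] at hb
    subst hb
    exact hm' a ha
  · intro a ha
    rcases List.mem_append.1 ha with ha | ha
    · exact hm.2 a ha
    · rw [List.mem_singleton] at ha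
      subst ha
      exact hFS

end Vale.Agent.P240.K
end

section

namespace Vale.Agent.P240.K

open Finsupp

variable {𝕜 : Type*} [Field 𝕜]

variable {α β γ : Type*}

/-- `S` is not `𝕜`-acyclic: some strict cycle in `S` is not a boundary. -/
def NA (𝕜 : Type*) [Field 𝕜] [PartialOrder α] (S : Set α) : Prop :=
  ∃ z ∈ Sp 𝕜 (st S), bd z = 0 ∧ ∀ c ∈ Sp 𝕜 (st S), bd c ≠ z

/-! ### Homogeneous components -/

open Classical in
/-- component of length `n` -/
noncomputable def len (n : ℕ) : Ch 𝕜 α →ₗ[𝕜] Ch 𝕜 α :=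
  Finsupp.linearCombination 𝕜 fun l : List α => if l.length = n then single l (1 : 𝕜) else 0

lemma len_single (n : ℕ) (l : List α) :
    len n (single l (1 : 𝕜)) = if l.length = n then single l (1 : 𝕜) else 0 := by
  simp [len, Finsupp.linearCombination_single]

lemma len_of_mem {n : ℕ} {c : Ch 𝕜 α} (hc : c ∈ Sp 𝕜 (fun l : List α => l.length = n)) :
    len n c = c := by
  have := eq_of_Sp (F := len n) (G := LinearMap.id) (fun l (hl : l.length = n) => by
    rw [len_single, if_pos hl]; rfl) hc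
  simpa using this

lemma len_of_ne {n : ℕ} {c : Ch 𝕜 α} (hc : c ∈ Sp 𝕜 (fun l : List α => l.length ≠ n)) :
    len n c = 0 := by
  have := eq_of_Sp (F := len n) (G := 0) (fun l (hl : l.length ≠ n) => by
    rw [len_single, if_neg hl]; rfl) hc
  simpa using this

lemma len_mem {P : List α → Prop} {n : ℕ} {c : Ch 𝕜 α} (hc : c ∈ Sp 𝕜 P) :
    len n c ∈ Sp 𝕜 (fun l => l.length = n ∧ P l) :=
  map_mem _ (fun l hl => by
    rw [len_single]
    split_ifs with h
    · exact single_mem_Sp ⟨h, hl⟩ _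
    · exact Submodule.zero_mem _) hc

lemma bd_single_len (l : List α) :
    bd (single l (1 : 𝕜)) ∈ Sp 𝕜 (fun m : List α => m.length + 1 = l.length) := by
  induction l with
  | nil => simp
  | cons x l ih =>
    rw [bd_single_cons]
    refine Submodule.sub_mem _ (single_mem_Sp (by simp) _) (cons_mem ?_ ih)
    intro m hm
    simp [hm]

lemma bd_len (n : ℕ) (c : Ch 𝕜 α) : bd (len (n + 1) c) = len n (bd c) := by
  have := lin_ext_apply (f := bd.comp (len (n + 1))) (g := (len n).comp bd)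
    (fun l => by
      simp only [LinearMap.comp_apply]
      rw [len_single]
      have h := bd_single_len (𝕜 := 𝕜) l
      split_ifs with hl
      · rw [len_of_mem]
        refine Sp_mono (fun m hm => ?_) h
        rw [hl] at hm
        exact Nat.add_right_cancel hm
      · rw [map_zero, len_of_ne]
        refine Sp_mono (fun m hm => ?_) h
        intro hmn
        rw [hmn] at hm
        exact hl hm.symm) c
  simpa using this

lemma bd_len_zero (c : Ch 𝕜 α) : bd (len 0 c) = 0 := by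
  have := lin_ext_apply (f := bd.comp (len 0)) (g := (0 : Ch 𝕜 α →ₗ[𝕜] Ch 𝕜 α))
    (fun l => by
      simp only [LinearMap.comp_apply]
      rw [len_single]
      split_ifs with hl
      · have : l = [] := List.length_eq_zero_iff.1 hl
        subst this
        simp
      · simp) c
  simpa using this

lemma sum_len (N : ℕ) {c : Ch 𝕜 α} (hc : c ∈ Sp 𝕜 (fun l : List α => l.length < N)) :
    ∑ n ∈ Finset.range N, len n c = c := by
  have := eq_of_Sp (F := ∑ n ∈ Finset.range N, len n) (G := LinearMap.id)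
    (fun l (hl : l.length < N) => by
      simp only [LinearMap.sum_apply, len_single, LinearMap.id_apply]
      rw [Finset.sum_ite_eq]
      rw [if_pos (Finset.mem_range.2 hl)]) hc
  simpa using this

lemma exists_len_bound (c : Ch 𝕜 α) : ∃ N, c ∈ Sp 𝕜 (fun l : List α => l.length < N) := by
  refine ⟨c.support.sup List.length + 1, ?_⟩
  rw [mem_Sp]
  intro l hl
  exact Nat.lt_succ_of_le (Finset.le_sup (f := List.length) hl)

/-! ### Reversal -/

/-- signed reversal of a list -/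
noncomputable def rvL : List α → Ch 𝕜 α
  | [] => single [] (1 : 𝕜)
  | x :: l => sn x (rvL l)

/-- signed reversal -/
noncomputable def rv : Ch 𝕜 α →ₗ[𝕜] Ch 𝕜 α := Finsupp.linearCombination 𝕜 rvL

lemma rv_single (l : List α) : rv (single l (1 : 𝕜)) = rvL l := by
  simp [rv, Finsupp.linearCombination_single]

lemma rv_nil : rv (single ([] : List α) (1 : 𝕜)) = single [] (1 : 𝕜) := by
  rw [rv_single, rvL]

lemma rv_cons (x : α) (c : Ch 𝕜 α) : rv (cons x c) = sn x (rv c) := by
  have := lin_ext_apply (f := rv.comp (cons x)) (g := (sn x).comp rv)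
    (fun l => by simp [rv_single, rvL]) c
  simpa using this

lemma bd_rv (c : Ch 𝕜 α) : bd (rv c) = rv (bd c) := by
  have := ch_ext_apply (F := bd.comp rv) (G := rv.comp bd) (by simp [rv_nil])
    (fun y c h => by
      simp only [LinearMap.comp_apply] at h
      simp [rv_cons, h]) c
  simpa using this

lemma rv_sn (x : α) (c : Ch 𝕜 α) : rv (sn x c) = cons x (rv c) := by
  have := ch_ext_apply (F := rv.comp (sn x)) (G := (cons x).comp rv)
    (by
      have e : single [x] (1 : 𝕜) = cons x (single [] (1 : 𝕜)) := by simp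
      simp only [LinearMap.comp_apply, sn_single, List.length_nil, pow_zero, one_smul,
        List.nil_append]
      rw [e, rv_cons, rv_nil]
      simp)
    (fun y c h => by
      simp only [LinearMap.comp_apply] at h
      simp [rv_cons, h]) c
  simpa using this

lemma rv_rv (c : Ch 𝕜 α) : rv (rv c) = c := by
  have := ch_ext_apply (F := rv.comp rv) (G := (LinearMap.id : Ch 𝕜 α →ₗ[𝕜] Ch 𝕜 α))
    (by simp [rv_nil])
    (fun y c h => by
      simp only [LinearMap.comp_apply, LinearMap.id_apply] at h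
      simp [rv_cons, rv_sn, h]) c
  simpa using this

lemma rvL_mem (l : List α) : rvL l ∈ Sp 𝕜 (fun m : List α => m = l.reverse) := by
  induction l with
  | nil => exact single_mem_Sp (by simp) _
  | cons x l ih =>
    rw [rvL]
    refine sn_mem ?_ ih
    rintro m rfl
    simp

lemma rv_mem {P Q : List α → Prop} (h : ∀ l, P l → Q l.reverse) {c : Ch 𝕜 α} (hc : c ∈ Sp 𝕜 P) :
    rv c ∈ Sp 𝕜 Q :=
  map_mem _ (fun l hl => by
    rw [rv_single]
    refine Sp_mono ?_ (rvL_mem l)
    rintro m rfl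
    exact h l hl) hc

/-! ### Comparison with the official definition -/

lemma isChain_iff [Preorder α] {n : ℕ} {c : Ch 𝕜 α} :
    IsChain n c ↔ c ∈ Sp 𝕜 (fun l : List α => l.length = n ∧ l.Pairwise (· < ·)) := by
  rw [mem_Sp]; rfl

lemma official_iff [PartialOrder α] : HomologyNonzero 𝕜 α ↔ NA 𝕜 (Set.univ : Set α) := by
  have hrev : ∀ l : List α, l.Pairwise (· < ·) → st (Set.univ : Set α) l.reverse := by
    intro l hl
    refine ⟨?_, fun _ _ => trivial⟩
    rw [List.pairwise_reverse]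
    exact hl
  have hrev' : ∀ l : List α, st (Set.univ : Set α) l → l.reverse.Pairwise (· < ·) := by
    intro l hl
    rw [List.pairwise_reverse]
    exact hl.1
  constructor
  · rintro ⟨n, z, hz, hbz, hne⟩
    rw [isChain_iff] at hz
    refine ⟨rv z, rv_mem (fun l hl => hrev l hl.2) hz, by rw [bd_rv, hbz, map_zero], ?_⟩
    intro c hc hcz
    refine hne (len (n + 1) (rv c)) ?_ ?_
    · rw [isChain_iff]
      exact len_mem (P := fun l : List α => l.Pairwise (· < ·)) (rv_mem hrev' hc)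
    · rw [bd_len, bd_rv, hcz, rv_rv]
      exact len_of_mem (Sp_mono (fun l hl => hl.1) hz)
  · rintro ⟨z, hz, hbz, hne⟩
    by_contra hcon
    have hz' : rv z ∈ Sp 𝕜 (fun l : List α => l.Pairwise (· < ·)) := rv_mem hrev' hz
    have hb : bd (rv z) = 0 := by rw [bd_rv, hbz, map_zero]
    have key : ∀ n, ∃ c, IsChain (n + 1) c ∧ bd c = len n (rv z) := by
      intro n
      by_contra hn
      push Not at hn
      refine hcon ⟨n, len n (rv z), ?_, ?_, hn⟩
      · rw [isChain_iff]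
        exact len_mem hz'
      · rcases n with _ | n
        · exact bd_len_zero _
        · rw [bd_len, hb, map_zero]
    choose c hc hbc using key
    obtain ⟨N, hN⟩ := exists_len_bound (rv z)
    refine hne (rv (∑ n ∈ Finset.range N, c n)) ?_ ?_
    · refine rv_mem hrev ?_
      refine Submodule.sum_mem _ fun n _ => ?_
      have := hc n
      rw [isChain_iff] at this
      exact Sp_mono (fun l hl => hl.2) this
    · rw [bd_rv, map_sum]
      simp only [hbc]
      rw [sum_len N hN, rv_rv]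

/-! ### Transport along order embeddings -/

lemma mp_injOn {S : Set α} {f : α → β} (hf : Set.InjOn f S) {c d : Ch 𝕜 α}
    (hc : c ∈ Sp 𝕜 (fun l : List α => ∀ a ∈ l, a ∈ S))
    (hd : d ∈ Sp 𝕜 (fun l : List α => ∀ a ∈ l, a ∈ S)) (h : mp f c = mp f d) : c = d := by
  have hinj : Set.InjOn (List.map f) {l : List α | ∀ a ∈ l, a ∈ S} := by
    intro l hl m hm hlm
    have hlm' : l.map f = m.map f := hlm
    clear hlm
    induction l generalizing m with
    | nil =>
      symm
      simpa using hlm'.symm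
    | cons x l ih =>
      rcases m with _ | ⟨y, m⟩
      · simp at hlm'
      · simp only [List.map_cons, List.cons.injEq] at hlm'
        have hl' : ∀ a ∈ x :: l, a ∈ S := hl
        have hm' : ∀ a ∈ y :: m, a ∈ S := hm
        rw [hf (hl' x (by simp)) (hm' y (by simp)) hlm'.1,
          ih (fun a ha => hl' a (by simp [ha])) (fun a ha => hm' a (by simp [ha])) hlm'.2]
  exact Finsupp.mapDomain_injOn _ hinj hc hd h

lemma exists_lift {S : Set α} {f : α → β} [PartialOrder α] [PartialOrder β]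
    (hlt : ∀ x ∈ S, ∀ y ∈ S, f x < f y → x < y) {c : Ch 𝕜 β} (hc : c ∈ Sp 𝕜 (st (f '' S))) :
    ∃ c' ∈ Sp 𝕜 (st S), mp f c' = c := by
  have key : ∀ l : List β, st (f '' S) l → ∃ l' : List α, st S l' ∧ l'.map f = l := by
    intro l
    induction l with
    | nil => intro _; exact ⟨[], ⟨by simp, by simp⟩, rfl⟩
    | cons y l ih =>
      intro hl
      have hp := List.pairwise_cons.1 hl.1
      obtain ⟨l', hl', rfl⟩ := ih ⟨hp.2, fun a ha => hl.2 a (by simp [ha])⟩
      obtain ⟨x, hx, rfl⟩ := hl.2 y (by simp)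
      refine ⟨x :: l', ⟨?_, ?_⟩, rfl⟩
      · rw [List.pairwise_cons]
        refine ⟨fun a ha => hlt _ (hl'.2 a ha) _ hx (hp.1 _ (List.mem_map_of_mem ha)), hl'.1⟩
      · intro a ha
        rcases List.mem_cons.1 ha with h | ha
        · rw [h]; exact hx
        · exact hl'.2 a ha
  have h2 : Sp 𝕜 (st (f '' S)) ≤ (Sp 𝕜 (st S)).map (mp f) := by
    rw [Sp, Finsupp.supported_eq_span_single]
    refine Submodule.span_le.2 ?_
    rintro _ ⟨l, hl, rfl⟩
    obtain ⟨l', hl', rfl⟩ := key l hl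
    exact ⟨single l' (1 : 𝕜), single_mem_Sp hl' _, by simp⟩
  obtain ⟨c', h, h'⟩ := h2 hc
  exact ⟨c', h, h'⟩

lemma st_map {S : Set α} {T : Set β} {f : α → β} [PartialOrder α] [PartialOrder β]
    (hT : ∀ x ∈ S, f x ∈ T)
    (hlt : ∀ x ∈ S, ∀ y ∈ S, x < y → f x < f y) (l : List α) (hl : st S l) :
    st T (l.map f) := by
  refine ⟨?_, ?_⟩
  · rw [List.pairwise_map]
    exact hl.1.imp_of_mem fun {a b} ha hb hab => hlt _ (hl.2 b hb) _ (hl.2 a ha) hab
  · intro a ha
    obtain ⟨b, hb, rfl⟩ := List.mem_map.1 ha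
    exact hT _ (hl.2 b hb)

lemma wk_map {S : Set α} {T : Set β} {f : α → β} [Preorder α] [Preorder β]
    (hT : ∀ x ∈ S, f x ∈ T)
    (hle : ∀ x ∈ S, ∀ y ∈ S, x ≤ y → f x ≤ f y) (l : List α) (hl : wk S l) :
    wk T (l.map f) := by
  refine ⟨?_, ?_⟩
  · rw [List.pairwise_map]
    exact hl.1.imp_of_mem fun {a b} ha hb hab => hle _ (hl.2 b hb) _ (hl.2 a ha) hab
  · intro a ha
    obtain ⟨b, hb, rfl⟩ := List.mem_map.1 ha
    exact hT _ (hl.2 b hb)

lemma NA_image [PartialOrder α] [PartialOrder β] {S : Set α} {f : α → β}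
    (hf : Set.InjOn f S) (hlt : ∀ x ∈ S, ∀ y ∈ S, x < y ↔ f x < f y) :
    NA 𝕜 (f '' S) ↔ NA 𝕜 S := by
  have hin : ∀ {c : Ch 𝕜 α}, c ∈ Sp 𝕜 (st S) → c ∈ Sp 𝕜 (fun l : List α => ∀ a ∈ l, a ∈ S) :=
    fun hc => Sp_mono (fun l hl => hl.2) hc
  constructor
  · rintro ⟨z, hz, hbz, hne⟩
    obtain ⟨z', hz', rfl⟩ := exists_lift (fun x hx y hy h => (hlt x hx y hy).2 h) hz
    refine ⟨z', hz', ?_, ?_⟩
    · refine mp_injOn hf (hin (bd_st hz')) (Submodule.zero_mem _) ?_
      rw [← bd_mp, hbz, map_zero]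
    · intro c hc h
      refine hne (mp f c) (mp_mem (st_map (T := f '' S) (fun x hx => Set.mem_image_of_mem f hx)
        fun x hx y hy h => (hlt x hx y hy).1 h) hc) ?_
      rw [bd_mp, h]
  · rintro ⟨z, hz, hbz, hne⟩
    refine ⟨mp f z, mp_mem (st_map (T := f '' S) (fun x hx => Set.mem_image_of_mem f hx)
        fun x hx y hy h => (hlt x hx y hy).1 h) hz, by rw [bd_mp, hbz, map_zero], ?_⟩
    intro c hc h
    obtain ⟨c', hc', rfl⟩ := exists_lift (fun x hx y hy h => (hlt x hx y hy).2 h) hc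
    rw [bd_mp] at h
    exact hne c' hc' (mp_injOn hf (hin (bd_st hc')) (hin hz) h)

end Vale.Agent.P240.K
end

section

namespace Vale.Agent.P240.K

open Finsupp

variable {𝕜 : Type*} [Field 𝕜] {α : Type*}

/-- lists of length `n` -/
def stn [LT α] (S : Set α) (n : ℕ) : Set (List α) := {l | l.length = n ∧ st S l}

lemma not_NA_iff [PartialOrder α] {S : Set α} :
    ¬ NA 𝕜 S ↔ ∀ z ∈ Sp 𝕜 (st S), bd z = 0 → ∃ c ∈ Sp 𝕜 (st S), bd c = z := by
  unfold NA
  push Not
  rfl

lemma not_NA_hom [PartialOrder α] {S : Set α} (h : ¬ NA 𝕜 S) (n : ℕ) {z : Ch 𝕜 α}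
    (hz : z ∈ Finsupp.supported 𝕜 𝕜 (stn S n)) (hb : bd z = 0) :
    ∃ c ∈ Finsupp.supported 𝕜 𝕜 (stn S (n + 1)), bd c = z := by
  rw [not_NA_iff] at h
  obtain ⟨c, hc, hcz⟩ := h z (Sp_mono (fun l (hl : l ∈ stn S n) => hl.2) hz) hb
  refine ⟨len (n + 1) c, len_mem hc, ?_⟩
  rw [bd_len, hcz]
  exact len_of_mem (Sp_mono (fun l (hl : l ∈ stn S n) => hl.1) hz)

lemma not_NA_of_hom [PartialOrder α] {S : Set α}
    (h : ∀ n, ∀ z ∈ Finsupp.supported 𝕜 𝕜 (stn S n), bd z = 0 → ∃ c ∈ Sp 𝕜 (st S), bd c = z) :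
    ¬ NA 𝕜 S := by
  rw [not_NA_iff]
  intro z hz hb
  have key : ∀ n, ∃ c ∈ Sp 𝕜 (st S), bd c = len n z := by
    intro n
    refine h n _ (len_mem hz) ?_
    rcases n with _ | n
    · exact bd_len_zero _
    · rw [bd_len, hb, map_zero]
  choose c hc hbc using key
  obtain ⟨N, hN⟩ := exists_len_bound z
  refine ⟨∑ n ∈ Finset.range N, c n, Submodule.sum_mem _ fun n _ => hc n, ?_⟩
  rw [map_sum]
  simp only [hbc]
  exact sum_len N hN

lemma map_iter (f : α → α) (n : ℕ) : (List.map f)^[n] = List.map (f^[n]) := by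
  induction n with
  | zero => funext l; simp
  | succ n ih =>
    funext l
    rw [Function.iterate_succ_apply, ih, List.map_map, Function.iterate_succ]

lemma bd_TT (f : α → α) (i : ℕ) (c : Ch 𝕜 α) :
    bd (TT ((List.map f)^[i]) c) = TT ((List.map f)^[i]) (bd c) := by
  rw [map_iter]
  exact bd_mp _ c

lemma bd_sg1 (f : α → α) (c : Ch 𝕜 α) : bd (sg1 (List.map f) c) = sg1 (List.map f) (bd c) := by
  have := bd_TT f 1 c
  rw [Function.iterate_one] at this
  simp only [sg1, LinearMap.sub_apply, LinearMap.id_apply, map_sub, this]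

lemma bd_tau (f : α → α) (r : ℕ) (c : Ch 𝕜 α) :
    bd (tau (List.map f) r c) = tau (List.map f) r (bd c) := by
  simp only [tau, LinearMap.sum_apply, map_sum, bd_TT]

lemma st_length_le [PartialOrder α] {S : Set α} (hS : S.Finite) {l : List α} (hl : st S l) :
    l.length ≤ hS.toFinset.card := by
  classical
  have hnd : l.Nodup := hl.1.imp fun h => (ne_of_lt h).symm
  rw [← List.toFinset_card_of_nodup hnd]
  refine Finset.card_le_card ?_
  intro a ha
  rw [Set.Finite.mem_toFinset]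
  exact hl.2 a (by simpa using ha)

lemma supported_stn_zero [PartialOrder α] {S : Set α} (hS : S.Finite) {n : ℕ}
    (hn : hS.toFinset.card < n) {z : Ch 𝕜 α} (hz : z ∈ Finsupp.supported 𝕜 𝕜 (stn S n)) :
    z = 0 := by
  rw [← Finsupp.support_eq_empty, Finset.eq_empty_iff_forall_notMem]
  intro l hl
  have h1 := hz hl
  have h2 := st_length_le hS h1.2
  rw [h1.1] at h2
  omega

lemma bd_stn [PartialOrder α] {S : Set α} {n : ℕ} {z : Ch 𝕜 α}
    (hz : z ∈ Finsupp.supported 𝕜 𝕜 (stn S (n + 1))) :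
    bd z ∈ Finsupp.supported 𝕜 𝕜 (stn S n) := by
  have h1 : z = len (n + 1) z :=
    (len_of_mem (Sp_mono (fun l (hl : l ∈ stn S (n + 1)) => hl.1) hz)).symm
  rw [h1, bd_len]
  exact len_mem (bd_st (Sp_mono (fun l (hl : l ∈ stn S (n + 1)) => hl.2) hz))

/-- **Smith's theorem** for an order automorphism of prime order `r` of a finite poset `S` that is
acyclic over a field of characteristic `r`: the fixed points are acyclic as well. -/
theorem smith [PartialOrder α] {r : ℕ} [hp : Fact r.Prime] (hchar : (r : 𝕜) = 0) {S : Set α}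
    (hS : S.Finite) (f : α → α) (hf : ∀ x ∈ S, f x ∈ S) (hr : ∀ x ∈ S, f^[r] x = x)
    (hlt : ∀ x ∈ S, ∀ y ∈ S, x < y → f x < f y) (hac : ¬ NA 𝕜 S) :
    ¬ NA 𝕜 {x | x ∈ S ∧ f x = x} := by
  set F : List α → List α := List.map f with hFdef
  have hFn : ∀ n, ∀ l ∈ stn S n, F l ∈ stn S n := by
    rintro n l ⟨h1, h2⟩
    refine ⟨by rw [hFdef, List.length_map, h1], ?_, ?_⟩
    · rw [hFdef, List.pairwise_map]
      exact h2.1.imp_of_mem fun {a b} ha hb hab => hlt _ (h2.2 b hb) _ (h2.2 a ha) hab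
    · intro a ha
      obtain ⟨b, hb, rfl⟩ := List.mem_map.1 ha
      exact hf _ (h2.2 b hb)
  have hFr : ∀ n, ∀ l ∈ stn S n, F^[r] l = l := by
    rintro n l ⟨h1, h2⟩
    rw [hFdef, map_iter]
    conv_rhs => rw [← List.map_id l]
    exact List.map_congr_left fun a ha => hr a (h2.2 a ha)
  -- fixed lists
  have hfixbd : ∀ n, ∀ d ∈ Finsupp.supported 𝕜 𝕜 {l | l ∈ stn S (n + 1) ∧ F l = l},
      bd d ∈ Finsupp.supported 𝕜 𝕜 {l | l ∈ stn S n ∧ F l = l} := by
    intro n d hd
    have h1 : bd d ∈ Sp 𝕜 (fun l => l ∈ stn S n) :=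
      bd_stn (Sp_mono (fun l (hl : l ∈ stn S (n + 1) ∧ F l = l) => hl.1) hd)
    have h2 : bd d ∈ Sp 𝕜 (fun l => ∀ a ∈ l, f a = a) := by
      refine bd_mem (fun l l' hs hl a ha => hl a (hs.subset ha)) (Sp_mono ?_ hd)
      rintro l ⟨_, hl⟩ a ha
      have := List.map_eq_map_iff.1 ((hl : l.map f = l).trans (List.map_id l).symm) a ha
      exact this
    refine Sp_mono ?_ (mem_Sp_inf h1 h2)
    rintro l ⟨hl, hl'⟩
    refine ⟨hl, ?_⟩
    rw [hFdef]
    conv_rhs => rw [← List.map_id l]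
    exact List.map_congr_left fun a ha => hl' a ha
  have key : ∀ m n : ℕ, hS.toFinset.card + 1 ≤ n + m →
      (∀ a ∈ Finsupp.supported 𝕜 𝕜 (stn S n), bd (sg1 F a) = 0 →
        ∃ b ∈ Finsupp.supported 𝕜 𝕜 (stn S (n + 1)), sg1 F a = bd (sg1 F b)) ∧
      (∀ a ∈ Finsupp.supported 𝕜 𝕜 (stn S n), bd (tau F r a) = 0 →
        ∃ b ∈ Finsupp.supported 𝕜 𝕜 (stn S (n + 1)), tau F r a = bd (tau F r b)) := by
    intro m
    induction m with
    | zero =>
      intro n hn
      constructor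
      · intro a ha _
        have : a = 0 := supported_stn_zero hS (by omega) ha
        exact ⟨0, Submodule.zero_mem _, by simp [this]⟩
      · intro a ha _
        have : a = 0 := supported_stn_zero hS (by omega) ha
        exact ⟨0, Submodule.zero_mem _, by simp [this]⟩
    | succ m ih =>
      intro n hn
      obtain ⟨ih1, ih2⟩ := ih (n + 1) (by omega)
      constructor
      · intro a ha hb
        obtain ⟨c, hc, hcz⟩ := not_NA_hom hac n (sg1_mem (hFn n) ha) hb
        obtain ⟨b, hb', hbe⟩ := ih2 c hc (by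
          rw [bd_tau, hcz]
          exact tau_sg1 (hFn n) (hFr n) ha)
        have hcb : c - bd b ∈ Finsupp.supported 𝕜 𝕜 (stn S (n + 1)) :=
          Submodule.sub_mem _ hc (bd_stn hb')
        obtain ⟨a', ha', d, hd, hcd⟩ := ker_tau (hFn (n + 1)) (hFr (n + 1)) _ (c - bd b) le_rfl hcb
          (by rw [map_sub, hbe, bd_tau, sub_self])
        have hz : bd (sg1 F a') + bd d = sg1 F a := by
          rw [← map_add, ← hcd, map_sub, bd_bd, sub_zero, hcz]
        have hd0 : bd d = 0 := by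
          refine fix_sg1 (hFn n) (hFr n) (a := a - bd a') (Submodule.sub_mem _ ha (bd_stn ha'))
            (hfixbd n d hd) ?_
          rw [map_sub, ← hz, bd_sg1]
          abel
        refine ⟨a', ha', ?_⟩
        rw [← hz, hd0, add_zero]
      · intro a ha hb
        obtain ⟨c, hc, hcz⟩ := not_NA_hom hac n (tau_mem (hFn n) ha) hb
        obtain ⟨b, hb', hbe⟩ := ih1 c hc (by
          rw [bd_sg1, hcz]
          exact sg1_tau (hFn n) (hFr n) ha)
        have hcb : c - bd b ∈ Finsupp.supported 𝕜 𝕜 (stn S (n + 1)) :=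
          Submodule.sub_mem _ hc (bd_stn hb')
        obtain ⟨a', ha', d, hd, hcd⟩ := ker_sg1 (hFn (n + 1)) (hFr (n + 1)) _ (c - bd b) le_rfl hcb
          (by rw [map_sub, hbe, bd_sg1, sub_self])
        have hz : bd (tau F r a') + bd d = tau F r a := by
          rw [← map_add, ← hcd, map_sub, bd_bd, sub_zero, hcz]
        have hd0 : bd d = 0 := by
          refine fix_tau (hFn n) (hFr n) hchar (a := a - bd a')
            (Submodule.sub_mem _ ha (bd_stn ha')) (hfixbd n d hd) ?_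
          rw [map_sub, ← hz, bd_tau]
          abel
        refine ⟨a', ha', ?_⟩
        rw [← hz, hd0, add_zero]
  refine not_NA_of_hom fun n z hz hb => ?_
  have hzS : z ∈ Finsupp.supported 𝕜 𝕜 (stn S n) :=
    Sp_mono (fun l (hl : l ∈ stn {x | x ∈ S ∧ f x = x} n) =>
      (⟨hl.1, hl.2.1, fun a ha => (hl.2.2 a ha).1⟩ : l ∈ stn S n)) hz
  have hzfix : z ∈ Finsupp.supported 𝕜 𝕜 {l | l ∈ stn S n ∧ F l = l} := by
    refine Sp_mono (fun l (hl : l ∈ stn {x | x ∈ S ∧ f x = x} n) =>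
      (⟨⟨hl.1, hl.2.1, fun a ha => (hl.2.2 a ha).1⟩, ?_⟩ : l ∈ stn S n ∧ F l = l)) hz
    rw [hFdef]
    conv_rhs => rw [← List.map_id l]
    exact List.map_congr_left fun a ha => (hl.2.2 a ha).2
  obtain ⟨c, hc, hcz⟩ := not_NA_hom hac n hzS hb
  have hsz : sg1 F z = 0 := by
    have := eq_of_Sp (F := sg1 F) (G := 0) (P := fun l => l ∈ stn S n ∧ F l = l)
      (fun l hl => by
        rw [sg1, LinearMap.sub_apply, LinearMap.id_apply, TT_single, hl.2, sub_self]; rfl) hzfix
    simpa using this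
  obtain ⟨b, hb', hbe⟩ := (key (hS.toFinset.card + 1) (n + 1) (by omega)).1 c hc (by
    rw [bd_sg1, hcz, hsz])
  have hcb : c - bd b ∈ Finsupp.supported 𝕜 𝕜 (stn S (n + 1)) :=
    Submodule.sub_mem _ hc (bd_stn hb')
  obtain ⟨a', ha', d, hd, hcd⟩ := ker_sg1 (hFn (n + 1)) (hFr (n + 1)) _ (c - bd b) le_rfl hcb
    (by rw [map_sub, hbe, bd_sg1, sub_self])
  have hz' : bd (tau F r a') + bd d = z := by
    rw [← map_add, ← hcd, map_sub, bd_bd, sub_zero, hcz]
  have h0 : z - bd d = 0 := by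
    refine fix_tau (hFn n) (hFr n) hchar (a := bd a') (bd_stn ha')
      (Submodule.sub_mem _ hzfix (hfixbd n d hd)) ?_
    rw [← bd_tau, ← hz']
    abel
  refine ⟨d, ?_, (sub_eq_zero.1 h0).symm⟩
  refine Sp_mono ?_ hd
  rintro l ⟨⟨_, hl1, hl2⟩, hl3⟩
  refine ⟨hl1, fun a ha => ⟨hl2 a ha, ?_⟩⟩
  exact List.map_eq_map_iff.1 ((hl3 : l.map f = l).trans (List.map_id l).symm) a ha

end Vale.Agent.P240.K
end

section

namespace Vale.Agent.P240.K

open Finsupp

variable {𝕜 : Type*} [Field 𝕜]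

variable {α β γ : Type*}

/-! ### Shuffle product -/

/-- shuffle product of two lists in a join semilattice -/
noncomputable def shL [Max α] : List α → List α → Ch 𝕜 α
  | [], t => single t (1 : 𝕜)
  | a :: s, [] => single (a :: s) (1 : 𝕜)
  | a :: s, b :: t =>
      cons (a ⊔ b) (shL s (b :: t) + (-1 : 𝕜) ^ (s.length + 1) • shL (a :: s) t)
termination_by s t => s.length + t.length

/-- bilinear shuffle product -/
noncomputable def sh [Max α] : Ch 𝕜 α →ₗ[𝕜] Ch 𝕜 α →ₗ[𝕜] Ch 𝕜 α :=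
  Finsupp.linearCombination 𝕜 fun s => Finsupp.linearCombination 𝕜 fun t => shL s t

/-- bilinear extensionality -/
lemma bilin_ext {M : Type*} [AddCommGroup M] [Module 𝕜 M] {f g : Ch 𝕜 α →ₗ[𝕜] Ch 𝕜 α →ₗ[𝕜] M}
    (h : ∀ s t, f (single s (1 : 𝕜)) (single t (1 : 𝕜)) = g (single s (1 : 𝕜)) (single t (1 : 𝕜))) : f = g :=
  lin_ext fun s => lin_ext fun t => h s t

variable [Max α]

lemma sh_single (s t : List α) : sh (single s (1 : 𝕜)) (single t (1 : 𝕜)) = shL s t := by
  simp [sh, Finsupp.linearCombination_single]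

lemma sh_nil_left (y : Ch 𝕜 α) : sh (single [] (1 : 𝕜)) y = y := by
  have := lin_ext_apply (f := sh (single ([] : List α) (1 : 𝕜))) (g := LinearMap.id)
    (fun l => by rw [sh_single, shL]; rfl) y
  simpa using this

lemma sh_nil_right (x : Ch 𝕜 α) : sh x (single [] (1 : 𝕜)) = x := by
  have := lin_ext_apply (f := (sh (𝕜 := 𝕜) (α := α)).flip (single ([] : List α) (1 : 𝕜))) (g := LinearMap.id)
    (fun l => by
      rw [LinearMap.flip_apply, sh_single]
      cases l with
      | nil => rw [shL]; rfl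
      | cons a l => rw [shL]; rfl) x
  simpa using this

lemma sh_cons_cons (a b : α) (c d : Ch 𝕜 α) :
    sh (cons a c) (cons b d) =
      cons (a ⊔ b) (sh c (cons b d) + sh (sg (cons a c)) d) := by
  have := bilin_ext
    (f := (sh (𝕜 := 𝕜) (α := α)).compl₁₂ (cons a) (cons b))
    (g := ((sh (𝕜 := 𝕜) (α := α)).compl₁₂ LinearMap.id (cons b) +
      (sh (𝕜 := 𝕜) (α := α)).compl₁₂ (sg.comp (cons a)) LinearMap.id).compr₂ (cons (a ⊔ b)))
    (fun s t => by
      simp only [LinearMap.compl₁₂_apply, LinearMap.compr₂_apply, LinearMap.add_apply,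
        LinearMap.id_apply, LinearMap.comp_apply, cons_single, sg_single, map_smul,
        LinearMap.smul_apply, sh_single, List.length_cons]
      rw [shL])
  have h := congrArg (fun F => F c d) this
  simpa only [LinearMap.compl₁₂_apply, LinearMap.compr₂_apply, LinearMap.add_apply,
        LinearMap.id_apply, LinearMap.comp_apply] using h

/-- `bd` is a graded derivation for the shuffle product, on lists. -/
lemma bd_sh_list (n : ℕ) : ∀ s t : List α, s.length + t.length = n →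
    bd (sh (single s (1 : 𝕜)) (single t (1 : 𝕜))) =
      sh (bd (single s (1 : 𝕜))) (single t (1 : 𝕜)) + sh (sg (single s (1 : 𝕜))) (bd (single t (1 : 𝕜))) := by
  induction n with
  | zero =>
    intro s t h
    have hs : s = [] := List.length_eq_zero_iff.1 (by omega)
    have ht : t = [] := List.length_eq_zero_iff.1 (by omega)
    subst hs ht
    simp [sh_nil_left]
  | succ n ih =>
    intro s t h
    rcases s with _ | ⟨a, s⟩
    · simp [sh_nil_left]
    rcases t with _ | ⟨b, t⟩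
    · simp [sh_nil_right]
    have h1 := ih s (b :: t) (by simp only [List.length_cons] at h ⊢; omega)
    have h2 := ih (a :: s) t (by simp only [List.length_cons] at h ⊢; omega)
    -- write everything with cons
    obtain ⟨c, hcdef⟩ : ∃ c : Ch 𝕜 α, c = single s (1 : 𝕜) := ⟨_, rfl⟩
    obtain ⟨d, hddef⟩ : ∃ d : Ch 𝕜 α, d = single t (1 : 𝕜) := ⟨_, rfl⟩
    have ea : single (a :: s) (1 : 𝕜) = cons a c := by simp [hcdef]
    have eb : single (b :: t) (1 : 𝕜) = cons b d := by simp [hddef]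
    have e : sg (cons a c) = ((-1 : 𝕜) ^ (s.length + 1)) • cons a c := by
      simp [hcdef, pow_succ]
    rw [← hcdef, eb] at h1
    rw [← hddef, ea] at h2
    rw [ea, eb]
    have h2' : bd (sh (sg (cons a c)) d) = sh (bd (sg (cons a c))) d + sh (cons a c) (bd d) := by
      have e2 : sh (cons a c) (bd d) = ((-1 : 𝕜) ^ (s.length + 1)) •
          sh (sg (cons a c)) (bd d) := by
        rw [e, map_smul, LinearMap.smul_apply, smul_smul, ← pow_add, ← two_mul]
        simp
      rw [e2]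
      rw [e] at h2 ⊢
      simp only [map_smul, LinearMap.smul_apply] at h2 ⊢
      rw [h2, smul_add]
    have s1 := sh_cons_cons a b (bd c) d
    have s2 := sh_cons_cons a b (-(sg c)) (bd d)
    have e3 : cons a (-(sg c)) = sg (cons a c) := by rw [map_neg, sg_cons]
    have e4 : sg (cons a (-(sg c))) = cons a c := by rw [e3, sg_sg]
    rw [e3, sg_sg, map_neg (sh (𝕜 := 𝕜)), LinearMap.neg_apply] at s2
    have e5 : bd (sg (cons a c)) = sg (cons a (bd c)) - sg c := by
      rw [bd_sg, bd_cons, map_sub]; abel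
    rw [e5, map_sub (sh (𝕜 := 𝕜)), LinearMap.sub_apply] at h2'
    rw [bd_cons, map_sub (sh (sg c))] at h1
    rw [sh_cons_cons, bd_cons, map_add (bd (𝕜 := 𝕜)), h1, h2', bd_cons, bd_cons, map_sub (sh (𝕜 := 𝕜)),
      LinearMap.sub_apply, map_sub (sh (sg (cons a c))), s1, s2]
    generalize sh (bd c) (cons b d) = X1
    generalize sh (sg c) d = X2
    generalize sh (sg c) (cons b (bd d)) = X3
    generalize sh (sg (cons a (bd c))) d = X4
    generalize sh (cons a c) (bd d) = X5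
    generalize sh c (cons b d) = X6
    generalize sh (sg (cons a c)) d = X7
    have e6 : X1 + (X2 - X3) + (X4 - X2 + X5) = (X1 + X4) + (-X3 + X5) := by abel
    rw [e6, map_add (cons (a ⊔ b)) (X1 + X4)]
    generalize cons (a ⊔ b) (X1 + X4) = Y1
    generalize cons (a ⊔ b) (-X3 + X5) = Y2
    abel

lemma bd_sh (x y : Ch 𝕜 α) : bd (sh x y) = sh (bd x) y + sh (sg x) (bd y) := by
  have := bilin_ext
    (f := (sh (𝕜 := 𝕜) (α := α)).compr₂ bd)
    (g := (sh (𝕜 := 𝕜) (α := α)).compl₁₂ bd LinearMap.id + (sh (𝕜 := 𝕜) (α := α)).compl₁₂ sg bd)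
    (fun s t => by
      simp only [LinearMap.compl₁₂_apply, LinearMap.compr₂_apply, LinearMap.add_apply,
        LinearMap.id_apply]
      exact bd_sh_list _ s t rfl)
  have h := congrArg (fun F => F x y) this
  simpa only [LinearMap.compl₁₂_apply, LinearMap.compr₂_apply, LinearMap.add_apply,
        LinearMap.id_apply] using h

end Vale.Agent.P240.K
end

section

namespace Vale.Agent.P240.K

open Finsupp

variable {𝕜 : Type*} [Field 𝕜]

variable {α β γ : Type*}

/-- a functional vanishing on lists that are not strictly decreasing -/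
def Nrm [LT α] (lam : Ch 𝕜 α →ₗ[𝕜] 𝕜) : Prop :=
  ∀ l : List α, ¬ l.Pairwise (· > ·) → lam (single l (1 : 𝕜)) = 0

/-- a functional vanishing on boundaries of weak chains in `S` -/
def Coc [LE α] (S : Set α) (lam : Ch 𝕜 α →ₗ[𝕜] 𝕜) : Prop :=
  ∀ c ∈ Sp 𝕜 (wk S), lam (bd c) = 0

/-! ### Existence of functionals -/

lemma exists_functional {V : Type*} [AddCommGroup V] [Module 𝕜 V] (B : Submodule 𝕜 V) (z : V)
    (hz : z ∉ B) : ∃ mu : V →ₗ[𝕜] 𝕜, (∀ b ∈ B, mu b = 0) ∧ mu z ≠ 0 := by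
  obtain ⟨f, hf, hfB⟩ := Submodule.exists_dual_map_eq_bot_of_notMem hz inferInstance
  refine ⟨f, fun b hb => ?_, hf⟩
  have : f b ∈ B.map f := ⟨b, hb, rfl⟩
  rw [hfB] at this
  simpa using this

/-- boundaries of strict chains in `S` -/
noncomputable def Bst (𝕜 : Type*) [Field 𝕜] [LT α] (S : Set α) : Submodule 𝕜 (Ch 𝕜 α) := (Sp 𝕜 (st S)).map bd

lemma exists_cocycle [PartialOrder α] (S : Set α) (V : Submodule 𝕜 (Ch 𝕜 α)) (z : Ch 𝕜 α)
    (hz : pi z ∉ Bst 𝕜 S ⊔ V) :
    ∃ lam : Ch 𝕜 α →ₗ[𝕜] 𝕜, Nrm lam ∧ Coc S lam ∧ (∀ v, pi v ∈ V → lam v = 0) ∧ lam z ≠ 0 := by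
  obtain ⟨mu, h1, h2⟩ := exists_functional _ _ hz
  refine ⟨mu.comp pi, ?_, ?_, ?_, h2⟩
  · intro l hl
    rw [LinearMap.comp_apply, pi_single, if_neg hl, map_zero]
  · intro c hc
    rw [LinearMap.comp_apply, ← bd_pi hc]
    exact h1 _ (Submodule.mem_sup_left ⟨pi c, pi_mem hc, rfl⟩)
  · intro v hv
    exact h1 _ (Submodule.mem_sup_right hv)

lemma Nrm.pi [PartialOrder α] {lam : Ch 𝕜 α →ₗ[𝕜] 𝕜} (h : Nrm lam) (z : Ch 𝕜 α) :
    lam (pi z) = lam z := by
  have := lin_ext_apply (f := lam.comp Vale.Agent.P240.K.pi) (g := lam)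
    (fun l => by
      rw [LinearMap.comp_apply, pi_single]
      split_ifs with hl
      · rfl
      · rw [map_zero, h l hl]) z
  simpa using this

lemma NA_of_functional [PartialOrder α] {S : Set α} (lam : Ch 𝕜 α →ₗ[𝕜] 𝕜)
    (hn : ∀ l, wk S l → ¬ l.Pairwise (· > ·) → lam (single l (1 : 𝕜)) = 0)
    (hc : Coc S lam) (z : Ch 𝕜 α) (hz : z ∈ Sp 𝕜 (wk S)) (hb : bd z = 0) (hl : lam z ≠ 0) : NA 𝕜 S := by
  refine ⟨pi z, pi_mem hz, by rw [bd_pi hz, hb, map_zero], ?_⟩
  intro c hc' h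
  have h1 : lam (pi z) = lam z := by
    have := eq_of_Sp (F := lam.comp Vale.Agent.P240.K.pi) (G := lam)
      (fun l (hl : wk S l) => by
        rw [LinearMap.comp_apply, pi_single]
        split_ifs with h
        · rfl
        · rw [map_zero, hn l hl h]) hz
    simpa using this
  rw [← h] at h1
  rw [hc c (Sp_mono st_wk hc')] at h1
  exact hl h1.symm

/-! ### The detection functional -/

open Classical in
/-- detection functional on lists, with values in functionals of a prefix -/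
noncomputable def PhiL (D : Set α) (f : α → β) (lW : Ch 𝕜 β →ₗ[𝕜] 𝕜) (lD : Ch 𝕜 α →ₗ[𝕜] 𝕜) :
    List α → (Ch 𝕜 β →ₗ[𝕜] 𝕜)
  | [] => lD (single [] (1 : 𝕜)) • lW
  | x :: l => if x ∈ D then lD (single (x :: l) (1 : 𝕜)) • lW else (PhiL D f lW lD l).comp (ap (f x))

/-- detection functional -/
noncomputable def Phi (D : Set α) (f : α → β) (lW : Ch 𝕜 β →ₗ[𝕜] 𝕜) (lD : Ch 𝕜 α →ₗ[𝕜] 𝕜) :
    Ch 𝕜 α →ₗ[𝕜] (Ch 𝕜 β →ₗ[𝕜] 𝕜) := Finsupp.linearCombination 𝕜 (PhiL D f lW lD)

/-- detection functional -/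
noncomputable def phi (D : Set α) (f : α → β) (lW : Ch 𝕜 β →ₗ[𝕜] 𝕜) (lD : Ch 𝕜 α →ₗ[𝕜] 𝕜) :
    Ch 𝕜 α →ₗ[𝕜] 𝕜 := (Phi D f lW lD).flip (single [] (1 : 𝕜))

section
variable {D : Set α} {f : α → β} {lW : Ch 𝕜 β →ₗ[𝕜] 𝕜} {lD : Ch 𝕜 α →ₗ[𝕜] 𝕜}

lemma Phi_single (l : List α) : Phi D f lW lD (single l (1 : 𝕜)) = PhiL D f lW lD l := by
  simp [Phi, Finsupp.linearCombination_single]

lemma phi_single (l : List α) : phi D f lW lD (single l (1 : 𝕜)) = PhiL D f lW lD l (single [] (1 : 𝕜)) := by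
  rw [phi, LinearMap.flip_apply, Phi_single]

lemma PhiL_cons_not {x : α} (hx : x ∉ D) (l : List α) :
    PhiL D f lW lD (x :: l) = (PhiL D f lW lD l).comp (ap (f x)) := by
  rw [PhiL, if_neg hx]

lemma PhiL_cons_mem {x : α} (hx : x ∈ D) (l : List α) :
    PhiL D f lW lD (x :: l) = lD (single (x :: l) (1 : 𝕜)) • lW := by
  rw [PhiL, if_pos hx]

lemma PhiL_of_D {l : List α} (hl : ∀ a ∈ l, a ∈ D) :
    PhiL D f lW lD l = lD (single l (1 : 𝕜)) • lW := by
  cases l with
  | nil => rw [PhiL]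
  | cons x l => rw [PhiL_cons_mem (hl x (by simp))]

lemma Phi_of_D {c : Ch 𝕜 α} (hc : c ∈ Sp 𝕜 (fun l : List α => ∀ a ∈ l, a ∈ D)) :
    Phi D f lW lD c = lD c • lW := by
  have := eq_of_Sp (F := Phi D f lW lD) (G := lD.smulRight lW)
    (fun l (hl : ∀ a ∈ l, a ∈ D) => by
      rw [Phi_single, PhiL_of_D hl]; rfl) hc
  simpa using this

lemma Phi_cons_not {x : α} (hx : x ∉ D) (c : Ch 𝕜 α) (P : Ch 𝕜 β) :
    Phi D f lW lD (cons x c) P = Phi D f lW lD c (ap (f x) P) := by
  have := lin_ext_apply (f := (Phi D f lW lD).comp (cons x))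
    (g := (LinearMap.lcomp 𝕜 𝕜 (ap (f x))).comp (Phi D f lW lD))
    (fun l => by
      simp only [LinearMap.comp_apply, cons_single, Phi_single, PhiL_cons_not hx]
      rfl) c
  have h := congrArg (fun F => F P) this
  simpa using h

/-- the cocycle property of the detection functional -/
lemma Phi_bd [PartialOrder α] [PartialOrder β] {S : Set α} {SW : Set β}
    (hlow : ∀ x ∈ S, ∀ y ∈ S, x ≤ y → y ∈ D → x ∈ D)
    (hf : ∀ x ∈ S, x ∉ D → f x ∈ SW)
    (hmono : ∀ x ∈ S, x ∉ D → ∀ y ∈ S, y ∉ D → x ≤ y → f x ≤ f y)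
    (hW : Coc SW lW) (hD : Coc (S ∩ D) lD) :
    ∀ (l : List α), wk S l → ∀ P : Ch 𝕜 β,
      P ∈ Sp 𝕜 (fun p : List β => wk SW p ∧ ∀ b ∈ p, ∀ x ∈ l, x ∉ D → f x ≤ b) →
      Phi D f lW lD (bd (single l (1 : 𝕜))) P = PhiL D f lW lD l (sg (bd P)) := by
  have hW' : ∀ P ∈ Sp 𝕜 (wk SW), lW (sg (bd P)) = 0 := by
    intro P hP
    have := hW (sg P) (sg_mem hP)
    rw [bd_sg, map_neg, neg_eq_zero] at this
    exact this
  intro l
  induction l with
  | nil =>
    intro _ P hP
    rw [PhiL, bd_single_nil, map_zero, LinearMap.zero_apply, LinearMap.smul_apply,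
      hW' P (Sp_mono (fun p hp => hp.1) hP), smul_zero]
  | cons x l ih =>
    intro hl P hP
    have hp := List.pairwise_cons.1 hl.1
    have hxS : x ∈ S := hl.2 x (by simp)
    have hlS : wk S l := ⟨hp.2, fun a ha => hl.2 a (by simp [ha])⟩
    by_cases hx : x ∈ D
    · have hall : ∀ a ∈ x :: l, a ∈ D := by
        intro a ha
        rcases List.mem_cons.1 ha with h | ha'
        · rw [h]; exact hx
        · exact hlow a (hl.2 a ha) x hxS (hp.1 a ha') hx
      have hm : single (x :: l) (1 : 𝕜) ∈ Sp 𝕜 (wk (S ∩ D)) :=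
        single_mem_Sp ⟨hl.1, fun a ha => ⟨hl.2 a ha, hall a ha⟩⟩ _
      rw [PhiL_of_D hall, Phi_of_D, hD _ hm, LinearMap.smul_apply, LinearMap.smul_apply,
        hW' P (Sp_mono (fun p hp => hp.1) hP), zero_smul, smul_zero]
      exact Sp_mono (fun l hl a ha => (hl.2 a ha).2) (bd_wk hm)
    · have hP' : ap (f x) P ∈ Sp 𝕜 (fun p : List β => wk SW p ∧
          ∀ b ∈ p, ∀ y ∈ l, y ∉ D → f y ≤ b) := by
        refine ap_mem ?_ hP
        rintro p ⟨hp1, hp2⟩
        refine ⟨⟨?_, ?_⟩, ?_⟩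
        · rw [List.pairwise_append]
          refine ⟨hp1.1, by simp, ?_⟩
          intro a ha b hb
          rw [List.mem_singleton] at hb
          rw [hb]
          exact hp2 a ha x (by simp) hx
        · intro a ha
          rcases List.mem_append.1 ha with ha | ha
          · exact hp1.2 a ha
          · rw [List.mem_singleton] at ha
            rw [ha]
            exact hf x hxS hx
        · intro b hb y hy hyD
          rcases List.mem_append.1 hb with hb | hb
          · exact hp2 b hb y (by simp [hy]) hyD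
          · rw [List.mem_singleton] at hb
            rw [hb]
            exact hmono y (hlS.2 y hy) hyD x hxS hx (hp.1 y hy)
      rw [bd_single_cons, map_sub, LinearMap.sub_apply, Phi_cons_not hx, ih hlS _ hP',
        PhiL_cons_not hx, Phi_single, LinearMap.comp_apply, bd_ap, map_add, sg_sg, sg_ap, map_add,
        map_neg]
      abel

lemma phi_coc [PartialOrder α] [PartialOrder β] {S : Set α} {SW : Set β}
    (hlow : ∀ x ∈ S, ∀ y ∈ S, x ≤ y → y ∈ D → x ∈ D)
    (hf : ∀ x ∈ S, x ∉ D → f x ∈ SW)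
    (hmono : ∀ x ∈ S, x ∉ D → ∀ y ∈ S, y ∉ D → x ≤ y → f x ≤ f y)
    (hW : Coc SW lW) (hD : Coc (S ∩ D) lD) : Coc S (phi D f lW lD) := by
  intro c hc
  have := eq_of_Sp (F := (phi D f lW lD).comp bd) (G := 0) (fun l (hl : wk S l) => by
    rw [LinearMap.comp_apply, phi, LinearMap.flip_apply,
      Phi_bd hlow hf hmono hW hD l hl _ (single_mem_Sp ⟨⟨by simp, by simp⟩, by simp⟩ _)]
    simp) hc
  simpa using this

lemma PhiL_prefix [LT β] (hn : Nrm lW) (l : List α) :
    ∀ p : List β, ¬ p.Pairwise (· > ·) → PhiL D f lW lD l (single p 1) = 0 := by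
  induction l with
  | nil => intro p hp; rw [PhiL, LinearMap.smul_apply, hn p hp, smul_zero]
  | cons x l ih =>
    intro p hp
    by_cases hx : x ∈ D
    · rw [PhiL_cons_mem hx, LinearMap.smul_apply, hn p hp, smul_zero]
    · rw [PhiL_cons_not hx, LinearMap.comp_apply, ap_single]
      refine ih _ fun h => hp ?_
      exact (List.pairwise_append.1 h).1

lemma PhiL_nrm [PartialOrder α] [PartialOrder β] {S : Set α} (hnW : Nrm lW) (hnD : Nrm lD) :
    ∀ l : List α, wk S l → ¬ l.Pairwise (· > ·) → ∀ p : List β,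
      PhiL D f lW lD l (single p 1) = 0 := by
  intro l
  induction l with
  | nil => intro _ h; exact absurd List.Pairwise.nil h
  | cons x l ih =>
    intro hl hns p
    have hp := List.pairwise_cons.1 hl.1
    have hxS : x ∈ S := hl.2 x (by simp)
    have hlS : wk S l := ⟨hp.2, fun a ha => hl.2 a (by simp [ha])⟩
    by_cases hx : x ∈ D
    · rw [PhiL_cons_mem hx, LinearMap.smul_apply, hnD _ hns, zero_smul]
    · rw [PhiL_cons_not hx, LinearMap.comp_apply, ap_single]
      by_cases hls : l.Pairwise (· > ·)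
      · rcases l with _ | ⟨y, l⟩
        · exact absurd (List.pairwise_singleton _ _) hns
        · have hxy : x = y := by
            by_contra hne
            apply hns
            have hyx : y < x := lt_of_le_of_ne (hp.1 y (by simp)) (Ne.symm hne)
            rw [List.pairwise_cons]
            refine ⟨?_, hls⟩
            intro a ha
            rcases List.mem_cons.1 ha with h | ha
            · rw [h]; exact hyx
            · exact lt_of_le_of_lt (le_of_lt ((List.pairwise_cons.1 hls).1 a ha)) hyx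
          subst hxy
          rw [PhiL_cons_not hx, LinearMap.comp_apply, ap_single]
          refine PhiL_prefix hnW _ _ fun h => ?_
          rw [List.append_assoc, List.pairwise_append] at h
          have := h.2.1
          simp at this
      · exact ih hlS hls _

/-- evaluation of the detection functional on shuffle products -/
lemma PhiL_shuffle [PartialOrder β] [Max α] {A B : Set α}
    (hA : ∀ a ∈ A, a ∉ D) (hB : ∀ b ∈ B, b ∈ D)
    (hAB : ∀ a ∈ A, ∀ b ∈ B, a ⊔ b ∉ D ∧ f (a ⊔ b) = f a) (hnW : Nrm lW) (n : ℕ) :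
    ∀ s t : List α, s.length + t.length = n → (∀ a ∈ s, a ∈ A) → (∀ b ∈ t, b ∈ B) →
      ∀ p : List β, Phi D f lW lD (sh (single s (1 : 𝕜)) (single t (1 : 𝕜))) (single p 1) =
        lW (single (p ++ s.map f) 1) * lD (single t (1 : 𝕜)) := by
  induction n with
  | zero =>
    intro s t h _ _ p
    have hs : s = [] := List.length_eq_zero_iff.1 (by omega)
    have ht : t = [] := List.length_eq_zero_iff.1 (by omega)
    subst hs ht
    rw [sh_nil_left, Phi_single, PhiL]
    simp [mul_comm]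
  | succ n ih =>
    intro s t h hs ht p
    rcases s with _ | ⟨a, s⟩
    · rw [sh_nil_left, Phi_single, PhiL_of_D fun b hb => hB b (ht b hb)]
      simp [mul_comm]
    rcases t with _ | ⟨b, t⟩
    · rw [sh_nil_right]
      have : ∀ (s : List α) (hs : ∀ a ∈ s, a ∈ A) (p : List β),
          PhiL D f lW lD s (single p 1) = lW (single (p ++ s.map f) 1) * lD (single [] (1 : 𝕜)) := by
        intro s
        induction s with
        | nil => intro _ p; rw [PhiL]; simp [mul_comm]
        | cons a s ih' =>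
          intro hs p
          rw [PhiL_cons_not (hA a (hs a (by simp))), LinearMap.comp_apply, ap_single,
            ih' (fun x hx => hs x (by simp [hx]))]
          simp
      rw [Phi_single, this _ hs]
    have h1 := ih s (b :: t) (by simp only [List.length_cons] at h ⊢; omega)
      (fun x hx => hs x (by simp [hx])) ht (p ++ [f a])
    have h2 := ih (a :: s) t (by simp only [List.length_cons] at h ⊢; omega) hs
      (fun x hx => ht x (by simp [hx])) (p ++ [f a])
    have hab := hAB a (hs a (by simp)) b (ht b (by simp))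
    rw [← cons_single a s, ← cons_single b t, sh_cons_cons, Phi_cons_not hab.1, hab.2, ap_single,
      map_add, LinearMap.add_apply, cons_single, cons_single, h1, sg_single, map_smul sh,
      LinearMap.smul_apply, map_smul (Phi D f lW lD), LinearMap.smul_apply, h2]
    have h3 : lW (single (p ++ [f a] ++ List.map f (a :: s)) 1) = 0 := by
      refine hnW _ fun h => ?_
      rw [List.append_assoc, List.pairwise_append] at h
      have := h.2.1
      simp at this
    rw [h3]
    simp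

lemma phi_shuffle [PartialOrder β] [Max α] {A B : Set α}
    (hA : ∀ a ∈ A, a ∉ D) (hB : ∀ b ∈ B, b ∈ D)
    (hAB : ∀ a ∈ A, ∀ b ∈ B, a ⊔ b ∉ D ∧ f (a ⊔ b) = f a) (hnW : Nrm lW)
    {x y : Ch 𝕜 α} (hx : x ∈ Sp 𝕜 (fun l : List α => ∀ a ∈ l, a ∈ A))
    (hy : y ∈ Sp 𝕜 (fun l : List α => ∀ b ∈ l, b ∈ B)) :
    phi D f lW lD (sh x y) = lW (mp f x) * lD y := by
  have h1 : ∀ s : List α, (∀ a ∈ s, a ∈ A) → ∀ {y : Ch 𝕜 α},
      y ∈ Sp 𝕜 (fun l : List α => ∀ b ∈ l, b ∈ B) →
      phi D f lW lD (sh (single s (1 : 𝕜)) y) = lW (mp f (single s (1 : 𝕜))) * lD y := by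
    intro s hs y hy
    have := eq_of_Sp (F := (phi D f lW lD).comp (sh (single s (1 : 𝕜))))
      (G := (lW (mp f (single s (1 : 𝕜)))) • lD)
      (fun t (ht : ∀ b ∈ t, b ∈ B) => by
        have := PhiL_shuffle (lD := lD) hA hB hAB hnW _ s t rfl hs ht []
        rw [LinearMap.comp_apply, phi, LinearMap.flip_apply, this, LinearMap.smul_apply,
          mp_single, smul_eq_mul, List.nil_append]) hy
    simpa using this
  have := eq_of_Sp (F := ((phi D f lW lD).comp ((sh).flip y)))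
      (G := (lD y) • (lW.comp (mp f)))
      (fun s (hs : ∀ a ∈ s, a ∈ A) => by
        rw [LinearMap.comp_apply, LinearMap.flip_apply, h1 s hs hy, LinearMap.smul_apply,
          LinearMap.comp_apply, smul_eq_mul, mul_comm]) hx
  simp only [LinearMap.comp_apply, LinearMap.flip_apply, LinearMap.smul_apply, smul_eq_mul] at this
  rw [this, mul_comm]

end

/-! ### Extension by zero over movers -/

section ext
open Classical in
/-- keep lists all of whose entries lie in `U` -/
noncomputable def res (U : Set α) : Ch 𝕜 α →ₗ[𝕜] Ch 𝕜 α :=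
  Finsupp.linearCombination 𝕜 fun l : List α => if ∀ a ∈ l, a ∈ U then single l (1 : 𝕜) else 0

open Classical in
lemma res_single (U : Set α) (l : List α) :
    res U (single l (1 : 𝕜)) = if ∀ a ∈ l, a ∈ U then single l (1 : 𝕜) else 0 := by
  simp [res, Finsupp.linearCombination_single]

lemma res_of_mem {U : Set α} {c : Ch 𝕜 α} (hc : c ∈ Sp 𝕜 (fun l : List α => ∀ a ∈ l, a ∈ U)) :
    res U c = c := by
  have := eq_of_Sp (F := res U) (G := LinearMap.id) (fun l (hl : ∀ a ∈ l, a ∈ U) => by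
    rw [res_single, if_pos hl]; rfl) hc
  simpa using this

lemma res_of_not {U : Set α} {c : Ch 𝕜 α} (hc : c ∈ Sp 𝕜 (fun l : List α => ∃ a ∈ l, a ∉ U)) :
    res U c = 0 := by
  have := eq_of_Sp (F := res U) (G := 0) (fun l (hl : ∃ a ∈ l, a ∉ U) => by
    rw [res_single, if_neg (fun h => by
      obtain ⟨a, ha, hau⟩ := hl
      exact hau (h a ha))]; rfl) hc
  simpa using this

lemma ext_coc [PartialOrder α] [Preorder β] {S U : Set α} {T : Set β} {rho : α → β}
    {psi : Ch 𝕜 β →ₗ[𝕜] 𝕜}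
    (hU : ∀ x ∈ S, x ∈ U → ∀ y ∈ S, x ≤ y → y ∈ U)
    (hrho : ∀ x ∈ S, x ∈ U → rho x ∈ T)
    (hmono : ∀ x ∈ S, x ∈ U → ∀ y ∈ S, y ∈ U → x ≤ y → rho x ≤ rho y)
    (hpsi : Coc T psi)
    (hvan : ∀ l, wk S l → (∀ a ∈ l, a ∈ U) → ∀ e ∈ S, e ∉ U → (∀ a ∈ l, e ≤ a) →
      psi (single (l.map rho) (1 : 𝕜)) = 0) :
    Coc S ((psi.comp (mp rho)).comp (res U)) := by
  intro c hc
  have := eq_of_Sp (F := ((psi.comp (mp rho)).comp (res U)).comp bd) (G := 0)
    (fun l (hl : wk S l) => ?_) hc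
  · simpa using this
  simp only [LinearMap.comp_apply, LinearMap.zero_apply]
  by_cases hall : ∀ a ∈ l, a ∈ U
  · have hm : single l (1 : 𝕜) ∈ Sp 𝕜 (fun l : List α => ∀ a ∈ l, a ∈ U) := single_mem_Sp hall _
    rw [res_of_mem (bd_mem (fun l l' hs h a ha => h a (hs.subset ha)) hm), ← bd_mp, mp_single]
    refine hpsi _ (single_mem_Sp ⟨?_, ?_⟩ _)
    · rw [List.pairwise_map]
      exact hl.1.imp_of_mem fun {a b} ha hb hab =>
        hmono _ (hl.2 b hb) (hall b hb) _ (hl.2 a ha) (hall a ha) hab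
    · intro a ha
      obtain ⟨b, hb, rfl⟩ := List.mem_map.1 ha
      exact hrho _ (hl.2 b hb) (hall b hb)
  · push Not at hall
    obtain ⟨e0, he0, he0U⟩ := hall
    rcases List.eq_nil_or_concat l with rfl | ⟨l1, e, rfl⟩
    · simp at he0
    rw [List.concat_eq_append] at *
    have hp := List.pairwise_append.1 hl.1
    have heS : e ∈ S := hl.2 e (by simp)
    have heU : e ∉ U := by
      rcases List.mem_append.1 he0 with h | h
      · intro he
        exact he0U (hU e heS he e0 (hl.2 e0 he0) (hp.2.2 e0 h e (by simp)))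
      · rw [List.mem_singleton] at h
        rw [← h]; exact he0U
    have e1 : single (l1 ++ [e]) (1 : 𝕜) = ap e (single l1 1) := by simp
    rw [e1, bd_ap, map_add, res_of_not, zero_add]
    · by_cases hl1 : ∀ a ∈ l1, a ∈ U
      · rw [sg_single, map_smul, res_of_mem (single_mem_Sp hl1 _), map_smul, map_smul, mp_single,
          hvan l1 ⟨hp.1, fun a ha => hl.2 a (by simp [ha])⟩ hl1 e heS heU
            (fun a ha => hp.2.2 a ha e (by simp)), smul_zero]
      · push Not at hl1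
        rw [sg_single, map_smul, res_of_not (single_mem_Sp hl1 _), smul_zero, map_zero, map_zero]
    · have hm : bd (single l1 (1 : 𝕜)) ∈ Sp 𝕜 (fun _ : List α => True) :=
        bd_mem (fun _ _ _ _ => trivial) (single_mem_Sp trivial _)
      exact ap_mem (fun l _ => ⟨e, by simp, heU⟩) hm

end ext

end Vale.Agent.P240.K
end

section

namespace Vale.Agent.P240.K

open Finsupp

variable {𝕜 : Type*} [Field 𝕜]

variable {α β γ : Type*}

/-- Chains in a union of cones bound in the ambient poset. -/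
lemma rel_zero [SemilatticeSup α] {ι : Type*} [DecidableEq ι] (S : Set α) (T : ι → Set α)
    (F : ι → α) (hTS : ∀ i, T i ⊆ S) (hFS : ∀ i, F i ∈ S) (hφ : ∀ i, ∀ x ∈ T i, x ⊔ F i ∈ S)
    (hFT : ∀ i j, i ≠ j → F i ∈ T j) (hφT : ∀ i j, i ≠ j → ∀ x ∈ T i, x ∈ T j → x ⊔ F i ∈ T j)
    (s : Finset ι) : ∀ z : Ch 𝕜 α, z ∈ Sp 𝕜 (fun l => ∃ i ∈ s, wk (T i) l) → bd z = 0 →
      ∃ c ∈ Sp 𝕜 (wk S), bd c = z := by
  induction s using Finset.induction_on with
  | empty =>
    intro z hz _
    refine ⟨0, Submodule.zero_mem _, ?_⟩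
    rw [mem_Sp] at hz
    have : z.support = ∅ := by
      rw [Finset.eq_empty_iff_forall_notMem]
      intro l hl
      obtain ⟨i, hi, _⟩ := hz l hl
      simp at hi
    rw [Finsupp.support_eq_empty] at this
    rw [this, map_zero]
  | insert a s ha ih =>
    intro z hz hb
    -- split `z`
    have hsplit : z ∈ Sp 𝕜 (fun l => ∃ i ∈ s, wk (T i) l) ⊔ Sp 𝕜 (wk (T a)) := by
      rw [Sp, Sp, ← Finsupp.supported_union]
      refine Finsupp.supported_mono ?_ hz
      rintro l ⟨i, hi, hl⟩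
      rcases Finset.mem_insert.1 hi with h | h
      · right
        rw [h] at hl
        exact hl
      · left
        exact ⟨i, h, hl⟩
    obtain ⟨z1, hz1, z2, hz2, rfl⟩ := Submodule.mem_sup.1 hsplit
    have hb1 : bd z1 = - bd z2 := by
      rw [map_add] at hb
      exact eq_neg_of_add_eq_zero_left hb
    set h := hc (𝕜 := 𝕜) (fun x => x ⊔ F a) (F a) with hh
    have hm2 : h z2 ∈ Sp 𝕜 (wk S) :=
      hc_mem (hTS a) (hFS a) (hφ a) (fun x _ => le_sup_right) (fun x _ => le_sup_left)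
        (fun x _ y _ hxy => sup_le_sup_right hxy _) hz2
    have hmb : bd z1 ∈ Sp 𝕜 (fun l => (∃ i ∈ s, wk (T i) l) ∧ wk (T a) l) := by
      refine mem_Sp_inf (bd_mem ?_ hz1) ?_
      · rintro l l' hs ⟨i, hi, hl⟩
        exact ⟨i, hi, wk_sub l l' hs hl⟩
      · rw [hb1]
        exact Submodule.neg_mem _ (bd_wk hz2)
    have hmh : h (bd z1) ∈ Sp 𝕜 (fun l => ∃ i ∈ s, wk (T i) l) := by
      refine map_mem h ?_ hmb
      rintro l ⟨⟨i, hi, hl⟩, hl'⟩
      have hia : a ≠ i := fun h => ha (h ▸ hi)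
      have h1 : single l (1 : 𝕜) ∈ Sp 𝕜 (wk (T i ∩ T a)) :=
        single_mem_Sp ⟨hl.1, fun b hb => ⟨hl.2 b hb, hl'.2 b hb⟩⟩ _
      have h2 : h (single l (1 : 𝕜)) ∈ Sp 𝕜 (wk (T i)) :=
        hc_mem (Set.inter_subset_left) (hFT a i hia) (fun x hx => hφT a i hia x hx.2 hx.1)
          (fun x _ => le_sup_right) (fun x _ => le_sup_left)
          (fun x _ y _ hxy => sup_le_sup_right hxy _) h1
      exact Sp_mono (fun l hl => ⟨i, hi, hl⟩) h2
    obtain ⟨c, hcS, hbc⟩ := ih (z1 - h (bd z1)) (Submodule.sub_mem _ hz1 hmh) (by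
      have h3 := bd_hc (fun x => x ⊔ F a) (F a) (bd z1)
      rw [bd_bd, map_zero, add_zero] at h3
      rw [map_sub, hh, h3, sub_self])
    refine ⟨c + h z2, Submodule.add_mem _ hcS hm2, ?_⟩
    have h4 := bd_hc (fun x => x ⊔ F a) (F a) z2
    rw [← hh] at h4
    have h5 : bd (h z2) = z2 - h (bd z2) := eq_sub_of_add_eq h4
    have h6 : h (bd z2) = - h (bd z1) := by rw [hb1, map_neg, neg_neg]
    rw [map_add, hbc, h5, h6]
    generalize h (bd z1) = w
    abel

/-! ### The exactness argument -/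

open Classical in
/-- remove the head `X` -/
noncomputable def hdL (X : α) : List α → Ch 𝕜 α
  | [] => 0
  | y :: l => if y = X then single l (1 : 𝕜) else 0

/-- remove the head `X` -/
noncomputable def hd (X : α) : Ch 𝕜 α →ₗ[𝕜] Ch 𝕜 α := Finsupp.linearCombination 𝕜 (hdL X)

lemma hd_single (X : α) (l : List α) : hd X (single l (1 : 𝕜)) = hdL X l := by
  simp [hd, Finsupp.linearCombination_single]

lemma hd_cons_self (X : α) (c : Ch 𝕜 α) : hd X (cons X c) = c := by
  have := lin_ext_apply (f := (hd X).comp (cons X)) (g := LinearMap.id)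
    (fun l => by simp [hd_single, hdL]) c
  simpa using this

lemma hd_cons_ne {X y : α} (h : y ≠ X) (c : Ch 𝕜 α) : hd X (cons y c) = 0 := by
  have := lin_ext_apply (f := (hd X).comp (cons y)) (g := 0)
    (fun l => by simp [hd_single, hdL, h]) c
  simpa using this

open Classical in
/-- lists whose head is not in `P` -/
noncomputable def nh (P : Set α) : Ch 𝕜 α →ₗ[𝕜] Ch 𝕜 α :=
  Finsupp.linearCombination 𝕜 fun l : List α =>
    if ∃ x ∈ l.head?, x ∈ P then 0 else single l (1 : 𝕜)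

open Classical in
lemma nh_single (P : Set α) (l : List α) :
    nh P (single l (1 : 𝕜)) = if ∃ x ∈ l.head?, x ∈ P then 0 else single l (1 : 𝕜) := by
  simp [nh, Finsupp.linearCombination_single]

lemma exact_split [PartialOrder α] {S P : Set α} (hP : ∀ X ∈ P, ∀ Y ∈ S, Y ≤ X → Y = X)
    {c z : Ch 𝕜 α} (hc : c ∈ Sp 𝕜 (st S)) (hz : z ∈ Sp 𝕜 (st (S \ P))) (hcz : bd c = z) :
    ∃ c0 ∈ Sp 𝕜 (st (S \ P)), ∃ (s : Finset α) (e : α → Ch 𝕜 α), (∀ X ∈ s, X ∈ P ∧ X ∈ S) ∧
      (∀ X ∈ s, e X ∈ Sp 𝕜 (st {Y | Y ∈ S ∧ X < Y}) ∧ bd (e X) = 0) ∧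
      z = bd c0 + ∑ X ∈ s, e X := by
  classical
  let si : Set α → List α → Prop := fun S l => l.Pairwise (· < ·) ∧ ∀ a ∈ l, a ∈ S
  have hst_si : ∀ (S : Set α) (l : List α), st S l → si S l.reverse := by
    intro S l hl
    refine ⟨?_, fun a ha => hl.2 a (by simpa using ha)⟩
    rw [List.pairwise_reverse]
    exact hl.1
  have hsi_st : ∀ (S : Set α) (l : List α), si S l → st S l.reverse := by
    intro S l hl
    refine ⟨?_, fun a ha => hl.2 a (by simpa using ha)⟩
    rw [List.pairwise_reverse]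
    exact hl.1
  have hc' : rv c ∈ Sp 𝕜 (si S) := rv_mem (hst_si S) hc
  have hz' : rv z ∈ Sp 𝕜 (si (S \ P)) := rv_mem (hst_si _) hz
  have hbc : bd (rv c) = rv z := by rw [bd_rv, hcz]
  -- the heads
  let s : Finset α := ((rv c).support.biUnion fun l => l.toFinset).filter fun x => x ∈ P
  have hs : ∀ X ∈ s, X ∈ P ∧ X ∈ S := by
    intro X hX
    rw [Finset.mem_filter, Finset.mem_biUnion] at hX
    obtain ⟨⟨l, hl, hXl⟩, hXP⟩ := hX
    exact ⟨hXP, ((mem_Sp.1 hc') l hl).2 X (by simpa using hXl)⟩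
  have hc'' : rv c ∈ Sp 𝕜 (fun l => si S l ∧ ∀ x ∈ l, x ∈ P → x ∈ s) := by
    refine mem_Sp_inf hc' ?_
    rw [mem_Sp]
    intro l hl x hx hxP
    rw [Finset.mem_filter, Finset.mem_biUnion]
    exact ⟨⟨l, hl, by simpa using hx⟩, hxP⟩
  -- decomposition
  have hdec : rv c = nh P (rv c) + ∑ X ∈ s, cons X (hd X (rv c)) := by
    have := eq_of_Sp (F := (LinearMap.id : Ch 𝕜 α →ₗ[𝕜] Ch 𝕜 α))
      (G := nh P + ∑ X ∈ s, (cons X).comp (hd X))
      (fun l (hl : si S l ∧ ∀ x ∈ l, x ∈ P → x ∈ s) => ?_) hc''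
    · simpa using this
    simp only [LinearMap.id_apply, LinearMap.add_apply, LinearMap.sum_apply,
      LinearMap.comp_apply, nh_single]
    rcases l with _ | ⟨y, l⟩
    · simp [hd_single, hdL]
    · by_cases hy : y ∈ P
      · rw [if_pos ⟨y, by simp, hy⟩, zero_add, Finset.sum_eq_single y]
        · rw [← cons_single, hd_cons_self]
        · intro b _ hb
          rw [← cons_single, hd_cons_ne (Ne.symm hb), map_zero]
        · intro h
          exact absurd (hl.2 y (by simp) hy) h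
      · rw [if_neg (by simpa using hy), Finset.sum_eq_zero, add_zero]
        intro b hb
        rw [← cons_single, hd_cons_ne, map_zero]
        rintro rfl
        exact hy (hs _ hb).1
  -- `bd` and `hd`
  have hbh : ∀ X ∈ s, bd (hd X (rv c)) = 0 := by
    intro X hX
    have h1 : bd (hd X (rv c)) = - hd X (bd (rv c)) := by
      have := eq_of_Sp (F := (bd (𝕜 := 𝕜)).comp (hd X)) (G := - (hd (𝕜 := 𝕜) X).comp bd)
        (fun l (hl : si S l) => ?_) hc'
      · simpa using this
      simp only [LinearMap.comp_apply, LinearMap.neg_apply]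
      rcases l with _ | ⟨y, l⟩
      · simp [hd_single, hdL]
      · have hp := List.pairwise_cons.1 hl.1
        rw [← cons_single, bd_cons, map_sub]
        by_cases hy : y = X
        · subst hy
          rw [hd_cons_self, hd_cons_self]
          have : hd y (single l (1 : 𝕜)) = 0 := by
            rcases l with _ | ⟨w, l⟩
            · simp [hd_single, hdL]
            · rw [← cons_single, hd_cons_ne]
              exact (ne_of_lt (hp.1 w (by simp))).symm
          rw [this]; abel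
        · rw [hd_cons_ne hy, hd_cons_ne hy]
          have : hd X (single l (1 : 𝕜)) = 0 := by
            rcases l with _ | ⟨w, l⟩
            · simp [hd_single, hdL]
            · rw [← cons_single, hd_cons_ne]
              rintro rfl
              exact hy (hP w (hs _ hX).1 y (hl.2 y (by simp)) (le_of_lt (hp.1 w (by simp))))
          rw [this]; simp
    rw [h1, hbc]
    have h2 := eq_of_Sp (F := hd X) (G := 0) (fun l (hl : si (S \ P) l) => by
      rcases l with _ | ⟨w, l⟩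
      · simp [hd_single, hdL]
      · rw [← cons_single, hd_cons_ne]
        · rfl
        rintro rfl
        exact (hl.2 w (by simp)).2 (hs _ hX).1) hz'
    rw [h2]; simp
  have hmem : ∀ X ∈ s, hd X (rv c) ∈ Sp 𝕜 (si {Y | Y ∈ S ∧ X < Y}) := by
    intro X hX
    refine map_mem _ (fun l (hl : si S l) => ?_) hc'
    rcases l with _ | ⟨w, l⟩
    · simp [hd_single, hdL]
    · have hp := List.pairwise_cons.1 hl.1
      by_cases hw : w = X
      · subst hw
        rw [← cons_single, hd_cons_self]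
        exact single_mem_Sp ⟨hp.2, fun a ha => ⟨hl.2 a (by simp [ha]), hp.1 a ha⟩⟩ _
      · rw [← cons_single, hd_cons_ne hw]
        exact Submodule.zero_mem _
  have hnh : nh P (rv c) ∈ Sp 𝕜 (si (S \ P)) := by
    refine map_mem _ (fun l (hl : si S l) => ?_) hc'
    rw [nh_single]
    split_ifs with h
    · exact Submodule.zero_mem _
    · refine single_mem_Sp ⟨hl.1, fun a ha => ⟨hl.2 a ha, fun haP => ?_⟩⟩ _
      rcases l with _ | ⟨w, l⟩
      · simp at ha
      · have hp := List.pairwise_cons.1 hl.1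
        apply h
        refine ⟨w, by simp, ?_⟩
        rcases List.mem_cons.1 ha with h' | h'
        · rw [← h']; exact haP
        · rw [hP a haP w (hl.2 w (by simp)) (le_of_lt (hp.1 a h'))]
          exact haP
  refine ⟨rv (nh P (rv c)), rv_mem (hsi_st _) hnh, s, fun X => rv (hd X (rv c)), hs, ?_, ?_⟩
  · intro X hX
    refine ⟨rv_mem (hsi_st _) (hmem X hX), ?_⟩
    rw [bd_rv, hbh X hX, map_zero]
  · have h1 : rv z = bd (nh P (rv c)) + ∑ X ∈ s, hd X (rv c) := by
      rw [← hbc]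
      conv_lhs => rw [hdec]
      rw [map_add, map_sum]
      congr 1
      refine Finset.sum_congr rfl fun X hX => ?_
      rw [bd_cons, hbh X hX, map_zero, sub_zero]
    have h2 := congrArg rv h1
    rw [rv_rv, map_add, map_sum, ← bd_rv] at h2
    exact h2

end Vale.Agent.P240.K
end

section

namespace Vale.Agent.P240.K

open Finsupp Subgroup

variable {𝕜 : Type*} [Field 𝕜]

/-- The set of nontrivial elementary abelian `p`-subgroups. -/
def ApS (p : ℕ) (G : Type*) [Group G] : Set (Subgroup G) :=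
  {E | E ≠ ⊥ ∧ (∀ x ∈ E, ∀ y ∈ E, x * y = y * x) ∧ ∀ x ∈ E, x ^ p = 1}

/-- those contained in `H` -/
def Ain (p : ℕ) {G : Type*} [Group G] (H : Subgroup G) : Set (Subgroup G) :=
  {E | E ∈ ApS p G ∧ E ≤ H}

variable {G Q : Type*} [Group G] [Group Q] {p : ℕ}

lemma HQ_iff : HQ 𝕜 p G ↔ NA 𝕜 (ApS p G) := by
  rw [HQ, official_iff]
  have h : (Subtype.val '' (Set.univ : Set (Ap p G))) = ApS p G := by
    ext E
    simp [ApS]
  rw [← h]
  exact (NA_image Subtype.val_injective.injOn fun x _ y _ => Iff.rfl).symm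

lemma HQ_sub_iff (H : Subgroup G) : HQ 𝕜 p H ↔ NA 𝕜 (Ain p H) := by
  rw [HQ_iff]
  have h : (fun E : Subgroup H => E.map H.subtype) '' (ApS p H) = Ain p H := by
    ext E
    constructor
    · rintro ⟨F, ⟨h1, h2, h3⟩, rfl⟩
      refine ⟨⟨?_, ?_, ?_⟩, ?_⟩
      · intro h
        exact h1 ((Subgroup.map_eq_bot_iff_of_injective _ H.subtype_injective).1 h)
      · rintro _ ⟨x, hx, rfl⟩ _ ⟨y, hy, rfl⟩
        rw [← map_mul, ← map_mul, h2 x hx y hy]
      · rintro _ ⟨x, hx, rfl⟩
        rw [← map_pow, h3 x hx, map_one]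
      · exact Subgroup.map_subtype_le F
    · rintro ⟨⟨h1, h2, h3⟩, h4⟩
      refine ⟨E.subgroupOf H, ⟨?_, ?_, ?_⟩, ?_⟩
      · intro h
        apply h1
        rw [Subgroup.subgroupOf_eq_bot] at h
        exact disjoint_self.1 (h.mono_right h4)
      · intro x hx y hy
        rw [Subgroup.mem_subgroupOf] at hx hy
        exact Subtype.ext (h2 _ hx _ hy)
      · intro x hx
        rw [Subgroup.mem_subgroupOf] at hx
        exact Subtype.ext (h3 _ hx)
      · exact Subgroup.map_subgroupOf_eq_of_le h4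
  rw [← h]
  refine (NA_image (Subgroup.map_injective H.subtype_injective).injOn fun x _ y _ => ?_).symm
  constructor
  · intro hxy
    refine lt_of_le_of_ne (Subgroup.map_mono hxy.le) fun h => hxy.ne ?_
    exact Subgroup.map_injective H.subtype_injective h
  · intro hxy
    refine lt_of_le_of_ne ((Subgroup.map_le_map_iff_of_injective H.subtype_injective).1 hxy.le) ?_
    rintro rfl
    exact lt_irrefl _ hxy

lemma sup_mem_ApS {E F : Subgroup G} (hE : E ∈ ApS p G) (hF : F ∈ ApS p G)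
    (h : ∀ x ∈ E, ∀ y ∈ F, x * y = y * x) : E ⊔ F ∈ ApS p G := by
  have hEE : E ≤ centralizer (E : Set G) := fun x hx => by
    rw [Subgroup.mem_centralizer_iff]
    exact fun y hy => hE.2.1 y hy x hx
  have hFF : F ≤ centralizer (F : Set G) := fun x hx => by
    rw [Subgroup.mem_centralizer_iff]
    exact fun y hy => hF.2.1 y hy x hx
  have hEF : E ≤ centralizer (F : Set G) := fun x hx => by
    rw [Subgroup.mem_centralizer_iff]
    exact fun y hy => (h x hx y hy).symm
  have hFE : F ≤ centralizer (E : Set G) := fun x hx => by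
    rw [Subgroup.mem_centralizer_iff]
    exact fun y hy => h y hy x hx
  have h1 : E ⊔ F ≤ centralizer (E : Set G) := sup_le hEE hFE
  have h2 : E ⊔ F ≤ centralizer (F : Set G) := sup_le hEF hFF
  have h3 : E ⊔ F ≤ centralizer ((E ⊔ F : Subgroup G) : Set G) := by
    rw [Subgroup.le_centralizer_iff]
    exact sup_le (Subgroup.le_centralizer_iff.1 h1) (Subgroup.le_centralizer_iff.1 h2)
  have hcomm : ∀ x ∈ E ⊔ F, ∀ y ∈ E ⊔ F, x * y = y * x := by
    intro x hx y hy
    exact (Subgroup.mem_centralizer_iff.1 (h3 hy)) x hx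
  refine ⟨?_, hcomm, ?_⟩
  · intro hb
    exact hE.1 (le_bot_iff.1 (hb ▸ le_sup_left))
  · let P : Subgroup G :=
      { carrier := {x | x ∈ E ⊔ F ∧ x ^ p = 1}
        one_mem' := ⟨one_mem _, one_pow _⟩
        mul_mem' := by
          rintro x y ⟨hx, hx'⟩ ⟨hy, hy'⟩
          refine ⟨mul_mem hx hy, ?_⟩
          have : Commute x y := hcomm x hx y hy
          rw [this.mul_pow, hx', hy', one_mul]
        inv_mem' := by
          rintro x ⟨hx, hx'⟩
          exact ⟨inv_mem hx, by rw [inv_pow, hx', inv_one]⟩ }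
    have hle : E ⊔ F ≤ P := sup_le
      (fun x hx => ⟨Subgroup.mem_sup_left hx, hE.2.2 x hx⟩)
      (fun x hx => ⟨Subgroup.mem_sup_right hx, hF.2.2 x hx⟩)
    exact fun x hx => (hle hx).2

lemma mem_ApS_of_le {E F : Subgroup G} (hE : E ∈ ApS p G) (hF : F ≤ E) (h : F ≠ ⊥) :
    F ∈ ApS p G :=
  ⟨h, fun x hx y hy => hE.2.1 x (hF hx) y (hF hy), fun x hx => hE.2.2 x (hF hx)⟩

/-- image of (the part in `N` of) a subgroup under a homomorphism defined on `N` -/
def fq (N : Subgroup G) (π : N →* Q) (E : Subgroup G) : Subgroup Q := (E.subgroupOf N).map π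

lemma mem_fq {N : Subgroup G} {π : N →* Q} {E : Subgroup G} {q : Q} :
    q ∈ fq N π E ↔ ∃ n : N, (n : G) ∈ E ∧ π n = q := by
  rw [fq, Subgroup.mem_map]
  simp [Subgroup.mem_subgroupOf]

lemma fq_mono {N : Subgroup G} {π : N →* Q} {E F : Subgroup G} (h : E ≤ F) :
    fq N π E ≤ fq N π F := by
  intro q hq
  rw [mem_fq] at *
  obtain ⟨n, hn, rfl⟩ := hq
  exact ⟨n, h hn, rfl⟩

lemma fq_sup {N M : Subgroup G} {π : N →* Q} (hπ : ∀ n : N, π n = 1 ↔ (n : G) ∈ M)
    {E F : Subgroup G} (hE : E ≤ N) (hF : F ≤ N) (hFM : F ≤ M) :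
    fq N π (E ⊔ F) = fq N π E := by
  refine le_antisymm ?_ (fq_mono le_sup_left)
  rw [fq, Subgroup.subgroupOf_sup hE hF, Subgroup.map_sup]
  refine sup_le le_rfl ?_
  rintro _ ⟨n, hn, rfl⟩
  rw [(hπ n).2 (hFM hn)]
  exact one_mem _

lemma fq_mem_ApS {N M : Subgroup G} {π : N →* Q} (hπ : ∀ n : N, π n = 1 ↔ (n : G) ∈ M)
    {E : Subgroup G} (hE : E ∈ ApS p G) (hEN : E ≤ N) (hEM : ¬ E ≤ M) : fq N π E ∈ ApS p Q := by
  refine ⟨?_, ?_, ?_⟩
  · intro h
    apply hEM
    intro x hx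
    have : π ⟨x, hEN hx⟩ ∈ fq N π E := mem_fq.2 ⟨⟨x, hEN hx⟩, hx, rfl⟩
    rw [h, Subgroup.mem_bot, hπ] at this
    exact this
  · intro x hx y hy
    obtain ⟨m, hm, rfl⟩ := mem_fq.1 hx
    obtain ⟨n, hn, rfl⟩ := mem_fq.1 hy
    rw [← map_mul, ← map_mul]
    congr 1
    exact Subtype.ext (hE.2.1 _ hm _ hn)
  · intro x hx
    obtain ⟨m, hm, rfl⟩ := mem_fq.1 hx
    rw [← map_pow]
    have : m ^ p = 1 := Subtype.ext (hE.2.2 _ hm)
    rw [this, map_one]

/-- shuffle products of weak chains in commuting families are weak chains -/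
lemma shL_mem {α : Type*} [SemilatticeSup α] {A B S : Set α} (hA : A ⊆ S) (hB : B ⊆ S)
    (hAB : ∀ a ∈ A, ∀ b ∈ B, a ⊔ b ∈ S) (n : ℕ) :
    ∀ s t : List α, s.length + t.length = n → wk A s → wk B t → ∀ u : α, (∀ a ∈ s, a ≤ u) →
      (∀ b ∈ t, b ≤ u) → shL s t ∈ Sp 𝕜 (fun l => wk S l ∧ ∀ x ∈ l, x ≤ u) := by
  induction n with
  | zero =>
    intro s t h _ _ u _ _
    have hs : s = [] := List.length_eq_zero_iff.1 (by omega)
    have ht : t = [] := List.length_eq_zero_iff.1 (by omega)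
    subst hs ht
    rw [shL]
    exact single_mem_Sp ⟨⟨by simp, by simp⟩, by simp⟩ _
  | succ n ih =>
    intro s t h hs ht u hsu htu
    rcases s with _ | ⟨a, s⟩
    · rw [shL]
      exact single_mem_Sp ⟨wk_mono hB _ ht, htu⟩ _
    rcases t with _ | ⟨b, t⟩
    · rw [shL]
      exact single_mem_Sp ⟨wk_mono hA _ hs, hsu⟩ _
    have hps := List.pairwise_cons.1 hs.1
    have hpt := List.pairwise_cons.1 ht.1
    have h1 := ih s (b :: t) (by simp only [List.length_cons] at h ⊢; omega)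
      ⟨hps.2, fun x hx => hs.2 x (by simp [hx])⟩ ht (a ⊔ b)
      (fun x hx => le_sup_of_le_left (hps.1 x hx))
      (fun x hx => by
        rcases List.mem_cons.1 hx with h | h
        · rw [h]; exact le_sup_right
        · exact le_sup_of_le_right (hpt.1 x h))
    have h2 := ih (a :: s) t (by simp only [List.length_cons] at h ⊢; omega) hs
      ⟨hpt.2, fun x hx => ht.2 x (by simp [hx])⟩ (a ⊔ b)
      (fun x hx => by
        rcases List.mem_cons.1 hx with h | h
        · rw [h]; exact le_sup_left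
        · exact le_sup_of_le_left (hps.1 x h))
      (fun x hx => le_sup_of_le_right (hpt.1 x hx))
    rw [shL]
    refine cons_mem ?_ (Submodule.add_mem _ h1 (Submodule.smul_mem _ _ h2))
    rintro l ⟨hl, hl'⟩
    have hu : a ⊔ b ≤ u := sup_le (hsu a (by simp)) (htu b (by simp))
    refine ⟨⟨List.pairwise_cons.2 ⟨hl', hl.1⟩, ?_⟩, ?_⟩
    · intro x hx
      rcases List.mem_cons.1 hx with h | h
      · rw [h]; exact hAB a (hs.2 a (by simp)) b (ht.2 b (by simp))
      · exact hl.2 x h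
    · intro x hx
      rcases List.mem_cons.1 hx with h | h
      · rw [h]; exact hu
      · exact le_trans (hl' x h) hu

lemma sh_mem {α : Type*} [SemilatticeSup α] [OrderTop α] {A B S : Set α} (hA : A ⊆ S) (hB : B ⊆ S)
    (hAB : ∀ a ∈ A, ∀ b ∈ B, a ⊔ b ∈ S) {x y : Ch 𝕜 α} (hx : x ∈ Sp 𝕜 (wk A)) (hy : y ∈ Sp 𝕜 (wk B)) :
    sh x y ∈ Sp 𝕜 (wk S) := by
  have h1 : ∀ s : List α, wk A s → sh (single s (1 : 𝕜)) y ∈ Sp 𝕜 (wk S) := by
    intro s hs
    refine map_mem _ (fun t ht => ?_) hy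
    rw [sh_single]
    exact Sp_mono (fun l hl => hl.1) (shL_mem hA hB hAB _ s t rfl hs ht ⊤ (fun _ _ => le_top)
      (fun _ _ => le_top))
  exact map_mem ((sh).flip y) (fun s hs => h1 s hs) hx

/-- The main detection theorem. -/
theorem detect (N M : Subgroup G) (hMN : M ≤ N) (π : N →* Q)
    (hπ : ∀ n : N, π n = 1 ↔ (n : G) ∈ M)
    (SW : Set (Subgroup Q)) (hSW : ∀ E ∈ Ain p N, ¬ E ≤ M → fq N π E ∈ SW)
    (lW : Ch 𝕜 (Subgroup Q) →ₗ[𝕜] 𝕜) (lD : Ch 𝕜 (Subgroup G) →ₗ[𝕜] 𝕜)
    (hnW : Nrm lW) (hnD : Nrm lD) (hW : Coc SW lW) (hD : Coc (Ain p M) lD)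
    (hvan : ∀ g, g ∉ N → ∀ l, wk {E | E ∈ Ain p M ∧ ∀ x ∈ E, g * x = x * g} l →
      lD (single l (1 : 𝕜)) = 0)
    (H1 H2 : Subgroup G) (h1N : H1 ≤ N) (h2M : H2 ≤ M)
    (h12 : ∀ x ∈ H1, ∀ y ∈ H2, x * y = y * x) (h1M : H1 ⊓ M = ⊥)
    (x y : Ch 𝕜 (Subgroup G)) (hx : x ∈ Sp 𝕜 (wk (Ain p H1))) (hy : y ∈ Sp 𝕜 (wk (Ain p H2)))
    (hbx : bd x = 0) (hby : bd y = 0)
    (hlx : lW (mp (fq N π) x) ≠ 0) (hly : lD y ≠ 0) : NA 𝕜 (ApS p G) := by
  classical
  set D : Set (Subgroup G) := {E | E ≤ M} with hDdef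
  set U : Set (Subgroup G) := {E | E ⊓ N ≠ ⊥} with hUdef
  set rho : Subgroup G → Subgroup G := fun E => E ⊓ N with hrho
  set ph := phi D (fq N π) lW lD with hph
  have hlow : ∀ x ∈ Ain p N, ∀ y ∈ Ain p N, x ≤ y → y ∈ D → x ∈ D :=
    fun x _ y _ hxy hy => le_trans hxy hy
  have hcoc : Coc (Ain p N) ph := by
    refine phi_coc (SW := SW) hlow (fun E hE hED => hSW E hE hED)
      (fun E _ _ F _ _ h => fq_mono h) hW ?_
    intro c hc
    have hsub : Ain p N ∩ D ⊆ Ain p M := fun E hE => ⟨hE.1.1, hE.2⟩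
    exact hD c (Sp_mono (wk_mono hsub) hc)
  -- vanishing on lists commuting with `g`
  have hvanPhi : ∀ g, g ∉ N → ∀ l, wk {E | E ∈ Ain p N ∧ ∀ x ∈ E, g * x = x * g} l →
      PhiL D (fq N π) lW lD l = 0 := by
    intro g hg l
    induction l with
    | nil =>
      intro _
      rw [PhiL, hvan g hg [] ⟨by simp, by simp⟩, zero_smul]
    | cons E l ih =>
      intro hl
      have hp := List.pairwise_cons.1 hl.1
      by_cases hE : E ∈ D
      · rw [PhiL_cons_mem hE, hvan g hg (E :: l), zero_smul]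
        refine ⟨hl.1, fun F hF => ?_⟩
        have hFE : F ≤ E := by
          rcases List.mem_cons.1 hF with h | h
          · rw [h]
          · exact hp.1 F h
        exact ⟨⟨(hl.2 F hF).1.1, le_trans hFE hE⟩, (hl.2 F hF).2⟩
      · rw [PhiL_cons_not hE, ih ⟨hp.2, fun F hF => hl.2 F (by simp [hF])⟩, LinearMap.zero_comp]
  have hUup : ∀ x ∈ ApS p G, x ∈ U → ∀ y ∈ ApS p G, x ≤ y → y ∈ U := by
    intro E _ hE F _ hEF h
    apply hE
    rw [← le_bot_iff, ← h]
    exact inf_le_inf_right _ hEF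
  have hrhoT : ∀ x ∈ ApS p G, x ∈ U → rho x ∈ Ain p N := fun E hE hEU =>
    ⟨mem_ApS_of_le hE inf_le_left hEU, inf_le_right⟩
  have hext := ext_coc (S := ApS p G) (U := U) (T := Ain p N) (rho := rho) (psi := ph) hUup hrhoT
    (fun E _ _ F _ _ h => inf_le_inf_right _ h) hcoc (by
      intro l hl hlU e heS heU hel
      have hee : e ⊓ N = ⊥ := by
        by_contra h
        exact heU h
      obtain ⟨g, hg1⟩ := (Subgroup.ne_bot_iff_exists_ne_one).1 heS.1
      have hgN : (g : G) ∉ N := by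
        intro h
        apply hg1
        have : (g : G) ∈ e ⊓ N := ⟨g.2, h⟩
        rw [hee, Subgroup.mem_bot] at this
        exact Subtype.ext this
      rw [hph, phi_single, hvanPhi g hgN, LinearMap.zero_apply]
      refine ⟨?_, ?_⟩
      · rw [List.pairwise_map]
        exact hl.1.imp fun h => inf_le_inf_right _ h
      · intro F hF
        obtain ⟨E, hE, rfl⟩ := List.mem_map.1 hF
        refine ⟨hrhoT E (hl.2 E hE) (hlU E hE), ?_⟩
        intro x hx
        exact (hl.2 E hE).2.1 _ (hel E hE g.2) _ hx.1)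
  have hA1 : Ain p H1 ⊆ ApS p G := fun E hE => hE.1
  have hA2 : Ain p H2 ⊆ ApS p G := fun E hE => hE.1
  have hz : sh x y ∈ Sp 𝕜 (wk (Ain p N)) := by
    have hs1 : Ain p H1 ⊆ Ain p N := fun E hE => ⟨hE.1, hE.2.trans h1N⟩
    have hs2 : Ain p H2 ⊆ Ain p N := fun E hE => ⟨hE.1, (hE.2.trans h2M).trans hMN⟩
    refine sh_mem hs1 hs2 ?_ hx hy
    intro E hE F hF
    exact ⟨sup_mem_ApS hE.1 hF.1 fun a ha b hb => h12 a (hE.2 ha) b (hF.2 hb),
      sup_le (hE.2.trans h1N) ((hF.2.trans h2M).trans hMN)⟩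
  refine NA_of_functional ((ph.comp (mp rho)).comp (res U)) ?_ hext (sh x y)
    (Sp_mono (wk_mono fun E hE => hE.1) hz) ?_ ?_
  · intro l hl hns
    simp only [LinearMap.comp_apply]
    rw [res_single]
    split_ifs with hU
    · rw [mp_single, hph, phi_single]
      refine PhiL_nrm (S := Ain p N) hnW hnD _ ⟨?_, ?_⟩ ?_ _
      · rw [List.pairwise_map]
        exact hl.1.imp fun h => inf_le_inf_right _ h
      · intro F hF
        obtain ⟨E, hE, rfl⟩ := List.mem_map.1 hF
        exact hrhoT E (hl.2 E hE) (hU E hE)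
      · intro h
        apply hns
        rw [List.pairwise_map] at h
        refine (hl.1.and h).imp ?_
        rintro E F ⟨hEF, hEF'⟩
        refine lt_of_le_of_ne hEF ?_
        rintro rfl
        exact lt_irrefl _ hEF'
    · rw [map_zero, map_zero]
  · rw [bd_sh, hbx, hby, map_zero, LinearMap.zero_apply, map_zero, add_zero]
  · have hzU : sh x y ∈ Sp 𝕜 (fun l : List (Subgroup G) => ∀ a ∈ l, a ∈ U) := by
      refine Sp_mono (fun l hl E hE => ?_) hz
      have := hl.2 E hE
      change E ⊓ N ≠ ⊥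
      rw [inf_eq_left.2 this.2]
      exact this.1.1
    have hzr : mp rho (sh x y) = sh x y := by
      have := eq_of_Sp (F := mp rho) (G := LinearMap.id) (fun l (hl : wk (Ain p N) l) => by
        rw [mp_single]
        have : l.map rho = l := by
          conv_rhs => rw [← List.map_id l]
          refine List.map_congr_left fun E hE => ?_
          exact inf_eq_left.2 (hl.2 E hE).2
        rw [this]; rfl) hz
      simpa using this
    simp only [LinearMap.comp_apply]
    rw [res_of_mem hzU, hzr, hph,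
      phi_shuffle (A := Ain p H1) (B := Ain p H2) ?_ ?_ ?_ hnW
        (Sp_mono (fun l hl => hl.2) hx) (Sp_mono (fun l hl => hl.2) hy)]
    · exact mul_ne_zero hlx hly
    · intro E hE hEM
      exact hE.1.1 (le_bot_iff.1 (h1M ▸ le_inf hE.2 hEM))
    · intro E hE
      exact hE.2.trans h2M
    · intro E hE F hF
      refine ⟨?_, fq_sup hπ (hE.2.trans h1N) ((hF.2.trans h2M).trans hMN) (hF.2.trans h2M)⟩
      intro h
      exact hE.1.1 (le_bot_iff.1 (h1M ▸ le_inf hE.2 (le_sup_left.trans h)))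

end Vale.Agent.P240.K
end
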