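import Vale.Agent.P240.WB.B2
import Vale.Agent.P240.K.Defs

set_option linter.all false

section

namespace Vale.Agent.P240.K

open Finsupp Subgroup

variable {𝕜 : Type*} [Field 𝕜] {G : Type*} [Group G] {p : ℕ}

/-- conjugation of subgroups -/
def cj (g : G) (E : Subgroup G) : Subgroup G := E.map (MulAut.conj g).toMonoidHom

lemma mem_cj {g : G} {E : Subgroup G} {x : G} : x ∈ cj g E ↔ g⁻¹ * x * g ∈ E := by
  constructor
  · rintro ⟨y, hy, rfl⟩
    have : g⁻¹ * ((MulAut.conj g).toMonoidHom y) * g = y := by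
      simp [MulAut.conj_apply, mul_assoc]
    rw [this]
    exact hy
  · intro h
    refine ⟨g⁻¹ * x * g, h, ?_⟩
    simp [MulAut.conj_apply, mul_assoc]

lemma cj_mul (g h : G) (E : Subgroup G) : cj (g * h) E = cj g (cj h E) := by
  ext x
  rw [mem_cj, mem_cj, mem_cj]
  have : (g * h)⁻¹ * x * (g * h) = h⁻¹ * (g⁻¹ * x * g) * h := by group
  rw [this]

lemma cj_one (E : Subgroup G) : cj 1 E = E := by
  ext x
  rw [mem_cj]
  simp

lemma cj_le {g : G} {E F : Subgroup G} : cj g E ≤ cj g F ↔ E ≤ F := by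
  constructor
  · intro h x hx
    have h1 : g * x * g⁻¹ ∈ cj g E := by
      rw [mem_cj]
      have : g⁻¹ * (g * x * g⁻¹) * g = x := by group
      rwa [this]
    have h2 := h h1
    rw [mem_cj] at h2
    have : g⁻¹ * (g * x * g⁻¹) * g = x := by group
    rwa [this] at h2
  · intro h x hx
    rw [mem_cj] at hx ⊢
    exact h hx

lemma cj_injective (g : G) : Function.Injective (cj g) := fun _ _ h =>
  le_antisymm (cj_le.1 h.le) (cj_le.1 h.ge)

lemma cj_lt {g : G} {E F : Subgroup G} : cj g E < cj g F ↔ E < F := by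
  rw [lt_iff_le_not_ge, lt_iff_le_not_ge, cj_le, cj_le]

lemma cj_eq_iff {g : G} {E : Subgroup G} : cj g E = E ↔ g ∈ normalizer (E : Set G) := by
  rw [mem_normalizer_iff]
  constructor
  · intro h x
    constructor
    · intro hx
      have : g * x * g⁻¹ ∈ cj g E := by
        rw [mem_cj]
        have : g⁻¹ * (g * x * g⁻¹) * g = x := by group
        rwa [this]
      rwa [h] at this
    · intro hx
      have h2 : g * x * g⁻¹ ∈ cj g E := by rw [h]; exact hx
      rw [mem_cj] at h2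
      have : g⁻¹ * (g * x * g⁻¹) * g = x := by group
      rwa [this] at h2
  · intro h
    ext x
    rw [mem_cj]
    have h1 := h (g⁻¹ * x * g)
    have : g * (g⁻¹ * x * g) * g⁻¹ = x := by group
    rw [this] at h1
    exact h1

lemma cj_iter (g : G) (n : ℕ) (E : Subgroup G) : (cj g)^[n] E = cj (g ^ n) E := by
  induction n with
  | zero => simp [cj_one]
  | succ n ih => rw [Function.iterate_succ_apply', ih, ← cj_mul, ← pow_succ']

lemma normalizer_cj {g x : G} {E : Subgroup G} :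
    x ∈ normalizer ((cj g E : Subgroup G) : Set G) ↔ g⁻¹ * x * g ∈ normalizer (E : Set G) := by
  rw [← cj_eq_iff, ← cj_eq_iff, ← (cj_injective g).eq_iff (a := cj (g⁻¹ * x * g) E), ← cj_mul,
    ← cj_mul]
  have h2 : g * (g⁻¹ * x * g) = x * g := by group
  rw [h2]

/-- Smith's theorem for a finite `r`-group acting by conjugation. -/
theorem smith_group {r : ℕ} [hp : Fact r.Prime] (hchar : (r : 𝕜) = 0) [Finite G]
    {S : Set (Subgroup G)} (n : ℕ) : ∀ U : Subgroup G, Nat.card U = r ^ n →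
      (∀ u ∈ U, ∀ E ∈ S, cj u E ∈ S) → ¬ NA 𝕜 S →
      ¬ NA 𝕜 {E | E ∈ S ∧ U ≤ normalizer (E : Set G)} := by
  induction n with
  | zero =>
    intro U hU _ hac
    rw [pow_zero, Subgroup.card_eq_one] at hU
    have : {E | E ∈ S ∧ U ≤ normalizer (E : Set G)} = S := by
      ext E
      exact ⟨fun h => h.1, fun h => ⟨h, by rw [hU]; exact bot_le⟩⟩
    rwa [this]
  | succ n ih =>
    intro U hU hS hac
    obtain ⟨V', hV'⟩ := Sylow.exists_subgroup_card_pow_prime r (n := n) (G := U)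
      (by rw [hU]; exact pow_dvd_pow r (Nat.le_succ n))
    have hr0 : 0 < r := hp.out.pos
    have hidx : V'.index = r := by
      have h1 := V'.card_mul_index
      rw [hV', hU, pow_succ] at h1
      exact Nat.eq_of_mul_eq_mul_left (pow_pos hr0 n) h1
    have hVn : V'.Normal := by
      refine Subgroup.normal_of_index_eq_minFac_card ?_
      rw [hidx, hU, Nat.Prime.pow_minFac hp.out (Nat.succ_ne_zero n)]
    have hne : V' ≠ ⊤ := by
      intro h
      rw [h, Subgroup.index_top] at hidx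
      exact hp.out.one_lt.ne hidx
    obtain ⟨u, hu⟩ : ∃ u : U, u ∉ V' := by
      by_contra h
      push Not at h
      exact hne (eq_top_iff.2 fun x _ => h x)
    set V : Subgroup G := V'.map U.subtype with hVdef
    have hVU : V ≤ U := Subgroup.map_subtype_le V'
    have hVcard : Nat.card V = r ^ n := by
      rw [hVdef, Subgroup.card_map_of_injective U.subtype_injective, hV']
    have hV := ih V hVcard (fun v hv E hE => hS v (hVU hv) E hE) hac
    have hur : (u : G) ^ r ∈ V := by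
      refine ⟨u ^ r, ?_, by simp⟩
      have := Subgroup.pow_index_mem V' u
      rwa [hidx] at this
    have hconj : ∀ v ∈ V, (u : G)⁻¹ * v * u ∈ V := by
      rintro _ ⟨v, hv, rfl⟩
      refine ⟨u⁻¹ * v * u, ?_, by simp⟩
      have := hVn.conj_mem v hv u⁻¹
      simpa using this
    set T : Set (Subgroup G) := {E | E ∈ S ∧ V ≤ normalizer (E : Set G)} with hT
    have hsm := smith (𝕜 := 𝕜) (r := r) hchar (S := T) (Set.toFinite T) (cj (u : G)) ?_ ?_ ?_ hV
    · have : {x | x ∈ T ∧ cj (u : G) x = x} = {E | E ∈ S ∧ U ≤ normalizer (E : Set G)} := by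
        ext E
        constructor
        · rintro ⟨⟨h1, h2⟩, h3⟩
          refine ⟨h1, ?_⟩
          rw [cj_eq_iff] at h3
          have h4 : V' ≤ (normalizer (E : Set G)).subgroupOf U := by
            intro v hv
            rw [Subgroup.mem_subgroupOf]
            exact h2 ⟨v, hv, rfl⟩
          have h5 := Subgroup.relIndex_mul_index h4
          rw [hidx] at h5
          rcases (Nat.dvd_prime hp.out).1 (Dvd.intro_left _ h5) with h6 | h6
          · rw [Subgroup.index_eq_one] at h6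
            rw [Subgroup.subgroupOf_eq_top] at h6
            exact h6
          · exfalso
            rw [h6] at h5
            have h7 : V'.relIndex ((normalizer (E : Set G)).subgroupOf U) = 1 :=
              Nat.eq_of_mul_eq_mul_right hr0 (by rw [h5, one_mul])
            rw [Subgroup.relIndex_eq_one] at h7
            apply hu
            apply h7
            rw [Subgroup.mem_subgroupOf]
            exact h3
        · rintro ⟨h1, h2⟩
          exact ⟨⟨h1, hVU.trans h2⟩, cj_eq_iff.2 (h2 u.2)⟩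
      rwa [this] at hsm
    · rintro E ⟨h1, h2⟩
      refine ⟨hS u u.2 E h1, fun v hv => ?_⟩
      rw [normalizer_cj]
      exact h2 (hconj v hv)
    · rintro E ⟨h1, h2⟩
      rw [cj_iter, cj_eq_iff]
      exact h2 hur
    · intro E _ F _ h
      exact cj_lt.2 h

end Vale.Agent.P240.K
end

section

namespace Vale.Agent.P240.K

open Finsupp Subgroup

section
variable {K V W U : Type*} [Field K] [AddCommGroup V] [Module K V] [AddCommGroup W] [Module K W]
  [AddCommGroup U] [Module K U] [FiniteDimensional K V] [FiniteDimensional K W]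
  [FiniteDimensional K U]

/-- additivity of the trace -/
lemma trace_exact (d : V →ₗ[K] W) (hd : Function.Surjective d) (ι : U →ₗ[K] V)
    (hι : Function.Injective ι) (hr : LinearMap.range ι = LinearMap.ker d)
    (T : V →ₗ[K] V) (TW : W →ₗ[K] W) (TU : U →ₗ[K] U) (h1 : ∀ v, d (T v) = TW (d v))
    (h2 : ∀ u, T (ι u) = ι (TU u)) :
    LinearMap.trace K V T = LinearMap.trace K U TU + LinearMap.trace K W TW := by
  obtain ⟨s, hs⟩ := d.exists_rightInverse_of_surjective (LinearMap.range_eq_top.2 hd)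
  have hs' : ∀ w, d (s w) = w := fun w => LinearMap.congr_fun hs w
  have hmem : ∀ v, ((LinearMap.id : V →ₗ[K] V) - s.comp d) v ∈ LinearMap.range ι := by
    intro v
    rw [hr, LinearMap.mem_ker]
    simp [hs']
  let P : V →ₗ[K] U := (LinearEquiv.ofInjective ι hι).symm.toLinearMap.comp
    (LinearMap.codRestrict (LinearMap.range ι) ((LinearMap.id : V →ₗ[K] V) - s.comp d) hmem)
  have hP : ∀ v, ι (P v) = v - s (d v) := by
    intro v
    have h3 : LinearEquiv.ofInjective ι hι (P v) =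
        LinearMap.codRestrict (LinearMap.range ι) ((LinearMap.id : V →ₗ[K] V) - s.comp d) hmem v :=
      LinearEquiv.apply_symm_apply _ _
    have h4 := congrArg Subtype.val h3
    simpa using h4
  have hPι : ∀ u, P (ι u) = u := by
    intro u
    apply hι
    rw [hP]
    have : d (ι u) = 0 := by
      rw [← LinearMap.mem_ker, ← hr]
      exact ⟨u, rfl⟩
    rw [this, map_zero, sub_zero]
  have hT : T = (T.comp ι).comp P + (T.comp s).comp d := by
    ext v
    simp only [LinearMap.add_apply, LinearMap.comp_apply]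
    rw [hP, map_sub]
    abel
  have e1 : LinearMap.trace K V ((T.comp ι).comp P) = LinearMap.trace K U TU := by
    rw [LinearMap.trace_comp_comm']
    congr 1
    ext u
    simp only [LinearMap.comp_apply]
    rw [h2, hPι]
  have e2 : LinearMap.trace K V ((T.comp s).comp d) = LinearMap.trace K W TW := by
    rw [LinearMap.trace_comp_comm']
    congr 1
    ext w
    simp only [LinearMap.comp_apply]
    rw [h1, hs']
  rw [← e1, ← e2, ← map_add, ← hT]

end

section
variable {𝕜 : Type*} [Field 𝕜] {α : Type*} [PartialOrder α] {S : Set α}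

lemma stn_finite (hS : S.Finite) (n : ℕ) : (stn S n).Finite := by
  classical
  have hF : Finite S := hS
  have h1 : Set.Finite (List.map (Subtype.val : S → α) '' {l : List S | l.length = n}) :=
    (List.finite_length_eq S n).image _
  refine h1.subset ?_
  rintro l ⟨hl, hl2⟩
  refine ⟨l.attachWith (· ∈ S) hl2.2, by simpa using hl, ?_⟩
  simp

/-- cycles with `n` terms -/
noncomputable def Zs (𝕜 : Type*) [Field 𝕜] (S : Set α) (n : ℕ) : Submodule 𝕜 (Ch 𝕜 α) :=
  Finsupp.supported 𝕜 𝕜 (stn S n) ⊓ LinearMap.ker bd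

lemma Zs_le (n : ℕ) : Zs 𝕜 S n ≤ Finsupp.supported 𝕜 𝕜 (stn S n) := inf_le_left

lemma fd_supported (hS : S.Finite) (n : ℕ) :
    FiniteDimensional 𝕜 (Finsupp.supported 𝕜 𝕜 (stn S n)) := by
  have : Finite (stn S n) := stn_finite hS n
  exact Module.Finite.equiv (Finsupp.supportedEquivFinsupp (M := 𝕜) (R := 𝕜) (stn S n)).symm

lemma fd_Zs (hS : S.Finite) (n : ℕ) : FiniteDimensional 𝕜 (Zs 𝕜 S n) := by
  have := fd_supported (𝕜 := 𝕜) hS n
  exact Submodule.finiteDimensional_of_le (Zs_le n)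

lemma card_zero : Nat.card (stn S 0) = 1 := by
  have : stn S 0 = {[]} := by
    ext l
    constructor
    · rintro ⟨h, _⟩
      exact List.length_eq_zero_iff.1 h
    · intro h
      rw [Set.mem_singleton_iff] at h
      subst h
      exact ⟨rfl, List.Pairwise.nil, by simp⟩
  rw [this]
  simp

variable {σ : α → α} (hσ : ∀ x ∈ S, σ x ∈ S) (hlt : ∀ x ∈ S, ∀ y ∈ S, x < y → σ x < σ y)

include hσ hlt in
lemma map_stn (n : ℕ) {l : List α} (hl : l ∈ stn S n) : l.map σ ∈ stn S n :=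
  ⟨by rw [List.length_map]; exact hl.1, st_map hσ hlt l hl.2⟩

include hσ hlt in
lemma mp_stn (n : ℕ) {c : Ch 𝕜 α} (hc : c ∈ Finsupp.supported 𝕜 𝕜 (stn S n)) :
    mp σ c ∈ Finsupp.supported 𝕜 𝕜 (stn S n) :=
  mp_mem (P := fun l => l ∈ stn S n) (Q := fun l => l ∈ stn S n)
    (fun _ hl => map_stn hσ hlt n hl) hc

include hσ hlt in
lemma mp_Zs (n : ℕ) {c : Ch 𝕜 α} (hc : c ∈ Zs 𝕜 S n) : mp σ c ∈ Zs 𝕜 S n := by
  refine ⟨mp_stn hσ hlt n hc.1, ?_⟩
  have h : bd c = 0 := hc.2
  change bd (mp σ c) = 0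
  rw [bd_mp, h, map_zero]

lemma trace_congr {V : Type*} [AddCommGroup V] [Module 𝕜 V] {P Q : Submodule 𝕜 V} (h : P = Q)
    (T : V →ₗ[𝕜] V) (hP : ∀ x ∈ P, T x ∈ P) (hQ : ∀ x ∈ Q, T x ∈ Q) :
    LinearMap.trace 𝕜 P (T.restrict hP) = LinearMap.trace 𝕜 Q (T.restrict hQ) := by
  subst h
  rfl

/-- trace on chains -/
lemma trace_chains (hS : S.Finite) (n : ℕ) :
    LinearMap.trace 𝕜 _ ((mp σ : Ch 𝕜 α →ₗ[𝕜] Ch 𝕜 α).restrict
      (p := Finsupp.supported 𝕜 𝕜 (stn S n)) (q := Finsupp.supported 𝕜 𝕜 (stn S n))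
      (fun _ hc => mp_stn hσ hlt n hc)) = (Nat.card (stn {x | x ∈ S ∧ σ x = x} n) : 𝕜) := by
  classical
  have hfin := stn_finite hS n
  have : Fintype (stn S n) := hfin.fintype
  let b : Module.Basis (stn S n) 𝕜 (Finsupp.supported 𝕜 𝕜 (stn S n)) :=
    .ofRepr (Finsupp.supportedEquivFinsupp (stn S n))
  have hb : ∀ i : stn S n, ((b i : Finsupp.supported 𝕜 𝕜 (stn S n)) : Ch 𝕜 α) = single i.1 1 := by
    intro i
    have h1 : b.repr (b i) = single i 1 := b.repr_self i
    ext l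
    by_cases hl : l ∈ stn S n
    · have h2 : b.repr (b i) ⟨l, hl⟩ = ((b i : Finsupp.supported 𝕜 𝕜 (stn S n)) : Ch 𝕜 α) l := rfl
      rw [← h2, h1, Finsupp.single_apply, Finsupp.single_apply]
      exact if_congr (by rw [Subtype.ext_iff]) rfl rfl
    · have h3 := (b i).2
      rw [Finsupp.mem_supported'] at h3
      rw [h3 l hl, Finsupp.single_apply, if_neg]
      rintro rfl
      exact hl i.2
  rw [LinearMap.trace_eq_matrix_trace 𝕜 b, Matrix.trace]
  have hdiag : ∀ i : stn S n, Matrix.diag (LinearMap.toMatrix b b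
      ((mp σ : Ch 𝕜 α →ₗ[𝕜] Ch 𝕜 α).restrict
      (p := Finsupp.supported 𝕜 𝕜 (stn S n)) (q := Finsupp.supported 𝕜 𝕜 (stn S n))
      (fun _ hc => mp_stn hσ hlt n hc))) i = if i.1.map σ = i.1 then (1 : 𝕜) else 0 := by
    intro i
    rw [Matrix.diag_apply, LinearMap.toMatrix_apply]
    change ((mp σ : Ch 𝕜 α →ₗ[𝕜] Ch 𝕜 α) (b i : Ch 𝕜 α)) i.1 = _
    rw [hb, mp_single, Finsupp.single_apply]
  rw [Finset.sum_congr rfl fun i _ => hdiag i, Finset.sum_boole]
  congr 1
  rw [← Fintype.card_subtype, ← Nat.card_eq_fintype_card]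
  refine Nat.card_congr ⟨fun i => ⟨i.1.1, i.1.2.1, i.1.2.2.1, fun a ha => ⟨i.1.2.2.2 a ha, ?_⟩⟩,
    fun l => ⟨⟨l.1, l.2.1, l.2.2.1, fun a ha => (l.2.2.2 a ha).1⟩, ?_⟩, fun _ => rfl,
    fun _ => rfl⟩
  · have h := i.2
    have h2 : i.1.1.map σ = i.1.1.map id := by rw [h, List.map_id]
    exact List.map_inj_left.1 h2 a ha
  · change l.1.map σ = l.1
    conv_rhs => rw [← List.map_id l.1]
    exact List.map_congr_left fun a ha => (l.2.2.2 a ha).2

include hσ hlt in
/-- **Lefschetz** -/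
theorem lefschetz_aux (hS : S.Finite) (hac : ¬ NA 𝕜 S) (N : ℕ) :
    ∑ n ∈ Finset.range (N + 1), (-1 : 𝕜) ^ n * (Nat.card (stn {x | x ∈ S ∧ σ x = x} n) : 𝕜) =
      (-1 : 𝕜) ^ N * LinearMap.trace 𝕜 _ ((mp σ : Ch 𝕜 α →ₗ[𝕜] Ch 𝕜 α).restrict
      (p := Zs 𝕜 S N) (q := Zs 𝕜 S N) (fun _ hc => mp_Zs hσ hlt N hc)) := by
  induction N with
  | zero =>
    have h : Zs 𝕜 S 0 = Finsupp.supported 𝕜 𝕜 (stn S 0) := by
      rw [Zs, inf_eq_left]
      intro c hc
      have h1 : c = len 0 c :=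
        (len_of_mem (Sp_mono (fun l (hl : l ∈ stn S 0) => hl.1) hc)).symm
      rw [LinearMap.mem_ker, h1, bd_len_zero]
    rw [zero_add, Finset.sum_range_one, pow_zero, one_mul, one_mul, ← trace_chains hσ hlt hS 0]
    exact trace_congr h.symm _ _ _
  | succ N ih =>
    have := fd_supported (𝕜 := 𝕜) hS (N + 1)
    have := fd_Zs (𝕜 := 𝕜) hS (N + 1)
    have := fd_Zs (𝕜 := 𝕜) hS N
    let d : Finsupp.supported 𝕜 𝕜 (stn S (N + 1)) →ₗ[𝕜] Zs 𝕜 S N :=
      (bd : Ch 𝕜 α →ₗ[𝕜] Ch 𝕜 α).restrict (fun c hc => ⟨bd_stn hc, bd_bd c⟩)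
    have hex := trace_exact (K := 𝕜) (V := Finsupp.supported 𝕜 𝕜 (stn S (N + 1)))
      (W := Zs 𝕜 S N) (U := Zs 𝕜 S (N + 1)) d ?_ (Submodule.inclusion (Zs_le (N + 1)))
      (Submodule.inclusion_injective _) ?_
      ((mp σ : Ch 𝕜 α →ₗ[𝕜] Ch 𝕜 α).restrict
        (p := Finsupp.supported 𝕜 𝕜 (stn S (N + 1))) (q := Finsupp.supported 𝕜 𝕜 (stn S (N + 1)))
        (fun _ hc => mp_stn hσ hlt (N + 1) hc))
      ((mp σ : Ch 𝕜 α →ₗ[𝕜] Ch 𝕜 α).restrict
        (p := Zs 𝕜 S N) (q := Zs 𝕜 S N) (fun _ hc => mp_Zs hσ hlt N hc))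
      ((mp σ : Ch 𝕜 α →ₗ[𝕜] Ch 𝕜 α).restrict
        (p := Zs 𝕜 S (N + 1)) (q := Zs 𝕜 S (N + 1)) (fun _ hc => mp_Zs hσ hlt (N + 1) hc))
      ?_ ?_
    · rw [trace_chains hσ hlt hS] at hex
      rw [Finset.sum_range_succ, ih, hex, pow_succ]
      ring
    · rintro ⟨z, hz1, hz2⟩
      obtain ⟨c, hc, hcz⟩ := not_NA_hom hac N hz1 (LinearMap.mem_ker.1 hz2)
      exact ⟨⟨c, hc⟩, Subtype.ext hcz⟩
    · apply le_antisymm
      · rintro _ ⟨⟨u, hu⟩, rfl⟩
        exact Subtype.ext hu.2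
      · rintro ⟨c, hc⟩ h
        exact ⟨⟨c, hc, congrArg Subtype.val h⟩, rfl⟩
    · rintro ⟨v, hv⟩
      apply Subtype.ext
      exact bd_mp σ v
    · rintro ⟨u, hu⟩
      rfl

include hσ hlt in
/-- **Lefschetz**: the reduced Euler characteristic of the fixed points of an automorphism of a
finite `ℚ`-acyclic poset vanishes. -/
theorem lefschetz (hS : S.Finite) (hac : ¬ NA ℚ S) {N : ℕ} (hN : hS.toFinset.card < N) :
    ∑ n ∈ Finset.range (N + 1),
      (-1 : ℤ) ^ n * (Nat.card (stn {x | x ∈ S ∧ σ x = x} n) : ℤ) = 0 := by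
  have h := lefschetz_aux hσ hlt hS hac N
  have hZ : ∀ x : Zs ℚ S N, x = 0 := by
    rintro ⟨z, hz⟩
    have h1 := supported_stn_zero hS hN hz.1
    exact Subtype.ext h1
  have h0 : (mp σ : Ch ℚ α →ₗ[ℚ] Ch ℚ α).restrict
      (p := Zs ℚ S N) (q := Zs ℚ S N) (fun _ hc => mp_Zs hσ hlt N hc) = 0 := by
    ext1 x
    exact hZ _
  rw [h0, map_zero, mul_zero] at h
  exact_mod_cast h

end

section
variable {𝕜 : Type*} [Field 𝕜] {G : Type*} [Group G]

/-- counting chains modulo `r` -/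
lemma euler_mod {r : ℕ} [hr : Fact r.Prime] [Finite G] {S : Set (Subgroup G)}
    (U : Subgroup G) (hU : IsPGroup r U) (hstab : ∀ u ∈ U, ∀ E ∈ S, cj u E ∈ S)
    (hno : ∀ E ∈ S, ¬ U ≤ normalizer (E : Set G)) (N : ℕ) :
    ∑ n ∈ Finset.range (N + 1), (-1 : ℤ) ^ n * (Nat.card (stn S n) : ℤ) ≠ 0 := by
  intro h0
  have hS : S.Finite := Set.toFinite S
  have hdiv : ∀ n, (r : ℤ) ∣ (Nat.card (stn S (n + 1)) : ℤ) := by
    intro n
    have hfin : Finite (stn S (n + 1)) := stn_finite hS (n + 1)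
    have hmap : ∀ u : U, ∀ l ∈ stn S (n + 1), l.map (cj (u : G)) ∈ stn S (n + 1) := by
      rintro u l ⟨h1, h2, h3⟩
      refine ⟨by rw [List.length_map, h1], ?_, ?_⟩
      · rw [List.pairwise_map]
        exact h2.imp fun h => cj_lt.2 h
      · intro a ha
        obtain ⟨b, hb, rfl⟩ := List.mem_map.1 ha
        exact hstab u u.2 b (h3 b hb)
    let act : MulAction U (stn S (n + 1)) :=
      { smul := fun u l => ⟨l.1.map (cj (u : G)), hmap u l.1 l.2⟩
        one_smul := fun l => by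
          apply Subtype.ext
          change l.1.map (cj ((1 : U) : G)) = l.1
          conv_rhs => rw [← List.map_id l.1]
          exact List.map_congr_left fun a _ => by simp [cj_one]
        mul_smul := fun u v l => by
          apply Subtype.ext
          change l.1.map (cj ((u * v : U) : G)) = (l.1.map (cj (v : G))).map (cj (u : G))
          rw [List.map_map]
          exact List.map_congr_left fun a _ => by simp [cj_mul] }
    have h1 := hU.card_modEq_card_fixedPoints (stn S (n + 1))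
    have h2 : MulAction.fixedPoints U (stn S (n + 1)) = ∅ := by
      rw [Set.eq_empty_iff_forall_notMem]
      rintro ⟨l, hl1, hl2⟩ hfix
      obtain ⟨E, l', rfl⟩ : ∃ E l', l = E :: l' := by
        rcases l with _ | ⟨E, l'⟩
        · simp at hl1
        · exact ⟨E, l', rfl⟩
      refine hno E (hl2.2 E (by simp)) fun u hu => ?_
      rw [← cj_eq_iff]
      have h3 := congrArg Subtype.val (hfix ⟨u, hu⟩)
      have h4 : (E :: l').map (cj u) = E :: l' := h3
      rw [List.map_cons, List.cons_eq_cons] at h4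
      exact h4.1
    rw [h2] at h1
    have h5 : Nat.card (stn S (n + 1)) ≡ 0 [MOD r] := by simpa using h1
    exact_mod_cast (Nat.modEq_zero_iff_dvd.1 h5)
  rw [Finset.sum_range_succ'] at h0
  rw [card_zero] at h0
  have h1 : (r : ℤ) ∣ ∑ k ∈ Finset.range N,
      (-1 : ℤ) ^ (k + 1) * (Nat.card (stn S (k + 1)) : ℤ) :=
    Finset.dvd_sum fun k _ => Dvd.dvd.mul_left (hdiv k) _
  have h2 : (r : ℤ) ∣ 1 := by
    have h3 : (1 : ℤ) = - ∑ k ∈ Finset.range N,
        (-1 : ℤ) ^ (k + 1) * (Nat.card (stn S (k + 1)) : ℤ) := by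
      have : ((1 : ℕ) : ℤ) = 1 := rfl
      rw [pow_zero, one_mul] at h0
      push_cast at h0
      linarith
    rw [h3]
    exact (dvd_neg.2 h1)
  have h3 : r ∣ 1 := by exact_mod_cast h2
  exact hr.out.one_lt.ne' (Nat.dvd_one.1 h3)

/-- A finite set of subgroups with no member normalized by both `c` and the `r`-group `U`
centralizing `c` is not rationally acyclic. -/
theorem lefschetz_group {r : ℕ} [hr : Fact r.Prime] [Finite G] {S : Set (Subgroup G)} (c : G)
    (U : Subgroup G) (hU : IsPGroup r U) (hcU : ∀ u ∈ U, u * c = c * u)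
    (hc : ∀ E ∈ S, cj c E ∈ S) (hstab : ∀ u ∈ U, ∀ E ∈ S, cj u E ∈ S)
    (hno : ∀ E ∈ S, c ∈ normalizer (E : Set G) → ¬ U ≤ normalizer (E : Set G)) : NA ℚ S := by
  by_contra hac
  have hS : S.Finite := Set.toFinite S
  refine euler_mod (r := r) (S := {E | E ∈ S ∧ cj c E = E}) U hU ?_ ?_ (hS.toFinset.card + 1)
    (lefschetz hc (fun x _ y _ h => cj_lt.2 h) hS hac (Nat.lt_succ_self _))
  · rintro u hu E ⟨h1, h2⟩
    refine ⟨hstab u hu E h1, ?_⟩
    rw [← cj_mul, ← hcU u hu, cj_mul, h2]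
  · rintro E ⟨h1, h2⟩
    exact hno E h1 (cj_eq_iff.1 h2)

end

end Vale.Agent.P240.K
end

section

namespace Vale.Agent.P240.K

open Finsupp Subgroup

section
variable {α : Type*} [PartialOrder α] {S : Set α}

/-- minus the reduced Euler characteristic -/
noncomputable def eu (S : Set α) : ℤ :=
  ∑ n ∈ Finset.range (Nat.card S + 1), (-1 : ℤ) ^ n * (Nat.card (stn S n) : ℤ)

lemma stn_empty (hS : S.Finite) {n : ℕ} (hn : Nat.card S < n) : stn S n = ∅ := by
  rw [Set.eq_empty_iff_forall_notMem]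
  rintro l ⟨h1, h2⟩
  have h3 := st_length_le hS h2
  rw [← Nat.card_eq_card_finite_toFinset hS] at h3
  omega

lemma eu_eq (hS : S.Finite) {N : ℕ} (hN : Nat.card S ≤ N) :
    ∑ n ∈ Finset.range (N + 1), (-1 : ℤ) ^ n * (Nat.card (stn S n) : ℤ) = eu S := by
  symm
  refine Finset.sum_subset ?_ ?_
  · intro n hn
    rw [Finset.mem_range] at hn ⊢
    omega
  · intro n _ hn
    rw [Finset.mem_range, not_lt] at hn
    rw [stn_empty hS (by omega)]
    simp

lemma card_stn_succ (hS : S.Finite) (n : ℕ) :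
    (Nat.card (stn S (n + 1)) : ℤ) =
      ∑ x ∈ hS.toFinset, (Nat.card (stn {y | y ∈ S ∧ y < x} n) : ℤ) := by
  classical
  have : Fintype S := hS.fintype
  have hf : ∀ x : S, Finite (stn {y | y ∈ S ∧ y < x.1} n) := fun x =>
    stn_finite (hS.subset fun y hy => hy.1) n
  let e : stn S (n + 1) ≃ Σ x : S, stn {y | y ∈ S ∧ y < x.1} n :=
    { toFun := fun l => match l with
        | ⟨[], h⟩ => absurd h.1 (by simp)
        | ⟨x :: l, h⟩ => ⟨⟨x, h.2.2 x (by simp)⟩, l, by simpa using h.1,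
            (List.pairwise_cons.1 h.2.1).2,
            fun a ha => ⟨h.2.2 a (by simp [ha]), (List.pairwise_cons.1 h.2.1).1 a ha⟩⟩
      invFun := fun z => ⟨z.1.1 :: z.2.1, by
        obtain ⟨⟨x, hx⟩, l, h1, h2, h3⟩ := z
        refine ⟨by simpa using h1, List.pairwise_cons.2 ⟨fun a ha => (h3 a ha).2, h2⟩, ?_⟩
        intro a ha
        rcases List.mem_cons.1 ha with rfl | ha
        · exact hx
        · exact (h3 a ha).1⟩
      left_inv := by
        rintro ⟨l, h⟩
        rcases l with _ | ⟨x, l⟩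
        · exact absurd h.1 (by simp)
        · rfl
      right_inv := by
        rintro ⟨⟨x, hx⟩, l, h1, h2, h3⟩
        rfl }
  rw [Nat.card_congr e, Nat.card_sigma]
  push_cast
  exact Finset.sum_bij (fun (x : S) _ => x.1) (fun x _ => by simp)
    (fun x _ y _ h => Subtype.ext h) (fun y hy => ⟨⟨y, by simpa using hy⟩, by simp, rfl⟩)
    (fun x _ => rfl)

lemma eu_rec (hS : S.Finite) : eu S = 1 - ∑ x ∈ hS.toFinset, eu {y | y ∈ S ∧ y < x} := by
  have h1 : ∀ x ∈ hS.toFinset, Nat.card {y | y ∈ S ∧ y < x} ≤ Nat.card S := fun x _ =>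
    Nat.card_mono hS fun y hy => hy.1
  rw [← eu_eq hS (Nat.le_succ _), Finset.sum_range_succ', card_zero]
  have h2 : ∀ k ∈ Finset.range (Nat.card S + 1),
      (-1 : ℤ) ^ (k + 1) * (Nat.card (stn S (k + 1)) : ℤ) =
        - ∑ x ∈ hS.toFinset, (-1 : ℤ) ^ k * (Nat.card (stn {y | y ∈ S ∧ y < x} k) : ℤ) := by
    intro k _
    rw [card_stn_succ hS, pow_succ, ← Finset.mul_sum]
    ring
  rw [Finset.sum_congr rfl h2, Finset.sum_neg_distrib, Finset.sum_comm]
  rw [Finset.sum_congr rfl fun x hx => eu_eq (hS.subset fun y hy => hy.1) (h1 x hx)]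
  push_cast
  ring

/-- a set with a largest element -/
lemma eu_top (hS : S.Finite) {m : α} (hm : m ∈ S) (hmax : ∀ x ∈ S, x ≤ m) : eu S = 0 := by
  classical
  have hS' : {y | y ∈ S ∧ y < m}.Finite := hS.subset fun y hy => hy.1
  have h1 : hS.toFinset = insert m hS'.toFinset := by
    ext x
    rw [Finset.mem_insert, Set.Finite.mem_toFinset, Set.Finite.mem_toFinset]
    constructor
    · intro hx
      rcases (hmax x hx).eq_or_lt with h | h
      · exact Or.inl h
      · exact Or.inr ⟨hx, h⟩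
    · rintro (rfl | h)
      · exact hm
      · exact h.1
  rw [eu_rec hS, h1, Finset.sum_insert (by simp), eu_rec hS']
  have h2 : ∀ x ∈ hS'.toFinset,
      eu {y | y ∈ {y | y ∈ S ∧ y < m} ∧ y < x} = eu {y | y ∈ S ∧ y < x} := by
    intro x hx
    rw [Set.Finite.mem_toFinset] at hx
    congr 1
    ext y
    exact ⟨fun h => ⟨h.1.1, h.2⟩, fun h => ⟨⟨h.1, h.2.trans hx.2⟩, h.2⟩⟩
  rw [Finset.sum_congr rfl h2]
  ring

/-- a coreflective subset has the same Euler characteristic -/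
lemma eu_coreflect (ρ : α → α) : ∀ (n : ℕ) (S F : Set α), S.Finite → Nat.card S = n → F ⊆ S →
    (∀ x ∈ S, ρ x ∈ F) → (∀ x ∈ S, ρ x ≤ x) → (∀ x ∈ S, ∀ y ∈ F, y ≤ x → y ≤ ρ x) →
    eu S = eu F := by
  classical
  intro n
  induction n using Nat.strong_induction_on with
  | _ n ih =>
    intro S F hS hn hFS hρ hle hun
    have hF : F.Finite := hS.subset hFS
    have hlt : ∀ x ∈ S, Nat.card {y | y ∈ S ∧ y < x} < n := by
      intro x hx
      rw [← hn]
      refine Set.Finite.card_lt_card hS ⟨fun y hy => hy.1, fun h => ?_⟩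
      exact lt_irrefl x (h hx).2
    have h1 : ∀ x ∈ S, eu {y | y ∈ S ∧ y < x} = eu {y | y ∈ F ∧ y < x} := by
      intro x hx
      refine ih _ (hlt x hx) _ _ (hS.subset fun y hy => hy.1) rfl
        (fun y hy => ⟨hFS hy.1, hy.2⟩) (fun y hy => ⟨hρ y hy.1, (hle y hy.1).trans_lt hy.2⟩)
        (fun y hy => hle y hy.1) (fun y hy z hz => hun y hy.1 z hz.1)
    rw [eu_rec hS, eu_rec hF]
    congr 1
    rw [Finset.sum_congr rfl fun x hx => h1 x (by simpa using hx)]
    symm
    refine Finset.sum_subset (fun x hx => by simpa using hFS (by simpa using hx)) ?_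
    intro x hx hxF
    rw [Set.Finite.mem_toFinset] at hx hxF
    have hρx : ρ x < x := by
      refine (hle x hx).lt_of_ne fun h => hxF ?_
      rw [← h]
      exact hρ x hx
    refine eu_top (hF.subset fun y hy => hy.1) (m := ρ x) ⟨hρ x hx, hρx⟩ ?_
    rintro y ⟨hy, hyx⟩
    exact hun x hx y hy hyx.le

lemma eu_image {β : Type*} [PartialOrder β] (e : α ≃o β) (S : Set α) : eu (e '' S) = eu S := by
  have h1 : Nat.card (e '' S) = Nat.card S := Nat.card_image_of_injective e.injective S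
  have h2 : ∀ n, Nat.card (stn (e '' S) n) = Nat.card (stn S n) := by
    intro n
    have : stn (e '' S) n = (List.map e) '' stn S n := by
      ext l
      constructor
      · rintro ⟨hl1, hl2, hl3⟩
        refine ⟨l.map e.symm, ⟨by simpa using hl1, ?_, ?_⟩, ?_⟩
        · rw [List.pairwise_map]
          exact hl2.imp fun h => e.symm.lt_iff_lt.2 h
        · intro a ha
          obtain ⟨b, hb, rfl⟩ := List.mem_map.1 ha
          obtain ⟨c, hc, rfl⟩ := hl3 b hb
          simpa using hc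
        · rw [List.map_map]
          conv_rhs => rw [← List.map_id l]
          exact List.map_congr_left fun a _ => by simp
      · rintro ⟨l, ⟨hl1, hl2, hl3⟩, rfl⟩
        refine ⟨by simpa using hl1, ?_, ?_⟩
        · rw [List.pairwise_map]
          exact hl2.imp fun h => e.lt_iff_lt.2 h
        · intro a ha
          obtain ⟨b, hb, rfl⟩ := List.mem_map.1 ha
          exact ⟨b, hl3 b hb, rfl⟩
    rw [this]
    exact Nat.card_image_of_injective (List.map_injective_iff.2 e.injective) _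
  rw [eu, eu, h1]
  exact Finset.sum_congr rfl fun n _ => by rw [h2]

end

end Vale.Agent.P240.K
end

section

namespace Vale.Agent.P240.K

open Subgroup

section
variable {G : Type*} [Group G]

open Classical in
/-- product of the weights of the listed subgroups not containing `F` -/
noncomputable def wt (Λ : List (Subgroup G × ℕ)) (F : Subgroup G) : ℤ :=
  (Λ.map fun a => if F ≤ a.1 then (1 : ℤ) else (a.2 : ℤ)).prod

/-- the subgroups of `E` -/
noncomputable def subs [Finite G] (E : Subgroup G) : Finset (Subgroup G) :=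
  (Set.toFinite {F : Subgroup G | F ≤ E}).toFinset

lemma mem_subs [Finite G] {E F : Subgroup G} : F ∈ subs E ↔ F ≤ E := by
  rw [subs, Set.Finite.mem_toFinset]; rfl

/-- weights at hyperplanes -/
def Hyp (p : ℕ) (P : Subgroup G) (a : Subgroup G × ℕ) : Prop :=
  2 ≤ a.2 ∧ ∀ E ≤ P, ¬ E ≤ a.1 → Nat.card (E ⊓ a.1 : Subgroup G) * p = Nat.card E

/-- **Positivity.** -/
theorem weights_pos [Finite G] {p : ℕ} [hp : Fact p.Prime] {P : Subgroup G} (μ : Subgroup G → ℤ)
    (h1 : μ ⊥ = 1) (h0 : ∀ E ≤ P, E ≠ ⊥ → ∑ F ∈ subs E, μ F = 0) (Λ : List (Subgroup G × ℕ))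
    (hΛ : ∀ a ∈ Λ, Hyp p P a) : ∀ E ≤ P, ∀ m, Nat.card E = p ^ m →
      0 ≤ (-1) ^ m * ∑ F ∈ subs E, μ F * wt Λ F ∧
      ((∀ x ∈ E, (∀ a ∈ Λ, x ∈ a.1) → x = 1) → 0 < (-1) ^ m * ∑ F ∈ subs E, μ F * wt Λ F) := by
  classical
  induction Λ with
  | nil =>
    intro E hE m hm
    have hw : ∑ F ∈ subs E, μ F * wt [] F = ∑ F ∈ subs E, μ F :=
      Finset.sum_congr rfl fun F _ => by simp [wt]
    rw [hw]
    by_cases hb : E = ⊥
    · subst hb
      have hm0 : m = 0 := by
        rw [Subgroup.card_bot] at hm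
        rcases Nat.eq_zero_or_pos m with h | h
        · exact h
        · exact absurd hm (Nat.one_lt_pow h.ne' hp.out.one_lt).ne
      have hs : subs (⊥ : Subgroup G) = {⊥} := by
        ext F
        rw [mem_subs, Finset.mem_singleton, le_bot_iff]
      rw [hs, Finset.sum_singleton, h1, hm0]
      simp
    · rw [h0 E hE hb, mul_zero]
      refine ⟨le_rfl, fun h => absurd ?_ hb⟩
      rw [eq_bot_iff]
      intro x hx
      exact h x hx (by simp)
  | cons a Λ ih =>
    obtain ⟨H, x⟩ := a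
    intro E hE m hm
    have ih' := ih fun b hb => hΛ b (List.mem_cons_of_mem _ hb)
    obtain ⟨hx2, hH⟩ := hΛ (H, x) (List.mem_cons_self)
    have hw : ∀ F, wt ((H, x) :: Λ) F = (if F ≤ H then (1 : ℤ) else (x : ℤ)) * wt Λ F := by
      intro F
      simp [wt]
    have key : ∑ F ∈ subs E, μ F * wt ((H, x) :: Λ) F =
        x * ∑ F ∈ subs E, μ F * wt Λ F - (x - 1) * ∑ F ∈ subs (E ⊓ H), μ F * wt Λ F := by
      have h2 : subs (E ⊓ H) = (subs E).filter fun F => F ≤ H := by
        ext F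
        rw [Finset.mem_filter, mem_subs, mem_subs, le_inf_iff]
      rw [h2, Finset.sum_filter, Finset.mul_sum, Finset.mul_sum, ← Finset.sum_sub_distrib]
      refine Finset.sum_congr rfl fun F _ => ?_
      rw [hw]
      split_ifs <;> ring
    have hx1 : (0 : ℤ) < (x : ℤ) - 1 := by
      have : (2 : ℤ) ≤ (x : ℤ) := by exact_mod_cast hx2
      linarith
    by_cases hEH : E ≤ H
    · have h3 : E ⊓ H = E := inf_eq_left.2 hEH
      have h4 : ∑ F ∈ subs E, μ F * wt ((H, x) :: Λ) F = ∑ F ∈ subs E, μ F * wt Λ F := by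
        rw [key, h3]; ring
      rw [h4]
      obtain ⟨h5, h6⟩ := ih' E hE m hm
      refine ⟨h5, fun h => h6 fun y hy hyΛ => h y hy ?_⟩
      intro b hb
      rcases List.mem_cons.1 hb with rfl | hb
      · exact hEH hy
      · exact hyΛ b hb
    · have hc := hH E hE hEH
      obtain ⟨m', rfl⟩ : ∃ m', m = m' + 1 := by
        rcases m with _ | m'
        · rw [pow_zero] at hm
          rw [hm] at hc
          exact absurd (Nat.eq_one_of_mul_eq_one_left hc) hp.out.one_lt.ne'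
        · exact ⟨m', rfl⟩
      have hm' : Nat.card (E ⊓ H : Subgroup G) = p ^ m' := by
        rw [hm, pow_succ] at hc
        exact Nat.eq_of_mul_eq_mul_right hp.out.pos hc
      obtain ⟨h5, _⟩ := ih' E hE (m' + 1) hm
      obtain ⟨h7, h8⟩ := ih' (E ⊓ H) (inf_le_left.trans hE) m' hm'
      have h9 : (-1 : ℤ) ^ (m' + 1) * ∑ F ∈ subs E, μ F * wt ((H, x) :: Λ) F =
          x * ((-1) ^ (m' + 1) * ∑ F ∈ subs E, μ F * wt Λ F) +
            (x - 1) * ((-1) ^ m' * ∑ F ∈ subs (E ⊓ H), μ F * wt Λ F) := by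
        rw [key, pow_succ]; ring
      rw [h9]
      have hx0 : (0 : ℤ) ≤ x := Int.natCast_nonneg x
      constructor
      · exact add_nonneg (mul_nonneg hx0 h5) (mul_nonneg hx1.le h7)
      · intro h
        refine add_pos_of_nonneg_of_pos (mul_nonneg hx0 h5) (mul_pos hx1 (h8 ?_))
        intro y hy hyΛ
        refine h y hy.1 ?_
        intro b hb
        rcases List.mem_cons.1 hb with rfl | hb
        · exact hy.2
        · exact hyΛ b hb

end

section
/-- norms of a fixed point free automorphism of order `p` -/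
lemma norm_one {V : Type*} [CommGroup V] {p : ℕ} (hp : 0 < p) (β : Monoid.End V) (hβ : β ^ p = 1)
    (hfix : ∀ v, β v = v → v = 1) (v : V) : ∏ i ∈ Finset.range p, (β ^ i) v = 1 := by
  apply hfix
  obtain ⟨k, rfl⟩ : ∃ k, p = k + 1 := ⟨p - 1, by omega⟩
  rw [map_prod]
  have h1 : ∀ i ∈ Finset.range (k + 1), β ((β ^ i) v) = (β ^ (i + 1)) v := by
    intro i _
    rw [pow_succ']
    rfl
  rw [Finset.prod_congr rfl h1, Finset.prod_range_succ, hβ, Finset.prod_range_succ']
  rfl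

/-- two commuting automorphisms generating a noncyclic group acting freely -/
lemma pow_one_of_free {V : Type*} [CommGroup V] {p : ℕ} (hp : 0 < p) (A B : Monoid.End V)
    (hAB : Commute A B) (hA : A ^ p = 1) (hB : B ^ p = 1)
    (h1 : ∀ j, j < p → ∀ v, (A * B ^ j) v = v → v = 1)
    (h2 : ∀ i, 0 < i → i < p → ∀ v, (B ^ i) v = v → v = 1) (v : V) : v ^ p = 1 := by
  have e1 : ∀ j ∈ Finset.range p, ∏ i ∈ Finset.range p, ((A * B ^ j) ^ i) v = 1 := by
    intro j hj
    refine norm_one hp _ ?_ (h1 j (Finset.mem_range.1 hj)) v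
    rw [(hAB.pow_right j).mul_pow, hA, one_mul, ← pow_mul, mul_comm, pow_mul, hB, one_pow]
  have e2 : ∏ i ∈ Finset.range p, ∏ j ∈ Finset.range p, ((A * B ^ j) ^ i) v = 1 := by
    rw [Finset.prod_comm]
    exact Finset.prod_eq_one e1
  have e3 : ∀ i ∈ Finset.range p, i ≠ 0 → ∏ j ∈ Finset.range p, ((A * B ^ j) ^ i) v = 1 := by
    intro i hi hi0
    have h3 : ∀ j ∈ Finset.range p, ((A * B ^ j) ^ i) v = (A ^ i) (((B ^ i) ^ j) v) := by
      intro j _
      rw [(hAB.pow_right j).mul_pow, ← pow_mul, mul_comm j i, pow_mul]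
      rfl
    rw [Finset.prod_congr rfl h3, ← map_prod]
    have h4 : ∏ j ∈ Finset.range p, ((B ^ i) ^ j) v = 1 := by
      refine norm_one hp _ ?_ (h2 i (Nat.pos_of_ne_zero hi0) (Finset.mem_range.1 hi)) v
      rw [← pow_mul, mul_comm, pow_mul, hB, one_pow]
    rw [h4, map_one]
  rw [Finset.prod_eq_single 0 e3 (fun h => absurd (Finset.mem_range.2 hp) h)] at e2
  have h5 : ∀ j ∈ Finset.range p, ((A * B ^ j) ^ 0) v = v := fun j _ => by
    rw [pow_zero]; rfl
  rw [Finset.prod_congr rfl h5, Finset.prod_const, Finset.card_range] at e2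
  exact e2

end

end Vale.Agent.P240.K
end

section

namespace Vale.Agent.P240.K

open Subgroup

universe u

section
variable {G : Type u} [Group G]

/-- elements of `Q` fixed modulo `M` by the elements of `S` -/
def fixMod (Q M : Subgroup G) (S : Set G) (hM : ∀ x ∈ Q, ∀ m ∈ M, x * m * x⁻¹ ∈ M) :
    Subgroup G where
  carrier := {q | q ∈ Q ∧ ∀ f ∈ S, f * q * f⁻¹ * q⁻¹ ∈ M}
  one_mem' := ⟨one_mem _, fun f _ => by simp⟩
  mul_mem' := by
    rintro a b ⟨ha, ha'⟩ ⟨hb, hb'⟩
    refine ⟨mul_mem ha hb, fun f hf => ?_⟩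
    have : f * (a * b) * f⁻¹ * (a * b)⁻¹ =
        (f * a * f⁻¹ * a⁻¹) * (a * (f * b * f⁻¹ * b⁻¹) * a⁻¹) := by group
    rw [this]
    exact mul_mem (ha' f hf) (hM a ha _ (hb' f hf))
  inv_mem' := by
    rintro a ⟨ha, ha'⟩
    refine ⟨inv_mem ha, fun f hf => ?_⟩
    have : f * a⁻¹ * f⁻¹ * a⁻¹⁻¹ = (a⁻¹ * (f * a * f⁻¹ * a⁻¹) * a⁻¹⁻¹)⁻¹ := by group
    rw [this]
    exact inv_mem (hM _ (inv_mem ha) _ (ha' f hf))

lemma norm_of_conj [Finite G] {P K : Subgroup G} (h : ∀ x ∈ P, ∀ q ∈ K, x * q * x⁻¹ ∈ K) :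
    ∀ x ∈ P, x ∈ normalizer (K : Set G) := by
  intro x hx
  rw [mem_normalizer_iff]
  intro q
  refine ⟨h x hx q, fun hq => ?_⟩
  have h1 := h _ (inv_mem hx) _ hq
  have h2 : x⁻¹ * (x * q * x⁻¹) * x⁻¹⁻¹ = q := by group
  rwa [h2] at h1

/-- a top factor of `Q` that is irreducible under `P` -/
lemma exists_top_factor [Finite G] {P Q : Subgroup G} (hQ : Q ≠ ⊥) (hsol : Group.IsSolvable Q)
    (hPQ : ∀ x ∈ P, ∀ q ∈ Q, x * q * x⁻¹ ∈ Q) :
    ∃ M : Subgroup G, M < Q ∧ (∀ x ∈ P, ∀ m ∈ M, x * m * x⁻¹ ∈ M) ∧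
      (∀ x ∈ Q, ∀ y ∈ Q, x * y * x⁻¹ * y⁻¹ ∈ M) ∧
      ∀ K : Subgroup G, M ≤ K → K ≤ Q → (∀ x ∈ P, ∀ q ∈ K, x * q * x⁻¹ ∈ K) → K = M ∨ K = Q := by
  let T : Set (Subgroup G) := {M | M < Q ∧ (∀ x ∈ P, ∀ m ∈ M, x * m * x⁻¹ ∈ M) ∧
      ∀ x ∈ Q, ∀ y ∈ Q, x * y * x⁻¹ * y⁻¹ ∈ M}
  have hne : T.Nonempty := by
    refine ⟨⁅Q, Q⁆, ?_, ?_, ?_⟩
    · refine lt_of_le_of_ne ?_ ?_
      · rw [Subgroup.commutator_le]
        intro a ha b hb
        exact mul_mem (mul_mem (mul_mem ha hb) (inv_mem ha)) (inv_mem hb)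
      · intro h
        have : Nontrivial Q := (Subgroup.nontrivial_iff_ne_bot Q).2 hQ
        have h1 := Group.IsSolvable.commutator_lt_top_of_nontrivial Q
        apply h1.ne
        have h2 : (commutator Q).map Q.subtype = (⊤ : Subgroup Q).map Q.subtype := by
          rw [commutator_def, Subgroup.map_commutator, ← MonoidHom.range_eq_map,
            Subgroup.range_subtype, h]
        exact Subgroup.map_injective Q.subtype_injective h2
    · intro x hx m hm
      have h1 : ⁅Q, Q⁆ ≤ (⁅Q, Q⁆ : Subgroup G).comap (MulAut.conj x).toMonoidHom := by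
        rw [Subgroup.commutator_le]
        intro a ha b hb
        have h2 : x * (a * b * a⁻¹ * b⁻¹) * x⁻¹ = (x * a * x⁻¹) * (x * b * x⁻¹) *
            (x * a * x⁻¹)⁻¹ * (x * b * x⁻¹)⁻¹ := by group
        change x * (a * b * a⁻¹ * b⁻¹) * x⁻¹ ∈ ⁅Q, Q⁆
        rw [h2]
        exact Subgroup.commutator_mem_commutator (hPQ x hx a ha) (hPQ x hx b hb)
      exact h1 hm
    · intro x hx y hy
      exact Subgroup.commutator_mem_commutator hx hy
  obtain ⟨M, ⟨h1, h2, h3⟩, hmax⟩ := (Set.toFinite T).exists_maximal hne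
  refine ⟨M, h1, h2, h3, ?_⟩
  intro K hMK hKQ hK
  rcases hKQ.eq_or_lt with h | h
  · exact Or.inr h
  · refine Or.inl (le_antisymm (hmax ⟨h, hK, fun x hx y hy => hMK (h3 x hx y hy)⟩ hMK) hMK)

/-- the action on the top factor -/
lemma top_factor_action {P Q M : Subgroup G}
    (hPQ : ∀ x ∈ P, ∀ q ∈ Q, x * q * x⁻¹ ∈ Q) (hPM : ∀ x ∈ P, ∀ m ∈ M, x * m * x⁻¹ ∈ M)
    (hcomm : ∀ x ∈ Q, ∀ y ∈ Q, x * y * x⁻¹ * y⁻¹ ∈ M) (hMQ : M ≤ Q) :
    ∃ (V : Type u) (_ : CommGroup V) (π : Q →* V) (β : P →* Monoid.End V),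
      Function.Surjective π ∧ (∀ q : Q, π q = 1 ↔ (q : G) ∈ M) ∧
      (Nat.card V = M.relIndex Q) ∧
      (∀ (x : P) (q : Q) (h : (x : G) * q * (x : G)⁻¹ ∈ Q), β x (π q) = π ⟨_, h⟩) := by
  have hnorm : ∀ x ∈ Q, ∀ m ∈ M, x * m * x⁻¹ ∈ M := by
    intro x hx m hm
    have h1 := mul_mem (hcomm x hx m (hMQ hm)) hm
    rwa [inv_mul_cancel_right] at h1
  have hN : (M.subgroupOf Q).Normal := by
    refine ⟨fun m hm x => ?_⟩
    rw [mem_subgroupOf] at hm ⊢
    exact hnorm x x.2 m hm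
  let V := Q ⧸ M.subgroupOf Q
  let inst : CommGroup V :=
    { (inferInstance : Group V) with
      mul_comm := by
        intro a b
        obtain ⟨x, rfl⟩ := QuotientGroup.mk_surjective a
        obtain ⟨y, rfl⟩ := QuotientGroup.mk_surjective b
        change ((x * y : Q) : V) = ((y * x : Q) : V)
        rw [QuotientGroup.eq, mem_subgroupOf]
        have h1 := hcomm (y : G)⁻¹ (inv_mem y.2) (x : G)⁻¹ (inv_mem x.2)
        have h2 : (((x * y)⁻¹ * (y * x) : Q) : G) =
            (y : G)⁻¹ * (x : G)⁻¹ * ((y : G)⁻¹)⁻¹ * ((x : G)⁻¹)⁻¹ := by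
          push_cast
          group
        rw [h2]
        exact h1 }
  let κ : P → (Q →* Q) := fun x =>
    { toFun := fun q => ⟨x * q * (x : G)⁻¹, hPQ x x.2 q q.2⟩
      map_one' := by ext; simp
      map_mul' := fun a b => by
        ext
        push_cast
        group }
  have hκ : ∀ x, M.subgroupOf Q ≤ (M.subgroupOf Q).comap (κ x) := by
    intro x m hm
    rw [mem_subgroupOf] at hm
    rw [mem_comap, mem_subgroupOf]
    exact hPM x x.2 m hm
  let β : P →* Monoid.End V :=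
    { toFun := fun x => QuotientGroup.map (M.subgroupOf Q) (M.subgroupOf Q) (κ x) (hκ x)
      map_one' := by
        apply MonoidHom.ext
        intro v
        obtain ⟨q, rfl⟩ := QuotientGroup.mk_surjective v
        change ((κ 1 q : Q) : V) = (q : V)
        congr 1
        apply Subtype.ext
        change ((1 : P) : G) * q * ((1 : P) : G)⁻¹ = q
        simp
      map_mul' := by
        intro x y
        apply MonoidHom.ext
        intro v
        obtain ⟨q, rfl⟩ := QuotientGroup.mk_surjective v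
        change ((κ (x * y) q : Q) : V) = ((κ x (κ y q) : Q) : V)
        congr 1
        apply Subtype.ext
        change ((x * y : P) : G) * q * ((x * y : P) : G)⁻¹ = x * (y * q * (y : G)⁻¹) * (x : G)⁻¹
        push_cast
        group }
  refine ⟨V, inst, QuotientGroup.mk' (M.subgroupOf Q), β, QuotientGroup.mk'_surjective _, ?_, ?_, ?_⟩
  · intro q
    change ((q : V) = 1) ↔ _
    rw [QuotientGroup.eq_one_iff, mem_subgroupOf]
  · rfl
  · intro x q h
    rfl

end

end Vale.Agent.P240.K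
end

section

namespace Vale.Agent.P240.K

open Subgroup

universe u

section
variable {G : Type u} [Group G]

/-- the kernel of the action on the top factor -/
def topKer (P Q M : Subgroup G) (hPQ : ∀ x ∈ P, ∀ q ∈ Q, x * q * x⁻¹ ∈ Q) : Subgroup G where
  carrier := {x | x ∈ P ∧ ∀ q ∈ Q, x * q * x⁻¹ * q⁻¹ ∈ M}
  one_mem' := ⟨one_mem _, fun f _ => by simp⟩
  mul_mem' := by
    rintro a b ⟨ha, ha'⟩ ⟨hb, hb'⟩
    refine ⟨mul_mem ha hb, fun q hq => ?_⟩
    have : (a * b) * q * (a * b)⁻¹ * q⁻¹ =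
        (a * (b * q * b⁻¹) * a⁻¹ * (b * q * b⁻¹)⁻¹) * (b * q * b⁻¹ * q⁻¹) := by group
    rw [this]
    exact mul_mem (ha' _ (hPQ b hb q hq)) (hb' q hq)
  inv_mem' := by
    rintro a ⟨ha, ha'⟩
    refine ⟨inv_mem ha, fun q hq => ?_⟩
    have h1 := ha' _ (hPQ _ (inv_mem ha) q hq)
    have : a⁻¹ * q * a⁻¹⁻¹ * q⁻¹ =
        (a * (a⁻¹ * q * a⁻¹⁻¹) * a⁻¹ * (a⁻¹ * q * a⁻¹⁻¹)⁻¹)⁻¹ := by group
    rw [this]
    exact inv_mem h1

lemma card_of_cover [Finite G] {p : ℕ} {E H : Subgroup G} {b : G} (hb : b ∈ E) (hbH : b ∉ H)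
    (hp : p.Prime) (hbp : b ^ p = 1) (hcov : ∀ a ∈ E, ∃ j : ℕ, a * b ^ j ∈ H) :
    Nat.card (E ⊓ H : Subgroup G) * p = Nat.card E := by
  have : Fact p.Prime := ⟨hp⟩
  have hb1 : b ≠ 1 := fun h => hbH (h ▸ one_mem _)
  have hord : orderOf b = p := orderOf_eq_prime hbp hb1
  have hc : Nat.card (zpowers b) = p := by rw [Nat.card_zpowers, hord]
  rw [← hc, ← Nat.card_prod]
  refine Nat.card_congr (Equiv.ofBijective
    (fun x : (E ⊓ H : Subgroup G) × zpowers b => (⟨x.1 * x.2, mul_mem x.1.2.1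
      ((zpowers_le.2 hb) x.2.2)⟩ : E)) ⟨?_, ?_⟩)
  · rintro ⟨⟨x, hx⟩, ⟨y, hy⟩⟩ ⟨⟨x', hx'⟩, ⟨y', hy'⟩⟩ h
    have h1 : x * y = x' * y' := congrArg Subtype.val h
    have h2 : x'⁻¹ * x = y' * y⁻¹ := by
      calc x'⁻¹ * x = x'⁻¹ * (x * y) * y⁻¹ := by group
        _ = x'⁻¹ * (x' * y') * y⁻¹ := by rw [h1]
        _ = y' * y⁻¹ := by group
    have h3 : y' * y⁻¹ ∈ H := h2 ▸ mul_mem (inv_mem hx'.2) hx.2
    have h4 : y' * y⁻¹ ∈ zpowers b := mul_mem hy' (inv_mem hy)
    have h5 : y' * y⁻¹ = 1 := by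
      by_contra hne
      obtain ⟨k, hk⟩ := mem_zpowers_iff.1 h4
      -- the subgroup generated is everything
      have h6 : zpowers (⟨y' * y⁻¹, h4⟩ : zpowers b) = ⊤ := by
        have : Fact (Nat.card (zpowers b)).Prime := ⟨by rw [hc]; exact hp⟩
        exact (zpowers_eq_top_of_prime_card (p := p) hc (fun h => hne (congrArg Subtype.val h)))
      have h7 : (⟨b, mem_zpowers b⟩ : zpowers b) ∈ zpowers (⟨y' * y⁻¹, h4⟩ : zpowers b) := by
        rw [h6]; trivial
      obtain ⟨l, hl⟩ := mem_zpowers_iff.1 h7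
      apply hbH
      have h8 : (y' * y⁻¹) ^ l = b := congrArg Subtype.val hl
      rw [← h8]
      exact zpow_mem h3 l
    have h6 : y' = y := mul_inv_eq_one.1 h5
    subst h6
    have h7 : x = x' := mul_right_cancel h1
    subst h7
    rfl
  · rintro ⟨a, ha⟩
    obtain ⟨j, hj⟩ := hcov a ha
    refine ⟨⟨⟨a * b ^ j, mul_mem ha (pow_mem hb j), hj⟩, ⟨(b ^ j)⁻¹,
      inv_mem (pow_mem (mem_zpowers b) j)⟩⟩, ?_⟩
    apply Subtype.ext
    change a * b ^ j * (b ^ j)⁻¹ = a
    group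

lemma card_relIndex [Finite G] {M Q : Subgroup G} (h : M ≤ Q) :
    Nat.card M * M.relIndex Q = Nat.card Q := by
  have := relIndex_mul_relIndex ⊥ M Q bot_le h
  rwa [relIndex_bot_left, relIndex_bot_left] at this

/-- **Coprime action**: weights. -/
theorem exists_weights [Finite G] {p : ℕ} [hp : Fact p.Prime] {P : Subgroup G}
    (hPc : ∀ x ∈ P, ∀ y ∈ P, x * y = y * x) (hPp : ∀ x ∈ P, x ^ p = 1) :
    ∀ n, ∀ Q : Subgroup G, Nat.card Q = n → Group.IsSolvable Q → ¬ p ∣ Nat.card Q →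
      (∀ x ∈ P, ∀ q ∈ Q, x * q * x⁻¹ ∈ Q) →
      ∃ Λ : List (Subgroup G × ℕ), (∀ a ∈ Λ, Hyp p P a) ∧ ∀ F ≤ P,
        (Nat.card Q : ℤ) = Nat.card (Q ⊓ centralizer (F : Set G) : Subgroup G) * wt Λ F := by
  classical
  intro n
  induction n using Nat.strong_induction_on with
  | _ n ih =>
    intro Q hn hsol hpQ hPQ
    by_cases hQ : Q = ⊥
    · subst hQ
      refine ⟨[], by simp, fun F _ => ?_⟩
      simp [wt]
    obtain ⟨M, hMQ, hPM, hcomm, hirr⟩ := exists_top_factor hQ hsol hPQ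
    have hnorm : ∀ x ∈ Q, ∀ m ∈ M, x * m * x⁻¹ ∈ M := by
      intro x hx m hm
      have h1 := mul_mem (hcomm x hx m (hMQ.le hm)) hm
      rwa [inv_mul_cancel_right] at h1
    have hcard := card_relIndex hMQ.le
    have hpM : ¬ p ∣ Nat.card M := fun h => hpQ (hcard ▸ Dvd.dvd.mul_right h _)
    have hpI : ¬ p ∣ M.relIndex Q := fun h => hpQ (hcard ▸ Dvd.dvd.mul_left h _)
    have hsolM : Group.IsSolvable M := by
      have := hsol
      exact Group.isSolvable_of_isSolvable_injective (inclusion_injective hMQ.le)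
    have hlt : Nat.card M < n := by
      rw [← hn]
      exact Set.Finite.card_lt_card (Set.toFinite _) hMQ
    obtain ⟨Λ, hΛ, hw⟩ := ih _ hlt M rfl hsolM hpM hPM
    set H := topKer P Q M hPQ with hH
    -- fixed points modulo `M`
    have hfm : ∀ S : Set G, S ⊆ P → (∀ f ∈ S, f ∈ H) ∨ fixMod Q M S hnorm = M := by
      intro S hS
      have k1 : M ≤ fixMod Q M S hnorm := by
        intro m hm
        exact ⟨hMQ.le hm, fun f hf => mul_mem (hPM f (hS hf) m hm) (inv_mem hm)⟩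
      have k2 : fixMod Q M S hnorm ≤ Q := fun q hq => hq.1
      have k3 : ∀ x ∈ P, ∀ q ∈ fixMod Q M S hnorm, x * q * x⁻¹ ∈ fixMod Q M S hnorm := by
        rintro x hx q ⟨hq1, hq2⟩
        refine ⟨hPQ x hx q hq1, fun f hf => ?_⟩
        have h1 := hPM x hx _ (hq2 f hf)
        have h2 : f * x = x * f := hPc f (hS hf) x hx
        have h3 : x⁻¹ * f⁻¹ = f⁻¹ * x⁻¹ := by
          rw [← mul_inv_rev, ← mul_inv_rev, h2]
        have h4 : f * (x * q * x⁻¹) * f⁻¹ * (x * q * x⁻¹)⁻¹ = x * (f * q * f⁻¹ * q⁻¹) * x⁻¹ := by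
          calc f * (x * q * x⁻¹) * f⁻¹ * (x * q * x⁻¹)⁻¹
              = (f * x) * q * (x⁻¹ * f⁻¹) * (x * q * x⁻¹)⁻¹ := by group
            _ = (x * f) * q * (f⁻¹ * x⁻¹) * (x * q * x⁻¹)⁻¹ := by rw [h2, h3]
            _ = x * (f * q * f⁻¹ * q⁻¹) * x⁻¹ := by group
        rw [h4]
        exact h1
      rcases hirr (fixMod Q M S hnorm) k1 k2 k3 with h | h
      · exact Or.inr h
      · left
        intro f hf
        refine ⟨hS hf, fun q hq => ?_⟩
        have h1 : q ∈ fixMod Q M S hnorm := by rw [h]; exact hq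
        exact h1.2 f hf
    have hhyp : Hyp p P (H, M.relIndex Q) := by
      constructor
      · have h1 : M.relIndex Q ≠ 0 := by
          intro h
          rw [h, mul_zero] at hcard
          exact Nat.card_pos.ne hcard
        have h2 : M.relIndex Q ≠ 1 := by
          intro h
          rw [relIndex_eq_one] at h
          exact hMQ.not_ge h
        change 2 ≤ M.relIndex Q
        omega
      · intro E hE hEH
        change ¬ E ≤ H at hEH
        obtain ⟨b, hbE, hbH⟩ := SetLike.not_le_iff_exists.1 hEH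
        refine card_of_cover hbE hbH hp.out (hPp b (hE hbE)) ?_
        intro a ha
        by_contra hno
        push Not at hno
        obtain ⟨V, _, π, β, hπ, hker, hV, hβ⟩ := top_factor_action hPQ hPM hcomm hMQ.le
        have hfix : ∀ g : P, (g : G) ∉ H → ∀ v, β g v = v → v = 1 := by
          intro g hg v hv
          obtain ⟨q, rfl⟩ := hπ v
          rw [hβ g q (hPQ g g.2 q q.2)] at hv
          have h1 : π (⟨_, hPQ g g.2 q q.2⟩ * q⁻¹) = 1 := by
            rw [map_mul, hv, ← map_mul, mul_inv_cancel, map_one]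
          rw [hker] at h1
          rw [hker]
          rcases hfm {(g : G)} (by simp) with h | h
          · exact absurd (h g rfl) hg
          · have h2 : (q : G) ∈ fixMod Q M {(g : G)} hnorm := by
              refine ⟨q.2, fun f hf => ?_⟩
              rw [Set.mem_singleton_iff.1 hf]
              exact h1
            rwa [h] at h2
        have hpow : ∀ v : V, v ^ p = 1 := by
          have hbi : ∀ i, 0 < i → i < p → b ^ i ∉ H := by
            intro i hi0 hip hmem
            have hcop : Nat.Coprime i p :=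
              (Nat.coprime_of_lt_prime hi0.ne' hip hp.out).symm
            apply hbH
            have hb1 : b ≠ 1 := fun h => hbH (h ▸ one_mem _)
            have hord : orderOf b = p := orderOf_eq_prime (hPp b (hE hbE)) hb1
            have h1 : zpowers (b ^ i) = zpowers b := by
              rw [← Nat.card_zpowers] at hord
              refine le_antisymm (zpowers_le.2 (pow_mem (mem_zpowers b) i)) ?_
              rw [zpowers_le]
              obtain ⟨m, hm⟩ := exists_pow_eq_self_of_coprime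
                (x := b) (n := i) (by rw [orderOf_eq_prime (hPp b (hE hbE)) hb1]; exact hcop)
              have h3 := pow_mem (mem_zpowers (b ^ i)) m
              rwa [hm] at h3
            have h2 : b ∈ zpowers (b ^ i) := by rw [h1]; exact mem_zpowers b
            exact (zpowers_le.2 hmem) h2
          intro v
          have hc : Commute (β ⟨a, hE ha⟩) (β ⟨b, hE hbE⟩) := by
            change β _ * β _ = β _ * β _
            rw [← map_mul, ← map_mul]
            congr 1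
            exact Subtype.ext (hPc a (hE ha) b (hE hbE))
          refine pow_one_of_free hp.out.pos (β ⟨a, hE ha⟩) (β ⟨b, hE hbE⟩) hc ?_ ?_ ?_ ?_ v
          · rw [← map_pow]
            have : (⟨a, hE ha⟩ : P) ^ p = 1 := Subtype.ext (hPp a (hE ha))
            rw [this, map_one]
          · rw [← map_pow]
            have : (⟨b, hE hbE⟩ : P) ^ p = 1 := Subtype.ext (hPp b (hE hbE))
            rw [this, map_one]
          · intro j _ w hw'
            rw [← map_pow, ← map_mul] at hw'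
            exact hfix _ (hno j) w hw'
          · intro i hi0 hip w hw'
            rw [← map_pow] at hw'
            exact hfix _ (hbi i hi0 hip) w hw'
        have hVfin : Finite V := Finite.of_surjective π hπ
        have htriv : ∀ v : V, v = 1 := by
          intro v
          rw [← orderOf_eq_one_iff]
          have h1 : orderOf v ∣ p := orderOf_dvd_of_pow_eq_one (hpow v)
          have h2 : orderOf v ∣ Nat.card V := orderOf_dvd_natCard v
          rcases (Nat.dvd_prime hp.out).1 h1 with h | h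
          · exact h
          · rw [h, hV] at h2
            exact absurd h2 hpI
        apply hMQ.not_ge
        intro q hq
        exact (hker ⟨q, hq⟩).1 (htriv _)
    refine ⟨(H, M.relIndex Q) :: Λ, ?_, ?_⟩
    · intro a ha
      rcases List.mem_cons.1 ha with rfl | ha
      · exact hhyp
      · exact hΛ a ha
    · intro F hF
      have hwt : wt ((H, M.relIndex Q) :: Λ) F =
          (if F ≤ H then (1 : ℤ) else ((M.relIndex Q : ℕ) : ℤ)) * wt Λ F := by simp [wt]
      have hcZ : (Nat.card Q : ℤ) = Nat.card M * (M.relIndex Q : ℕ) := by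
        rw [← hcard]; push_cast; ring
      have hwF := hw F hF
      rw [hwt]
      split_ifs with hFH
      · -- trivial action on the top factor
        have hMA : M ⊓ (Q ⊓ centralizer (F : Set G)) = M ⊓ centralizer (F : Set G) := by
          rw [← inf_assoc, inf_eq_left.2 hMQ.le]
        have h1 := card_relIndex (M := M ⊓ (Q ⊓ centralizer (F : Set G)))
          (Q := Q ⊓ centralizer (F : Set G)) inf_le_right
        rw [inf_relIndex_right, hMA] at h1
        have h2 : M.relIndex (Q ⊓ centralizer (F : Set G)) = M.relIndex Q := by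
          refine Nat.card_congr (Equiv.ofBijective
            (quotientSubgroupOfEmbeddingOfLE M
              (inf_le_left : Q ⊓ centralizer (F : Set G) ≤ Q))
            ⟨(quotientSubgroupOfEmbeddingOfLE M _).injective, ?_⟩)
          intro y
          obtain ⟨⟨q, hq⟩, rfl⟩ := QuotientGroup.mk_surjective y
          -- a fixed point in the coset
          let X := {y : G // q⁻¹ * y ∈ M}
          have hst : ∀ f : F, ∀ y : G, q⁻¹ * y ∈ M → q⁻¹ * ((f : G) * y * (f : G)⁻¹) ∈ M := by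
            intro f y hy
            have e1 : q⁻¹ * ((f : G) * y * (f : G)⁻¹) =
                (q⁻¹ * ((f : G) * q * (f : G)⁻¹ * q⁻¹) * q⁻¹⁻¹) *
                  ((f : G) * (q⁻¹ * y) * (f : G)⁻¹) := by group
            rw [e1]
            exact mul_mem (hnorm _ (inv_mem hq) _ ((hFH f.2).2 q hq))
              (hPM f (hF f.2) _ hy)
          let act : MulAction F X :=
            { smul := fun f y => ⟨(f : G) * y.1 * (f : G)⁻¹, hst f y.1 y.2⟩
              one_smul := fun y => by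
                apply Subtype.ext
                change ((1 : F) : G) * y.1 * ((1 : F) : G)⁻¹ = y.1
                simp
              mul_smul := fun f g y => by
                apply Subtype.ext
                change ((f * g : F) : G) * y.1 * ((f * g : F) : G)⁻¹ =
                  (f : G) * ((g : G) * y.1 * (g : G)⁻¹) * (f : G)⁻¹
                push_cast
                group }
          have hXc : Nat.card X = Nat.card M := Nat.card_congr
            { toFun := fun y => ⟨q⁻¹ * y.1, y.2⟩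
              invFun := fun m => ⟨q * m.1, by simp⟩
              left_inv := fun y => by simp
              right_inv := fun m => by simp }
          have hFp : IsPGroup p F := fun f => ⟨1, by
            rw [pow_one]
            exact Subtype.ext (hPp f (hF f.2))⟩
          obtain ⟨⟨y, hy⟩, hfix⟩ :=
            hFp.nonempty_fixed_point_of_prime_not_dvd_card X (by rw [hXc]; exact hpM)
          have hyQ : y ∈ Q := by
            have := mul_mem hq (hMQ.le hy)
            rwa [mul_inv_cancel_left] at this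
          have hyC : y ∈ centralizer (F : Set G) := by
            rw [mem_centralizer_iff]
            intro f hf
            have h3 : f * y * f⁻¹ = y := congrArg Subtype.val (hfix ⟨f, hf⟩)
            exact mul_inv_eq_iff_eq_mul.1 h3
          refine ⟨QuotientGroup.mk ⟨y, hyQ, hyC⟩, ?_⟩
          change (QuotientGroup.mk (⟨y, hyQ⟩ : Q) : Q ⧸ M.subgroupOf Q) = _
          rw [QuotientGroup.eq, mem_subgroupOf]
          have h4 : (((⟨y, hyQ⟩ : Q)⁻¹ * ⟨q, hq⟩ : Q) : G) = (q⁻¹ * y)⁻¹ := by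
            push_cast
            group
          rw [h4]
          exact inv_mem hy
        rw [h2] at h1
        rw [hcZ, hwF, ← h1]
        push_cast
        ring
      · -- no fixed points on the top factor
        have hQM : Q ⊓ centralizer (F : Set G) ≤ M := by
          rcases hfm (F : Set G) hF with h | h
          · exact absurd (fun f hf => h f hf) hFH
          · intro q hq
            have h2 : q ∈ fixMod Q M (F : Set G) hnorm := by
              refine ⟨hq.1, fun f hf => ?_⟩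
              rw [mem_centralizer_iff.1 hq.2 f hf, mul_inv_cancel_right, mul_inv_cancel]
              exact one_mem _
            rwa [h] at h2
        have hMA : Q ⊓ centralizer (F : Set G) = M ⊓ centralizer (F : Set G) :=
          le_antisymm (le_inf hQM inf_le_right) (inf_le_inf_right _ hMQ.le)
        rw [hMA, hcZ, hwF]
        ring

end

end Vale.Agent.P240.K
end

section

namespace Vale.Agent.P240.K

open Subgroup

variable {𝕜 : Type*} [Field 𝕜]

/-- the hypotheses on `L`: trivial centre, commutes with every other conjugate, order divisible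
by `p`. -/
structure CompLike {G : Type*} [Group G] (p : ℕ) (L : Subgroup G) : Prop where
  centre : L ⊓ centralizer (L : Set G) = ⊥
  conj : ∀ g : G, g ∉ normalizer (L : Set G) → ∀ x ∈ L, ∀ y ∈ L,
    x * (g * y * g⁻¹) = (g * y * g⁻¹) * x
  dvd : p ∣ Nat.card L

end Vale.Agent.P240.K
end

section

namespace Vale.Agent.P240.K

open Finsupp Subgroup

variable {𝕜 : Type*} [Field 𝕜]

variable {G Q : Type*} [Group G] [Group Q] {p : ℕ}

/-- pullback to `G` of a subgroup of `Q` along `π : N → Q` -/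
def pb (N : Subgroup G) (π : N →* Q) (X : Subgroup Q) : Subgroup G := (X.comap π).map N.subtype

lemma mem_pb {N : Subgroup G} {π : N →* Q} {X : Subgroup Q} {g : G} :
    g ∈ pb N π X ↔ ∃ n : N, (n : G) = g ∧ π n ∈ X := by
  rw [pb, Subgroup.mem_map]
  constructor
  · rintro ⟨n, hn, rfl⟩; exact ⟨n, rfl, hn⟩
  · rintro ⟨n, rfl, hn⟩; exact ⟨n, hn, rfl⟩

lemma pb_mono {N : Subgroup G} {π : N →* Q} {X Y : Subgroup Q} (h : X ≤ Y) :
    pb N π X ≤ pb N π Y := by
  intro g hg
  rw [mem_pb] at *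
  obtain ⟨n, rfl, hn⟩ := hg
  exact ⟨n, rfl, h hn⟩

lemma pb_le {N : Subgroup G} {π : N →* Q} {X : Subgroup Q} : pb N π X ≤ N := by
  intro g hg
  obtain ⟨n, rfl, _⟩ := mem_pb.1 hg
  exact n.2

/-- `x = y` if `x y⁻¹ ∈ C ⊓ M = ⊥`. -/
lemma eq_of_mem {N M C : Subgroup G} {π : N →* Q} (hπ : ∀ n : N, π n = 1 ↔ (n : G) ∈ M)
    (hCM : C ⊓ M = ⊥) {x y : N} (hx : (x : G) ∈ C) (hy : (y : G) ∈ C) (h : π x = π y) :
    x = y := by
  have h1 : ((x * y⁻¹ : N) : G) ∈ C ⊓ M := by
    refine Subgroup.mem_inf.2 ⟨?_, ?_⟩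
    · simpa using mul_mem hx (inv_mem hy)
    · rw [← hπ, map_mul, map_inv, h, mul_inv_cancel]
  rw [hCM, Subgroup.mem_bot] at h1
  have h2 : x * y⁻¹ = 1 := Subtype.ext h1
  rwa [mul_inv_eq_one] at h2

lemma pb_inf_ApS {N M C : Subgroup G} {π : N →* Q} (hπ : ∀ n : N, π n = 1 ↔ (n : G) ∈ M)
    (hCM : C ⊓ M = ⊥) {X : Subgroup Q} (hXc : ∀ x ∈ X, ∀ y ∈ X, x * y = y * x)
    (hXp : ∀ x ∈ X, x ^ p = 1) (hne : pb N π X ⊓ C ≠ ⊥) : pb N π X ⊓ C ∈ Ain p C := by
  refine ⟨⟨hne, ?_, ?_⟩, inf_le_right⟩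
  · rintro x ⟨hx, hxC⟩ y ⟨hy, hyC⟩
    obtain ⟨m, rfl, hm⟩ := mem_pb.1 hx
    obtain ⟨n, rfl, hn⟩ := mem_pb.1 hy
    have := eq_of_mem (x := m * n) (y := n * m) hπ hCM (by simpa using mul_mem hxC hyC)
      (by simpa using mul_mem hyC hxC) (by rw [map_mul, map_mul, hXc _ hm _ hn])
    exact congrArg Subtype.val this
  · rintro x ⟨hx, hxC⟩
    obtain ⟨m, rfl, hm⟩ := mem_pb.1 hx
    have := eq_of_mem (x := m ^ p) (y := 1) hπ hCM (by simpa using pow_mem hxC p)
      (by simp) (by rw [map_pow, map_one, hXp _ hm])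
    exact congrArg Subtype.val this

lemma pb_fq {N M C : Subgroup G} {π : N →* Q} (hπ : ∀ n : N, π n = 1 ↔ (n : G) ∈ M)
    (hCN : C ≤ N) (hCM : C ⊓ M = ⊥) {B : Subgroup G} (hB : B ≤ C) :
    pb N π (fq N π B) ⊓ C = B := by
  ext g
  constructor
  · rintro ⟨hg, hgC⟩
    obtain ⟨n, rfl, hn⟩ := mem_pb.1 hg
    obtain ⟨m, hm, hmn⟩ := mem_fq.1 hn
    rw [eq_of_mem hπ hCM hgC (hB hm) hmn.symm]
    exact hm
  · intro hg
    exact ⟨mem_pb.2 ⟨⟨g, hCN (hB hg)⟩, rfl, mem_fq.2 ⟨⟨g, hCN (hB hg)⟩, hg, rfl⟩⟩, hB hg⟩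

lemma exists_ApS_le [Fact p.Prime] [Finite G] {H : Subgroup G} (h : p ∣ Nat.card H) :
    ∃ F ∈ ApS p G, F ≤ H := by
  obtain ⟨x, hx⟩ := exists_prime_orderOf_dvd_card' p h
  refine ⟨zpowers (x : G), ⟨?_, ?_, ?_⟩, ?_⟩
  · rw [Ne, Subgroup.zpowers_eq_bot]
    intro h1
    have h2 : x = 1 := Subtype.ext h1
    rw [h2, orderOf_one] at hx
    exact (Fact.out : p.Prime).one_lt.ne hx
  · rintro a ⟨i, rfl⟩ b ⟨j, rfl⟩
    simp only [← zpow_add, add_comm]
  · rintro a ⟨i, rfl⟩
    have hxp : (x : G) ^ p = 1 := by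
      have := pow_orderOf_eq_one x
      rw [hx] at this
      exact_mod_cast congrArg Subtype.val this
    change ((x : G) ^ i) ^ p = 1
    rw [← zpow_natCast, ← zpow_mul, mul_comm, zpow_mul, zpow_natCast, hxp, one_zpow]
  · rw [Subgroup.zpowers_le]
    exact x.2

lemma decomp {N L K : Subgroup G} (hLN : L ≤ N) (hKN : K ≤ N) [hLn : (L.subgroupOf N).Normal]
    [hKn : (K.subgroupOf N).Normal] {x y : G} (hx : x ∈ N) (hy : y ∈ N)
    (h : y ∈ zpowers x ⊔ (L ⊔ K)) : ∃ i : ℤ, ∃ l ∈ L, ∃ k ∈ K, y = x ^ i * (l * k) := by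
  have h1 : (⟨y, hy⟩ : N) ∈ (zpowers x ⊔ (L ⊔ K)).subgroupOf N := by
    rw [Subgroup.mem_subgroupOf]; exact h
  rw [Subgroup.subgroupOf_sup (by rw [Subgroup.zpowers_le]; exact hx) (sup_le hLN hKN),
    Subgroup.subgroupOf_sup hLN hKN, Subgroup.mem_sup_of_normal_right] at h1
  obtain ⟨a, ha, b, hb, hab⟩ := h1
  rw [Subgroup.mem_sup_of_normal_right] at hb
  obtain ⟨l, hl, k, hk, hlk⟩ := hb
  rw [Subgroup.mem_subgroupOf] at ha hl hk
  obtain ⟨i, hi⟩ := ha
  refine ⟨i, l, hl, k, hk, ?_⟩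
  have := congrArg Subtype.val hab
  rw [← hlk] at this
  simp only [Subgroup.coe_mul] at this
  rw [← this, ← hi]

section core

variable [Fact p.Prime] [Finite G]

theorem elimination_core (L : Subgroup G) (hL : CompLike p L) (N K : Subgroup G)
    (hN : N = normalizer (L : Set G)) (hK : K = centralizer (L : Set G))
    (πK : N →* Q) (hπK : ∀ n : N, πK n = 1 ↔ (n : G) ∈ K) (hsurj : Function.Surjective πK)
    (hout : ∀ x ∈ N, ∀ y ∈ N, x ^ p ∈ K → y ^ p ∈ K → x ∉ L ⊔ K → y ∉ L ⊔ K →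
      y ∈ zpowers x ⊔ (L ⊔ K))
    (h1 : NA 𝕜 (Ain p L)) (h2 : NA 𝕜 (Ain p K)) (h3 : NA 𝕜 (ApS p Q)) : NA 𝕜 (ApS p G) := by
  classical
  have hLN : L ≤ N := by rw [hN]; exact Subgroup.le_normalizer
  have hKN : K ≤ N := by
    intro k hk
    rw [hK] at hk
    rw [hN, Subgroup.mem_normalizer_iff]
    intro h
    constructor
    · intro hh
      rw [← (Subgroup.mem_centralizer_iff.1 hk) h hh, mul_assoc, mul_inv_cancel, mul_one]
      exact hh
    · intro hh
      have h4 := (Subgroup.mem_centralizer_iff.1 hk) _ hh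
      have h5 : k * h * k⁻¹ * k = k * h := by group
      rw [h5] at h4
      have h6 : h = k * h * k⁻¹ := mul_left_cancel h4
      rw [h6]
      exact hh
  have hLn : (L.subgroupOf N).Normal := by
    rw [hN]; exact Subgroup.normal_in_normalizer
  have hKn : (K.subgroupOf N).Normal := by
    have : K.subgroupOf N = πK.ker := by
      ext n
      rw [Subgroup.mem_subgroupOf, MonoidHom.mem_ker, hπK]
    rw [this]
    exact MonoidHom.normal_ker _
  have hLK : L ⊓ K = ⊥ := by rw [hK]; exact hL.centre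
  have hKL : K ⊓ L = ⊥ := by rw [inf_comm]; exact hLK
  have hLKc : ∀ l ∈ L, ∀ k ∈ K, l * k = k * l := fun l hl k hk => by
    rw [hK] at hk
    exact (Subgroup.mem_centralizer_iff.1 hk) l hl
  -- the quotient by `L`
  let πL : N →* N ⧸ (L.subgroupOf N) := QuotientGroup.mk' _
  have hπL : ∀ n : N, πL n = 1 ↔ (n : G) ∈ L := by
    intro n
    rw [← Subgroup.mem_subgroupOf]
    exact QuotientGroup.eq_one_iff n
  let SR : Set (Subgroup (N ⧸ (L.subgroupOf N))) := {X | ∃ E ∈ Ain p N, ¬ E ≤ L ∧ fq N πL E = X}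
  have hSRa : SR ⊆ ApS p (N ⧸ (L.subgroupOf N)) := by
    rintro _ ⟨E, hE, hEL, rfl⟩
    exact fq_mem_ApS hπL hE.1 hE.2 hEL
  have hKSR : ∀ B ∈ Ain p K, fq N πL B ∈ SR := fun B hB =>
    ⟨B, ⟨hB.1, hB.2.trans hKN⟩, fun h => hB.1.1 (le_bot_iff.1 (hKL ▸ le_inf hB.2 h)), rfl⟩
  -- strictness of `fq N πL` on `Ain p K`
  have hfst : ∀ B ∈ Ain p K, ∀ B' ∈ Ain p K, B < B' → fq N πL B < fq N πL B' := by
    intro B hB B' hB' h
    refine lt_of_le_of_ne (fq_mono h.le) fun he => h.ne ?_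
    rw [← pb_fq hπL hKN hKL hB.2, ← pb_fq hπL hKN hKL hB'.2, he]
  obtain ⟨al, hal, hbal, haln⟩ := h1
  by_cases ha : ∃ be ∈ Sp 𝕜 (st (Ain p K)), bd be = 0 ∧ mp (fq N πL) be ∉ Bst 𝕜 SR
  · -- case (a)
    obtain ⟨be, hbe, hbbe, hben⟩ := ha
    have hmst : mp (fq N πL) be ∈ Sp 𝕜 (st SR) := mp_mem (st_map hKSR hfst) hbe
    obtain ⟨lW, hnW, hW, -, hlW⟩ := exists_cocycle SR ⊥ (mp (fq N πL) be) (by
      rw [pi_of_st hmst, sup_bot_eq]; exact hben)
    obtain ⟨lD, hnD, hD, -, hlD⟩ := exists_cocycle (Ain p L) ⊥ al (by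
      rw [pi_of_st hal, sup_bot_eq]
      rintro ⟨c, hc, hcz⟩
      exact haln c hc hcz)
    refine detect N L hLN πL hπL SR (fun E hE hEL => ⟨E, hE, hEL, rfl⟩) lW lD hnW hnD hW hD ?_
      K L hKN le_rfl (fun k hk l hl => (hLKc l hl k hk).symm) hKL be al
      (Sp_mono st_wk hbe) (Sp_mono st_wk hal) hbbe hbal hlW hlD
    intro g hg l hl
    rcases l with _ | ⟨E, l⟩
    · obtain ⟨F, hF, hFL⟩ := exists_ApS_le (G := G) hL.dvd
      have : bd (single [F] (1 : 𝕜)) = single [] (1 : 𝕜) := by simp [bd_single_cons]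
      rw [← this]
      exact hD _ (single_mem_Sp ⟨by simp, by simpa using ⟨hF, hFL⟩⟩ _)
    · exfalso
      obtain ⟨hE, hEg⟩ := hl.2 E (by simp)
      apply hE.1.1
      rw [eq_bot_iff, ← hLK]
      intro x hx
      refine Subgroup.mem_inf.2 ⟨hE.2 hx, ?_⟩
      rw [hK, Subgroup.mem_centralizer_iff]
      intro y hy
      rw [hN] at hg
      have h5 := hL.conj g hg y hy x (hE.2 hx)
      have h6 : g * x * g⁻¹ = x := by
        rw [hEg x hx, mul_assoc, mul_inv_cancel, mul_one]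
      rwa [h6] at h5
  · -- case (b)
    push Not at ha
    obtain ⟨be, hbe, hbbe, hben⟩ := h2
    have hmst : mp (fq N πL) be ∈ Sp 𝕜 (st SR) := mp_mem (st_map hKSR hfst) hbe
    obtain ⟨c, hc, hcz⟩ := ha be hbe hbbe
    let kap : Subgroup (N ⧸ (L.subgroupOf N)) → Subgroup G := fun X => pb N πL X ⊓ K
    have hkmono : ∀ X Y, X ≤ Y → kap X ≤ kap Y := fun X Y h => inf_le_inf_right _ (pb_mono h)
    have hkf : ∀ B ∈ Ain p K, kap (fq N πL B) = B := fun B hB => pb_fq hπL hKN hKL hB.2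
    have hkA : ∀ X ∈ SR, kap X ≠ ⊥ → kap X ∈ Ain p K := fun X hX hne =>
      pb_inf_ApS hπL hKL (hSRa hX).2.1 (hSRa hX).2.2 hne
    -- elements of `E` in `L K` lie in `L` when `kap` is trivial
    have hELK : ∀ E ∈ Ain p N, kap (fq N πL E) = ⊥ → ∀ x ∈ E, x ∈ L ⊔ K → x ∈ L := by
      intro E hE hk x hx hxLK
      obtain ⟨i, l, hl, k, hk', hxe⟩ := decomp hLN hKN (x := 1) (one_mem N) (hE.2 hx)
        (Subgroup.mem_sup_right hxLK)
      rw [one_zpow, one_mul] at hxe
      have h4 : k ∈ kap (fq N πL E) := by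
        refine Subgroup.mem_inf.2 ⟨mem_pb.2 ⟨⟨k, hKN hk'⟩, rfl, mem_fq.2
          ⟨⟨x, hE.2 hx⟩, hx, ?_⟩⟩, hk'⟩
        have h5 : (⟨x, hE.2 hx⟩ : N) = ⟨l, hLN hl⟩ * ⟨k, hKN hk'⟩ := Subtype.ext hxe
        rw [h5, map_mul, (hπL ⟨l, hLN hl⟩).2 hl, one_mul]
      rw [hk, Subgroup.mem_bot] at h4
      rw [hxe, h4, mul_one]
      exact hl
    have key : ∀ X ∈ SR, ∀ Y ∈ SR, X ≤ Y → kap Y = ⊥ → X = Y := by
      rintro X ⟨E', hE', hE'L, rfl⟩ Y ⟨E, hE, hEL, rfl⟩ hXY hk
      refine le_antisymm hXY ?_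
      obtain ⟨x', hx', hx'L⟩ := Set.not_subset.1 hE'L
      have hx'X : πL ⟨x', hE'.2 hx'⟩ ∈ fq N πL E' := mem_fq.2 ⟨⟨x', hE'.2 hx'⟩, hx', rfl⟩
      obtain ⟨x, hxE, hxx'⟩ := mem_fq.1 (hXY hx'X)
      have hxL : (x : G) ∉ L := by
        rw [← hπL, hxx', hπL]
        exact hx'L
      have hxLK : (x : G) ∉ L ⊔ K := fun h => hxL (hELK E hE hk x hxE h)
      intro q hq
      obtain ⟨y, hyE, rfl⟩ := mem_fq.1 hq
      by_cases hyL : (y : G) ∈ L
      · rw [(hπL y).2 hyL]; exact one_mem _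
      have hyLK : (y : G) ∉ L ⊔ K := fun h => hyL (hELK E hE hk y hyE h)
      have h4 := hout x x.2 y y.2 (by rw [hE.1.2.2 _ hxE]; exact one_mem _)
        (by rw [hE.1.2.2 _ hyE]; exact one_mem _) hxLK hyLK
      obtain ⟨i, l, hl, k, hk', hye⟩ := decomp hLN hKN x.2 y.2 h4
      have h5 : y = x ^ i * (⟨l, hLN hl⟩ * ⟨k, hKN hk'⟩) := Subtype.ext (by simpa using hye)
      have h6 : πL y = πL x ^ i * πL ⟨k, hKN hk'⟩ := by
        rw [h5, map_mul, map_mul, (hπL ⟨l, hLN hl⟩).2 hl, one_mul, map_zpow]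
      have hxY : πL x ∈ fq N πL E := mem_fq.2 ⟨x, hxE, rfl⟩
      have h7 : πL ⟨k, hKN hk'⟩ ∈ fq N πL E := by
        have : πL ⟨k, hKN hk'⟩ = (πL x ^ i)⁻¹ * πL y := by rw [h6]; group
        rw [this]
        exact mul_mem (inv_mem (zpow_mem hxY i)) (mem_fq.2 ⟨y, hyE, rfl⟩)
      have h8 : k ∈ kap (fq N πL E) :=
        Subgroup.mem_inf.2 ⟨mem_pb.2 ⟨⟨k, hKN hk'⟩, rfl, h7⟩, hk'⟩
      rw [hk, Subgroup.mem_bot] at h8
      have h9 : (⟨k, hKN hk'⟩ : N) = 1 := Subtype.ext h8
      rw [h6, h9, map_one, mul_one, hxx']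
      exact zpow_mem hx'X i
    -- split the bounding chain
    let P : Set (Subgroup (N ⧸ (L.subgroupOf N))) := {X | X ∈ SR ∧ kap X = ⊥}
    have hfz : mp (fq N πL) be ∈ Sp 𝕜 (st (SR \ P)) := by
      refine mp_mem (st_map (T := SR \ P) (fun B hB => ⟨hKSR B hB, fun h => ?_⟩) hfst) hbe
      exact hB.1.1 ((hkf B hB).symm.trans h.2)
    obtain ⟨c0, hc0, s, e, hs, he, hsum⟩ := exact_split (S := SR) (P := P)
      (fun X hX Y hY hYX => key Y hY X hX.1 hYX hX.2) hc hfz hcz
    have hmk : mp kap (mp (fq N πL) be) = be := by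
      rw [mp_mp]
      have := eq_of_Sp (F := mp (kap ∘ fq N πL)) (G := LinearMap.id)
        (fun l (hl : st (Ain p K) l) => by
          rw [mp_single]
          have : l.map (kap ∘ fq N πL) = l := by
            conv_rhs => rw [← List.map_id l]
            exact List.map_congr_left fun E hE => hkf E (hl.2 E hE)
          rw [this]; rfl) hbe
      simpa using this
    have heq : be = bd (mp kap c0) + ∑ X ∈ s, mp kap (e X) := by
      rw [← hmk, hsum, map_add, map_sum, bd_mp]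
    have hc0' : mp kap c0 ∈ Sp 𝕜 (wk (Ain p K)) := by
      refine mp_mem (wk_map (S := SR \ P) (fun X hX => hkA X hX.1 fun h => hX.2 ⟨hX.1, h⟩)
        fun X _ Y _ h => hkmono X Y h) (Sp_mono st_wk hc0)
    have hev : ∀ X ∈ s, mp kap (e X) ∈
        Sp 𝕜 (wk (Ain p (K ⊓ centralizer ((pb N πL X : Subgroup G) : Set G)))) := by
      intro X hX
      have hXP := (hs X hX).1
      refine mp_mem (wk_map (S := {Y | Y ∈ SR ∧ X < Y}) ?_
        fun X _ Y _ h => hkmono X Y h) (Sp_mono st_wk (he X hX).1)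
      rintro Y ⟨hY, hXY⟩
      have h4 := hkA Y hY fun h => hXY.ne (key X hXP.1 Y hY hXY.le h)
      refine ⟨h4.1, le_inf inf_le_right ?_⟩
      intro k hk
      obtain ⟨hk1, hk2⟩ := Subgroup.mem_inf.1 hk
      obtain ⟨k', rfl, hk'⟩ := mem_pb.1 hk1
      rw [Subgroup.mem_centralizer_iff]
      intro h hh
      obtain ⟨h', rfl, hh'⟩ := mem_pb.1 hh
      have h5 : πL (h' * k') = πL (k' * h') := by
        rw [map_mul, map_mul]
        exact (hSRa hY).2.1 _ (hXY.le hh') _ hk'
      -- the commutator lies in `L` and in `K`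
      have h6 : ((h' * k' * h'⁻¹ * k'⁻¹ : N) : G) ∈ K ⊓ L := by
        refine Subgroup.mem_inf.2 ⟨?_, ?_⟩
        · rw [← hπK, map_mul, map_mul, map_mul, map_inv, map_inv, (hπK k').2 hk2]
          group
        · rw [← hπL, map_mul, map_mul, map_inv, map_inv, h5, map_mul]
          group
      rw [hKL, Subgroup.mem_bot] at h6
      have h7 : h' * k' * h'⁻¹ * k'⁻¹ = 1 := Subtype.ext h6
      have h8 : h' * k' = k' * h' := by
        rw [mul_inv_eq_one, mul_inv_eq_iff_eq_mul] at h7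
        exact h7
      exact congrArg Subtype.val h8
    -- the conjugates of `L`
    let ι := {L2 : Subgroup G // L2 ≠ L ∧ ∃ g : G, L2 = L.map (MulAut.conj g).toMonoidHom}
    have : Fintype ι := Fintype.ofFinite ι
    let T : ι → Set (Subgroup G) := fun i => {E | E ∈ Ain p K ∧ ∀ x ∈ E, ∀ y ∈ i.1, x * y = y * x}
    have hconjN : ∀ g : G, g ∈ N → L.map (MulAut.conj g).toMonoidHom = L := by
      intro g hg
      rw [hN, Subgroup.mem_normalizer_iff] at hg
      ext x
      rw [Subgroup.mem_map]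
      constructor
      · rintro ⟨y, hy, rfl⟩
        exact (hg y).1 hy
      · intro hx
        refine ⟨g⁻¹ * x * g, ?_, ?_⟩
        · rw [hg]
          have : g * (g⁻¹ * x * g) * g⁻¹ = x := by group
          rw [this]; exact hx
        · simp [mul_assoc]
    have hcomm2 : ∀ g h : G, L.map (MulAut.conj g).toMonoidHom ≠ L.map (MulAut.conj h).toMonoidHom →
        ∀ x ∈ L.map (MulAut.conj g).toMonoidHom, ∀ y ∈ L.map (MulAut.conj h).toMonoidHom,
        x * y = y * x := by
      rintro g h hgh _ ⟨x, hx, rfl⟩ _ ⟨y, hy, rfl⟩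
      have h4 : g⁻¹ * h ∉ N := by
        intro hmem
        apply hgh
        have h5 := hconjN _ hmem
        have h6 : L.map (MulAut.conj h).toMonoidHom =
            (L.map (MulAut.conj (g⁻¹ * h)).toMonoidHom).map (MulAut.conj g).toMonoidHom := by
          rw [Subgroup.map_map]
          congr 1
          ext z
          simp [mul_assoc]
        rw [h6, h5]
      rw [hN] at h4
      have h7 := hL.conj _ h4 x hx y hy
      have h8 := congrArg (fun z => g * z * g⁻¹) h7
      simp only [MulEquiv.toMonoidHom_eq_coe, MonoidHom.coe_coe, MulAut.conj_apply]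
      calc g * x * g⁻¹ * (h * y * h⁻¹)
          = g * (x * (g⁻¹ * h * y * (g⁻¹ * h)⁻¹)) * g⁻¹ := by group
        _ = g * ((g⁻¹ * h * y * (g⁻¹ * h)⁻¹) * x) * g⁻¹ := h8
        _ = h * y * h⁻¹ * (g * x * g⁻¹) := by group
    have hmap1 : L.map (MulAut.conj (1 : G)).toMonoidHom = L := hconjN 1 (one_mem N)
    have hcomm1 : ∀ i : ι, ∀ x ∈ L, ∀ y ∈ i.1, x * y = y * x := by
      rintro ⟨_, hne, g, rfl⟩ x hx y hy
      refine hcomm2 1 g ?_ x (by rw [hmap1]; exact hx) y hy
      rw [hmap1]; exact hne.symm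
    have hιK : ∀ i : ι, i.1 ≤ K := by
      intro i y hy
      rw [hK, Subgroup.mem_centralizer_iff]
      exact fun x hx => hcomm1 i x hx y hy
    have hFex : ∀ i : ι, ∃ F ∈ ApS p G, F ≤ i.1 := by
      rintro ⟨_, hne, g, rfl⟩
      refine exists_ApS_le ?_
      rw [Subgroup.card_map_of_injective (MulAut.conj g).injective]
      exact hL.dvd
    choose F hF hFi using hFex
    have hιι : ∀ i j : ι, i ≠ j → ∀ x ∈ i.1, ∀ y ∈ j.1, x * y = y * x := by
      rintro ⟨_, hne, g, rfl⟩ ⟨_, hne', h, rfl⟩ hij x hx y hy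
      exact hcomm2 g h (fun h => hij (Subtype.ext h)) x hx y hy
    have hsupA : ∀ i : ι, ∀ E ∈ T i, E ⊔ F i ∈ Ain p K := fun i E hE =>
      ⟨sup_mem_ApS hE.1.1 (hF i) fun x hx y hy => hE.2 x hx y (hFi i hy),
        sup_le hE.1.2 ((hFi i).trans (hιK i))⟩
    have hrel := rel_zero (𝕜 := 𝕜) (Ain p K) T F (fun i E hE => hE.1)
      (fun i => ⟨hF i, (hFi i).trans (hιK i)⟩) hsupA
      (fun i j hij => ⟨⟨hF i, (hFi i).trans (hιK i)⟩, fun x hx y hy =>
        hιι i j hij x (hFi i hx) y hy⟩)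
      (fun i j hij E hE hE' => ⟨hsupA i E hE, by
        have h4 : E ⊔ F i ≤ centralizer (j.1 : Set G) := by
          refine sup_le ?_ ?_
          · intro x hx
            rw [Subgroup.mem_centralizer_iff]
            exact fun y hy => (hE'.2 x hx y hy).symm
          · intro x hx
            rw [Subgroup.mem_centralizer_iff]
            exact fun y hy => (hιι i j hij x (hFi i hx) y hy).symm
        intro x hx y hy
        exact ((Subgroup.mem_centralizer_iff.1 (h4 hx)) y hy).symm⟩)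
      Finset.univ
    let V : Submodule 𝕜 (Ch 𝕜 (Subgroup G)) := Sp 𝕜 (fun l => ∃ i ∈ (Finset.univ : Finset ι), wk (T i) l)
    have hbeV : be ∉ Bst 𝕜 (Ain p K) ⊔ V := by
      intro h
      obtain ⟨b, ⟨c1, hc1, rfl⟩, w, hw, hbw⟩ := Submodule.mem_sup.1 h
      have hbw0 : bd w = 0 := by
        have h4 := congrArg bd hbw
        rw [map_add, hbbe, bd_bd, zero_add] at h4
        exact h4
      obtain ⟨c2, hc2, hc2w⟩ := hrel w hw hbw0
      have h5 : c1 + c2 ∈ Sp 𝕜 (wk (Ain p K)) := Submodule.add_mem _ (Sp_mono st_wk hc1) hc2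
      refine hben (pi (c1 + c2)) (pi_mem h5) ?_
      rw [bd_pi h5, map_add, hc2w, hbw, pi_of_st hbe]
    obtain ⟨X, hXs, hXV⟩ : ∃ X ∈ s, pi (mp kap (e X)) ∉ Bst 𝕜 (Ain p K) ⊔ V := by
      by_contra hcon
      push Not at hcon
      apply hbeV
      have h4 : be = bd (pi (mp kap c0)) + ∑ X ∈ s, pi (mp kap (e X)) := by
        conv_lhs => rw [← pi_of_st hbe, heq]
        rw [map_add, map_sum, bd_pi hc0']
      rw [h4]
      refine Submodule.add_mem _ (Submodule.mem_sup_left ⟨_, pi_mem hc0', rfl⟩) ?_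
      exact Submodule.sum_mem _ fun X hX => hcon X hX
    have hXP := (hs X hXs).1
    obtain ⟨lD, hnD, hD, hDV, hlD⟩ := exists_cocycle (Ain p K) V (mp kap (e X)) hXV
    -- lift of the cycle of `Q`
    obtain ⟨om, hom, hbom, homn⟩ := h3
    obtain ⟨lW, hnW, hW, -, hlW⟩ := exists_cocycle (ApS p Q) ⊥ om (by
      rw [pi_of_st hom, sup_bot_eq]
      rintro ⟨c, hc, hcz⟩
      exact homn c hc hcz)
    set H1 : Subgroup G := pb N πL X with hH1
    have hH1K : H1 ⊓ K = ⊥ := hXP.2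
    let sig : Subgroup Q → Subgroup G := fun E => pb N πK E ⊓ H1
    have hsf : ∀ E ∈ ApS p Q, fq N πK (sig E) = E := by
      intro E hE
      refine le_antisymm ?_ ?_
      · intro q hq
        obtain ⟨n, hn, rfl⟩ := mem_fq.1 hq
        obtain ⟨n', hn', h4⟩ := mem_pb.1 (Subgroup.mem_inf.1 hn).1
        rw [← Subtype.ext hn']
        exact h4
      · intro q hq
        obtain ⟨n, rfl⟩ := hsurj q
        have hnp : ((n : G)) ^ p ∈ K := by
          have : ((n ^ p : N) : G) ∈ K := by rw [← hπK, map_pow, hE.2.2 _ hq]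
          simpa using this
        have hfin : ∀ m : N, (m : G) ∈ H1 → πK m = πK n → πK n ∈ fq N πK (sig E) := by
          intro m hm hmn
          exact mem_fq.2 ⟨m, Subgroup.mem_inf.2 ⟨mem_pb.2 ⟨m, rfl, by rw [hmn]; exact hq⟩, hm⟩, hmn⟩
        by_cases hnLK : (n : G) ∈ L ⊔ K
        · obtain ⟨i, l, hl, k, hk', hne⟩ := decomp hLN hKN (x := 1) (one_mem N) n.2
            (Subgroup.mem_sup_right hnLK)
          rw [one_zpow, one_mul] at hne
          have h4 : n = ⟨l, hLN hl⟩ * ⟨k, hKN hk'⟩ := Subtype.ext hne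
          refine hfin ⟨l, hLN hl⟩ ?_ ?_
          · refine mem_pb.2 ⟨⟨l, hLN hl⟩, rfl, ?_⟩
            rw [(hπL ⟨l, hLN hl⟩).2 hl]
            exact one_mem _
          · rw [h4, map_mul, (hπK ⟨k, hKN hk'⟩).2 hk', mul_one]
        · obtain ⟨E', hE', hE'L, hE'X⟩ := hXP.1
          obtain ⟨x, hx, hxL⟩ := Set.not_subset.1 hE'L
          have hkE' : kap (fq N πL E') = ⊥ := by rw [hE'X]; exact hXP.2
          have hxLK : x ∉ L ⊔ K := fun h => hxL (hELK E' hE' hkE' x hx h)
          have h4 := hout x (hE'.2 hx) n n.2 (by rw [hE'.1.2.2 _ hx]; exact one_mem _) hnp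
            hxLK hnLK
          obtain ⟨i, l, hl, k, hk', hne⟩ := decomp hLN hKN (hE'.2 hx) n.2 h4
          have h5 : n = (⟨x, hE'.2 hx⟩ ^ i * ⟨l, hLN hl⟩) * ⟨k, hKN hk'⟩ := by
            refine Subtype.ext ?_
            rw [hne]
            simp [mul_assoc]
          refine hfin (⟨x, hE'.2 hx⟩ ^ i * ⟨l, hLN hl⟩) ?_ ?_
          · refine mem_pb.2 ⟨_, rfl, ?_⟩
            rw [map_mul, (hπL ⟨l, hLN hl⟩).2 hl, mul_one, map_zpow, ← hE'X]
            exact zpow_mem (mem_fq.2 ⟨⟨x, hE'.2 hx⟩, hx, rfl⟩) i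
          · conv_rhs => rw [h5, map_mul, (hπK ⟨k, hKN hk'⟩).2 hk', mul_one]
    have hsA : ∀ E ∈ ApS p Q, sig E ∈ Ain p H1 := fun E hE =>
      pb_inf_ApS hπK hH1K hE.2.1 hE.2.2 fun h => hE.1 (by
        have h4 := hsf E hE
        have h5 : sig E = ⊥ := h
        rw [h5] at h4
        rw [← h4, eq_bot_iff]
        intro q hq
        obtain ⟨n, hn, rfl⟩ := mem_fq.1 hq
        rw [Subgroup.mem_bot] at hn
        have : n = 1 := Subtype.ext hn
        rw [this, map_one]
        exact one_mem _)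
    have hx : mp sig om ∈ Sp 𝕜 (wk (Ain p H1)) :=
      mp_mem (wk_map hsA fun E _ F _ h => inf_le_inf_right _ (pb_mono h)) (Sp_mono st_wk hom)
    have hmx : mp (fq N πK) (mp sig om) = om := by
      rw [mp_mp]
      have := eq_of_Sp (F := mp (fq N πK ∘ sig)) (G := LinearMap.id)
        (fun l (hl : st (ApS p Q) l) => by
          rw [mp_single]
          have : l.map (fq N πK ∘ sig) = l := by
            conv_rhs => rw [← List.map_id l]
            exact List.map_congr_left fun E hE => hsf E (hl.2 E hE)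
          rw [this]; rfl) hom
      simpa using this
    refine detect N K hKN πK hπK (ApS p Q) (fun E hE hEK => fq_mem_ApS hπK hE.1 hE.2 hEK)
      lW lD hnW hnD hW hD ?_ H1 (K ⊓ centralizer (H1 : Set G)) pb_le inf_le_left ?_ hH1K
      (mp sig om) (mp kap (e X)) hx (hev X hXs) (by rw [bd_mp, hbom, map_zero])
      (by rw [bd_mp, (he X hXs).2, map_zero]) (by rw [hmx]; exact hlW) hlD
    · intro g hg l hl
      refine hDV _ (pi_mem' (single_mem_Sp ?_ _))
      have hgne : L.map (MulAut.conj g).toMonoidHom ≠ L := by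
        intro h
        apply hg
        rw [hN, Subgroup.mem_normalizer_iff]
        intro x
        constructor
        · intro hx
          rw [← h]
          exact ⟨x, hx, rfl⟩
        · intro hx
          rw [← h] at hx
          obtain ⟨y, hy, hyx⟩ := hx
          have : y = x := by
            apply (MulAut.conj g).injective
            exact hyx
          rw [← this]; exact hy
      refine ⟨⟨_, hgne, g, rfl⟩, Finset.mem_univ _, hl.1, ?_⟩
      intro E hE
      obtain ⟨hE1, hE2⟩ := hl.2 E hE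
      refine ⟨hE1, ?_⟩
      rintro x hx _ ⟨y, hy, rfl⟩
      have h4 : x * y = y * x := (hLKc y hy x (hE1.2 hx)).symm
      have h5 : g * x = x * g := hE2 x hx
      simp only [MulEquiv.toMonoidHom_eq_coe, MonoidHom.coe_coe, MulAut.conj_apply]
      have h6 : x * g⁻¹ = g⁻¹ * x := by
        rw [eq_inv_mul_iff_mul_eq, ← mul_assoc, h5, mul_assoc, mul_inv_cancel, mul_one]
      calc x * (g * y * g⁻¹) = x * g * y * g⁻¹ := by group
        _ = g * x * y * g⁻¹ := by rw [h5]
        _ = g * (x * y) * g⁻¹ := by group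
        _ = g * (y * x) * g⁻¹ := by rw [h4]
        _ = g * y * (x * g⁻¹) := by group
        _ = g * y * (g⁻¹ * x) := by rw [h6]
        _ = g * y * g⁻¹ * x := by group
    · intro a ha b hb
      exact (Subgroup.mem_centralizer_iff.1 (Subgroup.mem_inf.1 hb).2) a ha

end core

end Vale.Agent.P240.K
end

section

namespace Vale.Agent.P240.K

open Finsupp Subgroup

variable {𝕜 : Type*} [Field 𝕜]

variable {G Q R : Type*} [Group G] [Group Q] [Group R] {p : ℕ}

/-- Transfer of detection from `N` to `G`. -/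
theorem detect_gen (N : Subgroup G) (ph : Ch 𝕜 (Subgroup G) →ₗ[𝕜] 𝕜)
    (hcoc : Coc (Ain p N) ph)
    (hnrm : ∀ l, wk (Ain p N) l → ¬ l.Pairwise (· > ·) → ph (single l (1 : 𝕜)) = 0)
    (hvan : ∀ g, g ∉ N → g ^ p = 1 → ∀ l, wk {E | E ∈ Ain p N ∧ ∀ x ∈ E, g * x = x * g} l →
      ph (single l (1 : 𝕜)) = 0)
    (z : Ch 𝕜 (Subgroup G)) (hz : z ∈ Sp 𝕜 (wk (Ain p N))) (hbz : bd z = 0) (hne : ph z ≠ 0) :
    NA 𝕜 (ApS p G) := by
  classical
  set U : Set (Subgroup G) := {E | E ⊓ N ≠ ⊥} with hUdef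
  set rho : Subgroup G → Subgroup G := fun E => E ⊓ N with hrho
  have hUup : ∀ x ∈ ApS p G, x ∈ U → ∀ y ∈ ApS p G, x ≤ y → y ∈ U := by
    intro E _ hE F _ hEF h
    apply hE
    rw [← le_bot_iff, ← h]
    exact inf_le_inf_right _ hEF
  have hrhoT : ∀ x ∈ ApS p G, x ∈ U → rho x ∈ Ain p N := fun E hE hEU =>
    ⟨mem_ApS_of_le hE inf_le_left hEU, inf_le_right⟩
  have hext := ext_coc (S := ApS p G) (U := U) (T := Ain p N) (rho := rho) (psi := ph) hUup hrhoT
    (fun E _ _ F _ _ h => inf_le_inf_right _ h) hcoc (by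
      intro l hl hlU e heS heU hel
      have hee : e ⊓ N = ⊥ := by
        by_contra h
        exact heU h
      obtain ⟨g, hg1⟩ := (Subgroup.ne_bot_iff_exists_ne_one).1 heS.1
      have hgN : (g : G) ∉ N := by
        intro h
        apply hg1
        have : (g : G) ∈ e ⊓ N := ⟨g.2, h⟩
        rw [hee, Subgroup.mem_bot] at this
        exact Subtype.ext this
      refine hvan g hgN (heS.2.2 _ g.2) _ ⟨?_, ?_⟩
      · rw [List.pairwise_map]
        exact hl.1.imp fun h => inf_le_inf_right _ h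
      · intro F hF
        obtain ⟨E, hE, rfl⟩ := List.mem_map.1 hF
        refine ⟨hrhoT E (hl.2 E hE) (hlU E hE), ?_⟩
        intro x hx
        exact (hl.2 E hE).2.1 _ (hel E hE g.2) _ hx.1)
  refine NA_of_functional ((ph.comp (mp rho)).comp (res U)) ?_ hext z
    (Sp_mono (wk_mono fun E hE => hE.1) hz) hbz ?_
  · intro l hl hns
    simp only [LinearMap.comp_apply]
    rw [res_single]
    split_ifs with hU
    · rw [mp_single]
      refine hnrm _ ⟨?_, ?_⟩ ?_
      · rw [List.pairwise_map]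
        exact hl.1.imp fun h => inf_le_inf_right _ h
      · intro F hF
        obtain ⟨E, hE, rfl⟩ := List.mem_map.1 hF
        exact hrhoT E (hl.2 E hE) (hU E hE)
      · intro h
        apply hns
        rw [List.pairwise_map] at h
        refine (hl.1.and h).imp ?_
        rintro E F ⟨hEF, hEF'⟩
        refine lt_of_le_of_ne hEF ?_
        rintro rfl
        exact lt_irrefl _ hEF'
    · rw [map_zero, map_zero]
  · have hzU : z ∈ Sp 𝕜 (fun l : List (Subgroup G) => ∀ a ∈ l, a ∈ U) := by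
      refine Sp_mono (fun l hl E hE => ?_) hz
      have := hl.2 E hE
      change E ⊓ N ≠ ⊥
      rw [inf_eq_left.2 this.2]
      exact this.1.1
    have hzr : mp rho z = z := by
      have := eq_of_Sp (F := mp rho) (G := LinearMap.id) (fun l (hl : wk (Ain p N) l) => by
        rw [mp_single]
        have : l.map rho = l := by
          conv_rhs => rw [← List.map_id l]
          refine List.map_congr_left fun E hE => ?_
          exact inf_eq_left.2 (hl.2 E hE).2
        rw [this]; rfl) hz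
      simpa using this
    simp only [LinearMap.comp_apply]
    rw [res_of_mem hzU, hzr]
    exact hne

/-- shuffle products of chains in commuting subgroups of `N` -/
lemma sh_mem_N {N H1 H2 : Subgroup G} (h1N : H1 ≤ N) (h2N : H2 ≤ N)
    (h12 : ∀ x ∈ H1, ∀ y ∈ H2, x * y = y * x) {x y : Ch 𝕜 (Subgroup G)}
    (hx : x ∈ Sp 𝕜 (wk (Ain p H1))) (hy : y ∈ Sp 𝕜 (wk (Ain p H2))) :
    sh x y ∈ Sp 𝕜 (wk (Ain p N)) := by
  have hs1 : Ain p H1 ⊆ Ain p N := fun E hE => ⟨hE.1, hE.2.trans h1N⟩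
  have hs2 : Ain p H2 ⊆ Ain p N := fun E hE => ⟨hE.1, hE.2.trans h2N⟩
  refine sh_mem hs1 hs2 ?_ hx hy
  intro E hE F hF
  exact ⟨sup_mem_ApS hE.1 hF.1 fun a ha b hb => h12 a (hE.2 ha) b (hF.2 hb),
    sup_le (hE.2.trans h1N) (hF.2.trans h2N)⟩

section
variable (N M : Subgroup G) (π : N →* Q) (lW : Ch 𝕜 (Subgroup Q) →ₗ[𝕜] 𝕜)
  (lD : Ch 𝕜 (Subgroup G) →ₗ[𝕜] 𝕜)

/-- the basic detection functional -/
noncomputable def phN : Ch 𝕜 (Subgroup G) →ₗ[𝕜] 𝕜 := phi {E | E ≤ M} (fq N π) lW lD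

variable {N M π lW lD}

lemma phN_coc (hπ : ∀ n : N, π n = 1 ↔ (n : G) ∈ M)
    (hW : Coc (ApS p Q) lW) (hD : Coc (Ain p M) lD) : Coc (Ain p N) (phN N M π lW lD) := by
  refine phi_coc (SW := ApS p Q) ?_ ?_ ?_ hW ?_
  · exact fun x _ y _ hxy hy => le_trans hxy hy
  · exact fun E hE hED => fq_mem_ApS hπ hE.1 hE.2 hED
  · exact fun E _ _ F _ _ h => fq_mono h
  · intro c hc
    refine hD c (Sp_mono (wk_mono ?_) hc)
    exact fun E hE => ⟨hE.1.1, hE.2⟩

lemma phN_nrm (hnW : Nrm lW) (hnD : Nrm lD) (l : List (Subgroup G)) (hl : wk (Ain p N) l)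
    (hs : ¬ l.Pairwise (· > ·)) : phN N M π lW lD (single l (1 : 𝕜)) = 0 := by
  rw [phN, phi_single]
  exact PhiL_nrm (S := Ain p N) hnW hnD _ hl hs _

lemma phN_van {P : Subgroup G → Prop}
    (hvan : ∀ l, wk {E | E ∈ Ain p M ∧ P E} l → lD (single l (1 : 𝕜)) = 0)
    (l : List (Subgroup G)) (hl : wk {E | E ∈ Ain p N ∧ P E} l) :
    phN N M π lW lD (single l (1 : 𝕜)) = 0 := by
  rw [phN, phi_single]
  suffices h : PhiL {E | E ≤ M} (fq N π) lW lD l = 0 by rw [h, LinearMap.zero_apply]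
  induction l with
  | nil => rw [PhiL, hvan [] ⟨by simp, by simp⟩, zero_smul]
  | cons E l ih =>
    have hp := List.pairwise_cons.1 hl.1
    by_cases hE : E ∈ {E : Subgroup G | E ≤ M}
    · rw [PhiL_cons_mem hE, hvan (E :: l), zero_smul]
      refine ⟨hl.1, fun F hF => ?_⟩
      have hFE : F ≤ E := by
        rcases List.mem_cons.1 hF with h | h
        · rw [h]
        · exact hp.1 F h
      exact ⟨⟨(hl.2 F hF).1.1, le_trans hFE hE⟩, (hl.2 F hF).2⟩
    · rw [PhiL_cons_not hE, ih ⟨hp.2, fun F hF => hl.2 F (by simp [hF])⟩, LinearMap.zero_comp]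

lemma phN_sh (hπ : ∀ n : N, π n = 1 ↔ (n : G) ∈ M) (hMN : M ≤ N) (hnW : Nrm lW)
    {H1 H2 : Subgroup G} (h1N : H1 ≤ N) (h2M : H2 ≤ M) (h1M : H1 ⊓ M = ⊥)
    {x y : Ch 𝕜 (Subgroup G)} (hx : x ∈ Sp 𝕜 (wk (Ain p H1))) (hy : y ∈ Sp 𝕜 (wk (Ain p H2))) :
    phN N M π lW lD (sh x y) = lW (mp (fq N π) x) * lD y := by
  rw [phN, phi_shuffle (A := Ain p H1) (B := Ain p H2) ?_ ?_ ?_ hnW
        (Sp_mono (fun l hl => hl.2) hx) (Sp_mono (fun l hl => hl.2) hy)]
  · intro E hE hEM
    exact hE.1.1 (le_bot_iff.1 (h1M ▸ le_inf hE.2 hEM))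
  · intro E hE
    exact hE.2.trans h2M
  · intro E hE F hF
    refine ⟨?_, fq_sup hπ (hE.2.trans h1N) ((hF.2.trans h2M).trans hMN) (hF.2.trans h2M)⟩
    intro h
    exact hE.1.1 (le_bot_iff.1 (h1M ▸ le_inf hE.2 (le_sup_left.trans h)))

end

/-- homogeneous version of `exists_cocycle` -/
lemma exists_cocycle_len {α : Type*} [PartialOrder α] (S : Set α) (V : Submodule 𝕜 (Ch 𝕜 α))
    (z : Ch 𝕜 α) (n : ℕ) (hzn : z ∈ Sp 𝕜 (fun l : List α => l.length = n)) (hz : pi z ∉ Bst 𝕜 S ⊔ V) :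
    ∃ lam : Ch 𝕜 α →ₗ[𝕜] 𝕜, Nrm lam ∧ Coc S lam ∧ lam z ≠ 0 ∧
      ∀ l : List α, l.length ≠ n → lam (single l (1 : 𝕜)) = 0 := by
  obtain ⟨lam, h1, h2, -, h4⟩ := exists_cocycle S V z hz
  refine ⟨lam.comp (len n), ?_, ?_, ?_, ?_⟩
  · intro l hl
    rw [LinearMap.comp_apply, len_single]
    split_ifs
    · exact h1 l hl
    · rw [map_zero]
  · intro c hc
    rw [LinearMap.comp_apply, ← bd_len]
    exact h2 _ (Sp_mono (fun l hl => hl.2) (len_mem hc))
  · rw [LinearMap.comp_apply, len_of_mem hzn]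
    exact h4
  · intro l hl
    rw [LinearMap.comp_apply, len_single, if_neg hl, map_zero]

lemma lam_of_len {α : Type*} {lam : Ch 𝕜 α →ₗ[𝕜] 𝕜} {n m : ℕ}
    (h : ∀ l : List α, l.length ≠ n → lam (single l (1 : 𝕜)) = 0) (hmn : m ≠ n) {c : Ch 𝕜 α}
    (hc : c ∈ Sp 𝕜 (fun l : List α => l.length = m)) : lam c = 0 := by
  have := eq_of_Sp (F := lam) (G := 0) (fun l (hl : l.length = m) => by
    rw [h l (by rw [hl]; exact hmn)]; rfl) hc
  simpa using this

end Vale.Agent.P240.K
end
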