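import Vale.Agent.P240.WB.B3

set_option linter.all false

section

namespace Vale.Agent.P240.K

open Finsupp Subgroup

variable {𝕜 : Type*} [Field 𝕜]

variable {G Q R : Type*} [Group G] [Group Q] [Group R] {p : ℕ}

/-- the standing set-up: `N` normalizer and `K` centralizer of `L`, with the two quotients. -/
structure Ctx (p : ℕ) (L N K : Subgroup G) (πK : N →* Q) (πL : N →* R) : Prop where
  comp : CompLike p L
  hN : N = normalizer (L : Set G)
  hK : K = centralizer (L : Set G)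
  hπK : ∀ n : N, πK n = 1 ↔ (n : G) ∈ K
  hsurj : Function.Surjective πK
  hπL : ∀ n : N, πL n = 1 ↔ (n : G) ∈ L

/-- images in `R` of the members of a family not contained in `L` -/
def SRof (L N : Subgroup G) (πL : N →* R) (F : Set (Subgroup G)) : Set (Subgroup R) :=
  {X | ∃ E ∈ F, ¬ E ≤ L ∧ fq N πL E = X}

/-- part of the preimage in `K` -/
def kap (N K : Subgroup G) (πL : N →* R) (X : Subgroup R) : Subgroup G := pb N πL X ⊓ K

namespace Ctx

variable {L N K : Subgroup G} {πK : N →* Q} {πL : N →* R}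

lemma LN (h : Ctx p L N K πK πL) : L ≤ N := by rw [h.hN]; exact Subgroup.le_normalizer

lemma KN (h : Ctx p L N K πK πL) : K ≤ N := by
  intro k hk
  rw [h.hK] at hk
  rw [h.hN, Subgroup.mem_normalizer_iff]
  intro a
  constructor
  · intro hh
    rw [← (Subgroup.mem_centralizer_iff.1 hk) a hh, mul_assoc, mul_inv_cancel, mul_one]
    exact hh
  · intro hh
    have h4 := (Subgroup.mem_centralizer_iff.1 hk) _ hh
    have h5 : k * a * k⁻¹ * k = k * a := by group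
    rw [h5] at h4
    have h6 : a = k * a * k⁻¹ := mul_left_cancel h4
    rw [h6]
    exact hh

lemma Ln (h : Ctx p L N K πK πL) : (L.subgroupOf N).Normal := by
  rw [h.hN]; exact Subgroup.normal_in_normalizer

lemma Kn (h : Ctx p L N K πK πL) : (K.subgroupOf N).Normal := by
  have : K.subgroupOf N = πK.ker := by
    ext n
    rw [Subgroup.mem_subgroupOf, MonoidHom.mem_ker, h.hπK]
  rw [this]
  exact MonoidHom.normal_ker _

lemma LK (h : Ctx p L N K πK πL) : L ⊓ K = ⊥ := by rw [h.hK]; exact h.comp.centre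

lemma KL (h : Ctx p L N K πK πL) : K ⊓ L = ⊥ := by rw [inf_comm]; exact h.LK

lemma comm (h : Ctx p L N K πK πL) : ∀ l ∈ L, ∀ k ∈ K, l * k = k * l := fun l hl k hk => by
  rw [h.hK] at hk
  exact (Subgroup.mem_centralizer_iff.1 hk) l hl

lemma dec (h : Ctx p L N K πK πL) {x y : G} (hx : x ∈ N) (hy : y ∈ N)
    (hxy : y ∈ zpowers x ⊔ (L ⊔ K)) : ∃ i : ℤ, ∃ l ∈ L, ∃ k ∈ K, y = x ^ i * (l * k) := by
  have h1 := h.Ln
  have h2 := h.Kn
  exact decomp h.LN h.KN hx hy hxy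

lemma dec' (h : Ctx p L N K πK πL) {y : G} (hy : y ∈ L ⊔ K) :
    ∃ l ∈ L, ∃ k ∈ K, y = l * k := by
  obtain ⟨i, l, hl, k, hk, he⟩ := h.dec (x := 1) (y := y) (one_mem N) (sup_le h.LN h.KN hy)
    (Subgroup.mem_sup_right hy)
  rw [one_zpow, one_mul] at he
  exact ⟨l, hl, k, hk, he⟩

lemma SR_ApS (h : Ctx p L N K πK πL) {F : Set (Subgroup G)} (hF : F ⊆ Ain p N) :
    SRof L N πL F ⊆ ApS p R := by
  rintro _ ⟨E, hE, hEL, rfl⟩
  exact fq_mem_ApS h.hπL (hF hE).1 (hF hE).2 hEL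

lemma KSR (h : Ctx p L N K πK πL) {F : Set (Subgroup G)} (hF : Ain p K ⊆ F) :
    ∀ B ∈ Ain p K, fq N πL B ∈ SRof L N πL F := fun B hB =>
  ⟨B, hF hB, fun hh => hB.1.1 (le_bot_iff.1 (h.KL ▸ le_inf hB.2 hh)), rfl⟩

lemma fst (h : Ctx p L N K πK πL) :
    ∀ B ∈ Ain p K, ∀ B' ∈ Ain p K, B < B' → fq N πL B < fq N πL B' := by
  intro B hB B' hB' hh
  refine lt_of_le_of_ne (fq_mono hh.le) fun he => hh.ne ?_
  rw [← pb_fq h.hπL h.KN h.KL hB.2, ← pb_fq h.hπL h.KN h.KL hB'.2, he]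

/-- elements of `E` in `L K` lie in `L` when `kap` is trivial -/
lemma ELK (h : Ctx p L N K πK πL) {E : Subgroup G} (hE : E ∈ Ain p N)
    (hk : kap N K πL (fq N πL E) = ⊥) : ∀ x ∈ E, x ∈ L ⊔ K → x ∈ L := by
  intro x hx hxLK
  obtain ⟨l, hl, k, hk', hxe⟩ := h.dec' hxLK
  have h4 : k ∈ kap N K πL (fq N πL E) := by
    refine Subgroup.mem_inf.2 ⟨mem_pb.2 ⟨⟨k, h.KN hk'⟩, rfl, mem_fq.2
      ⟨⟨x, hE.2 hx⟩, hx, ?_⟩⟩, hk'⟩
    have h5 : (⟨x, hE.2 hx⟩ : N) = ⟨l, h.LN hl⟩ * ⟨k, h.KN hk'⟩ := Subtype.ext hxe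
    rw [h5, map_mul, (h.hπL ⟨l, h.LN hl⟩).2 hl, one_mul]
  rw [hk, Subgroup.mem_bot] at h4
  rw [hxe, h4, mul_one]
  exact hl

lemma exists_V [Fact p.Prime] [Finite G] (h : Ctx p L N K πK πL) :
    ∃ V : Submodule 𝕜 (Ch 𝕜 (Subgroup G)),
      (∀ g, g ∉ N → ∀ l, wk {E | E ∈ Ain p K ∧ ∀ x ∈ E, g * x = x * g} l →
        pi (single l (1 : 𝕜)) ∈ V) ∧
      ∀ z ∈ Sp 𝕜 (st (Ain p K)), bd z = 0 → z ∉ Bst 𝕜 (Ain p K) → z ∉ Bst 𝕜 (Ain p K) ⊔ V := by
  classical
  let ι := {L2 : Subgroup G // L2 ≠ L ∧ ∃ g : G, L2 = L.map (MulAut.conj g).toMonoidHom}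
  have : Fintype ι := Fintype.ofFinite ι
  let T : ι → Set (Subgroup G) := fun i => {E | E ∈ Ain p K ∧ ∀ x ∈ E, ∀ y ∈ i.1, x * y = y * x}
  have hconjN : ∀ g : G, g ∈ N → L.map (MulAut.conj g).toMonoidHom = L := by
    intro g hg
    rw [h.hN, Subgroup.mem_normalizer_iff] at hg
    ext x
    rw [Subgroup.mem_map]
    constructor
    · rintro ⟨y, hy, rfl⟩
      exact (hg y).1 hy
    · intro hx
      refine ⟨g⁻¹ * x * g, ?_, ?_⟩
      · rw [hg]
        have : g * (g⁻¹ * x * g) * g⁻¹ = x := by group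
        rw [this]; exact hx
      · simp [mul_assoc]
  have hcomm2 : ∀ g h : G, L.map (MulAut.conj g).toMonoidHom ≠ L.map (MulAut.conj h).toMonoidHom →
      ∀ x ∈ L.map (MulAut.conj g).toMonoidHom, ∀ y ∈ L.map (MulAut.conj h).toMonoidHom,
      x * y = y * x := by
    rintro g g' hgh _ ⟨x, hx, rfl⟩ _ ⟨y, hy, rfl⟩
    have h4 : g⁻¹ * g' ∉ N := by
      intro hmem
      apply hgh
      have h5 := hconjN _ hmem
      have h6 : L.map (MulAut.conj g').toMonoidHom =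
          (L.map (MulAut.conj (g⁻¹ * g')).toMonoidHom).map (MulAut.conj g).toMonoidHom := by
        rw [Subgroup.map_map]
        congr 1
        ext z
        simp [mul_assoc]
      rw [h6, h5]
    rw [h.hN] at h4
    have h7 := h.comp.conj _ h4 x hx y hy
    have h8 := congrArg (fun z => g * z * g⁻¹) h7
    simp only [MulEquiv.toMonoidHom_eq_coe, MonoidHom.coe_coe, MulAut.conj_apply]
    calc g * x * g⁻¹ * (g' * y * g'⁻¹)
        = g * (x * (g⁻¹ * g' * y * (g⁻¹ * g')⁻¹)) * g⁻¹ := by group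
      _ = g * ((g⁻¹ * g' * y * (g⁻¹ * g')⁻¹) * x) * g⁻¹ := h8
      _ = g' * y * g'⁻¹ * (g * x * g⁻¹) := by group
  have hmap1 : L.map (MulAut.conj (1 : G)).toMonoidHom = L := hconjN 1 (one_mem N)
  have hcomm1 : ∀ i : ι, ∀ x ∈ L, ∀ y ∈ i.1, x * y = y * x := by
    rintro ⟨_, hne, g, rfl⟩ x hx y hy
    refine hcomm2 1 g ?_ x (by rw [hmap1]; exact hx) y hy
    rw [hmap1]; exact hne.symm
  have hιK : ∀ i : ι, i.1 ≤ K := by
    intro i y hy
    rw [h.hK, Subgroup.mem_centralizer_iff]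
    exact fun x hx => hcomm1 i x hx y hy
  have hFex : ∀ i : ι, ∃ F ∈ ApS p G, F ≤ i.1 := by
    rintro ⟨_, hne, g, rfl⟩
    refine exists_ApS_le ?_
    rw [Subgroup.card_map_of_injective (MulAut.conj g).injective]
    exact h.comp.dvd
  choose F hF hFi using hFex
  have hιι : ∀ i j : ι, i ≠ j → ∀ x ∈ i.1, ∀ y ∈ j.1, x * y = y * x := by
    rintro ⟨_, hne, g, rfl⟩ ⟨_, hne', h, rfl⟩ hij x hx y hy
    exact hcomm2 g h (fun h => hij (Subtype.ext h)) x hx y hy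
  have hsupA : ∀ i : ι, ∀ E ∈ T i, E ⊔ F i ∈ Ain p K := fun i E hE =>
    ⟨sup_mem_ApS hE.1.1 (hF i) fun x hx y hy => hE.2 x hx y (hFi i hy),
      sup_le hE.1.2 ((hFi i).trans (hιK i))⟩
  have hrel := rel_zero (𝕜 := 𝕜) (Ain p K) T F (fun i E hE => hE.1)
    (fun i => ⟨hF i, (hFi i).trans (hιK i)⟩) hsupA
    (fun i j hij => ⟨⟨hF i, (hFi i).trans (hιK i)⟩, fun x hx y hy =>
      hιι i j hij x (hFi i hx) y hy⟩)
    (fun i j hij E hE hE' => ⟨hsupA i E hE, by
      have h4 : E ⊔ F i ≤ centralizer (j.1 : Set G) := by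
        refine sup_le ?_ ?_
        · intro x hx
          rw [Subgroup.mem_centralizer_iff]
          exact fun y hy => (hE'.2 x hx y hy).symm
        · intro x hx
          rw [Subgroup.mem_centralizer_iff]
          exact fun y hy => (hιι i j hij x (hFi i hx) y hy).symm
      intro x hx y hy
      exact ((Subgroup.mem_centralizer_iff.1 (h4 hx)) y hy).symm⟩)
    Finset.univ
  refine ⟨Sp 𝕜 (fun l => ∃ i ∈ (Finset.univ : Finset ι), wk (T i) l), ?_, ?_⟩
  · intro g hg l hl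
    refine pi_mem' (single_mem_Sp ?_ _)
    have hgne : L.map (MulAut.conj g).toMonoidHom ≠ L := by
      intro hh
      apply hg
      rw [h.hN, Subgroup.mem_normalizer_iff]
      intro x
      constructor
      · intro hx
        rw [← hh]
        exact ⟨x, hx, rfl⟩
      · intro hx
        rw [← hh] at hx
        obtain ⟨y, hy, hyx⟩ := hx
        have : y = x := by
          apply (MulAut.conj g).injective
          exact hyx
        rw [← this]; exact hy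
    refine ⟨⟨_, hgne, g, rfl⟩, Finset.mem_univ _, hl.1, ?_⟩
    intro E hE
    obtain ⟨hE1, hE2⟩ := hl.2 E hE
    refine ⟨hE1, ?_⟩
    rintro x hx _ ⟨y, hy, rfl⟩
    have h4 : x * y = y * x := (h.comm y hy x (hE1.2 hx)).symm
    have h5 : g * x = x * g := hE2 x hx
    simp only [MulEquiv.toMonoidHom_eq_coe, MonoidHom.coe_coe, MulAut.conj_apply]
    have h6 : x * g⁻¹ = g⁻¹ * x := by
      rw [eq_inv_mul_iff_mul_eq, ← mul_assoc, h5, mul_assoc, mul_inv_cancel, mul_one]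
    calc x * (g * y * g⁻¹) = (x * g) * y * g⁻¹ := by group
      _ = g * (x * y) * g⁻¹ := by rw [← h5]; group
      _ = g * y * (x * g⁻¹) := by rw [h4]; group
      _ = g * y * g⁻¹ * x := by rw [h6]; group
  · intro be hbe hbbe hben hh
    obtain ⟨b, ⟨c1, hc1, rfl⟩, w, hw, hbw⟩ := Submodule.mem_sup.1 hh
    have hbw0 : bd w = 0 := by
      have h4 := congrArg bd hbw
      rw [map_add, hbbe, bd_bd, zero_add] at h4
      exact h4
    obtain ⟨c2, hc2, hc2w⟩ := hrel w hw hbw0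
    have h5 : c1 + c2 ∈ Sp 𝕜 (wk (Ain p K)) := Submodule.add_mem _ (Sp_mono st_wk hc1) hc2
    refine hben ⟨pi (c1 + c2), pi_mem h5, ?_⟩
    rw [bd_pi h5, map_add, hc2w, hbw, pi_of_st hbe]

/-- Detection through `L` below: a cycle of `K` that stays nonzero modulo `L`. -/
lemma case_a [Fact p.Prime] [Finite G] (h : Ctx p L N K πK πL) (h1 : NA 𝕜 (Ain p L))
    {be : Ch 𝕜 (Subgroup G)} (hbe : be ∈ Sp 𝕜 (st (Ain p K))) (hbbe : bd be = 0)
    (hben : mp (fq N πL) be ∉ Bst 𝕜 (SRof L N πL (Ain p N))) : NA 𝕜 (ApS p G) := by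
  obtain ⟨al, hal, hbal, haln⟩ := h1
  have hmst : mp (fq N πL) be ∈ Sp 𝕜 (st (SRof L N πL (Ain p N))) :=
    mp_mem (st_map (h.KSR (F := Ain p N) (fun E hE => ⟨hE.1, hE.2.trans h.KN⟩)) h.fst) hbe
  obtain ⟨lW, hnW, hW, -, hlW⟩ := exists_cocycle (SRof L N πL (Ain p N)) ⊥ (mp (fq N πL) be) (by
    rw [pi_of_st hmst, sup_bot_eq]; exact hben)
  obtain ⟨lD, hnD, hD, -, hlD⟩ := exists_cocycle (Ain p L) ⊥ al (by
    rw [pi_of_st hal, sup_bot_eq]
    rintro ⟨c, hc, hcz⟩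
    exact haln c hc hcz)
  refine detect N L h.LN πL h.hπL (SRof L N πL (Ain p N))
    (fun E hE hEL => ⟨E, hE, hEL, rfl⟩) lW lD hnW hnD hW hD ?_
    K L h.KN le_rfl (fun k hk l hl => (h.comm l hl k hk).symm) h.KL be al
    (Sp_mono st_wk hbe) (Sp_mono st_wk hal) hbbe hbal hlW hlD
  intro g hg l hl
  rcases l with _ | ⟨E, l⟩
  · obtain ⟨F, hF, hFL⟩ := exists_ApS_le (G := G) h.comp.dvd
    have : bd (single [F] (1 : 𝕜)) = single [] (1 : 𝕜) := by simp [bd_single_cons]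
    rw [← this]
    exact hD _ (single_mem_Sp ⟨by simp, by simpa using ⟨hF, hFL⟩⟩ _)
  · exfalso
    obtain ⟨hE, hEg⟩ := hl.2 E (by simp)
    apply hE.1.1
    rw [eq_bot_iff, ← h.LK]
    intro x hx
    refine Subgroup.mem_inf.2 ⟨hE.2 hx, ?_⟩
    rw [h.hK, Subgroup.mem_centralizer_iff]
    intro y hy
    rw [h.hN] at hg
    have h5 := h.comp.conj g hg y hy x (hE.2 hx)
    have h6 : g * x * g⁻¹ = x := by
      rw [hEg x hx, mul_assoc, mul_inv_cancel, mul_one]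
    rwa [h6] at h5

/-- Splitting of a cycle of `K` that bounds modulo `L`. -/
lemma split [Fact p.Prime] [Finite G] (h : Ctx p L N K πK πL)
    (hR1 : ∀ E ∈ Ain p N, ∀ x ∈ E, ∀ y ∈ E, x ∉ L ⊔ K → y ∉ L ⊔ K → y ∈ zpowers x ⊔ (L ⊔ K))
    {F : Set (Subgroup G)} (hF : F ⊆ Ain p N) (hKF : Ain p K ⊆ F)
    {be : Ch 𝕜 (Subgroup G)} (hbe : be ∈ Sp 𝕜 (st (Ain p K)))
    (hb : mp (fq N πL) be ∈ Bst 𝕜 (SRof L N πL F)) :
    ∃ c ∈ Sp 𝕜 (wk (Ain p K)), ∃ (s : Finset (Subgroup R)) (e : Subgroup R → Ch 𝕜 (Subgroup G)),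
      (∀ X ∈ s, X ∈ SRof L N πL F ∧ kap N K πL X = ⊥) ∧
      (∀ X ∈ s, e X ∈ Sp 𝕜 (wk (Ain p (K ⊓ centralizer ((pb N πL X : Subgroup G) : Set G)))) ∧
        bd (e X) = 0) ∧ be = bd c + ∑ X ∈ s, e X := by
  classical
  obtain ⟨c, hc, hcz⟩ := hb
  set SR : Set (Subgroup R) := SRof L N πL F with hSR
  have hSRa : SR ⊆ ApS p R := h.SR_ApS hF
  have hkmono : ∀ X Y, X ≤ Y → kap N K πL X ≤ kap N K πL Y := fun X Y h =>
    inf_le_inf_right _ (pb_mono h)
  have hkf : ∀ B ∈ Ain p K, kap N K πL (fq N πL B) = B := fun B hB =>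
    pb_fq h.hπL h.KN h.KL hB.2
  have hkA : ∀ X ∈ SR, kap N K πL X ≠ ⊥ → kap N K πL X ∈ Ain p K := fun X hX hne =>
    pb_inf_ApS h.hπL h.KL (hSRa hX).2.1 (hSRa hX).2.2 hne
  have key : ∀ X ∈ SR, ∀ Y ∈ SR, X ≤ Y → kap N K πL Y = ⊥ → X = Y := by
    rintro X ⟨E', hE', hE'L, rfl⟩ Y ⟨E, hE, hEL, rfl⟩ hXY hk
    refine le_antisymm hXY ?_
    obtain ⟨x', hx', hx'L⟩ := Set.not_subset.1 hE'L
    have hx'X : πL ⟨x', (hF hE').2 hx'⟩ ∈ fq N πL E' :=
      mem_fq.2 ⟨⟨x', (hF hE').2 hx'⟩, hx', rfl⟩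
    obtain ⟨x, hxE, hxx'⟩ := mem_fq.1 (hXY hx'X)
    have hxL : (x : G) ∉ L := by
      rw [← h.hπL, hxx', h.hπL]
      exact hx'L
    have hxLK : (x : G) ∉ L ⊔ K := fun hh => hxL (h.ELK (hF hE) hk x hxE hh)
    intro q hq
    obtain ⟨y, hyE, rfl⟩ := mem_fq.1 hq
    by_cases hyL : (y : G) ∈ L
    · rw [(h.hπL y).2 hyL]; exact one_mem _
    have hyLK : (y : G) ∉ L ⊔ K := fun hh => hyL (h.ELK (hF hE) hk y hyE hh)
    have h4 := hR1 E (hF hE) x hxE y hyE hxLK hyLK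
    obtain ⟨i, l, hl, k, hk', hye⟩ := h.dec x.2 y.2 h4
    have h5 : y = x ^ i * (⟨l, h.LN hl⟩ * ⟨k, h.KN hk'⟩) := Subtype.ext (by simpa using hye)
    have h6 : πL y = πL x ^ i * πL ⟨k, h.KN hk'⟩ := by
      rw [h5, map_mul, map_mul, (h.hπL ⟨l, h.LN hl⟩).2 hl, one_mul, map_zpow]
    have hxY : πL x ∈ fq N πL E := mem_fq.2 ⟨x, hxE, rfl⟩
    have h7 : πL ⟨k, h.KN hk'⟩ ∈ fq N πL E := by
      have : πL ⟨k, h.KN hk'⟩ = (πL x ^ i)⁻¹ * πL y := by rw [h6]; group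
      rw [this]
      exact mul_mem (inv_mem (zpow_mem hxY i)) (mem_fq.2 ⟨y, hyE, rfl⟩)
    have h8 : k ∈ kap N K πL (fq N πL E) :=
      Subgroup.mem_inf.2 ⟨mem_pb.2 ⟨⟨k, h.KN hk'⟩, rfl, h7⟩, hk'⟩
    rw [hk, Subgroup.mem_bot] at h8
    have h9 : (⟨k, h.KN hk'⟩ : N) = 1 := Subtype.ext h8
    rw [h6, h9, map_one, mul_one, hxx']
    exact zpow_mem hx'X i
  let P : Set (Subgroup R) := {X | X ∈ SR ∧ kap N K πL X = ⊥}
  have hfz : mp (fq N πL) be ∈ Sp 𝕜 (st (SR \ P)) := by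
    refine mp_mem (st_map (T := SR \ P) (fun B hB => ⟨h.KSR hKF B hB, fun h => ?_⟩) h.fst) hbe
    exact hB.1.1 ((hkf B hB).symm.trans h.2)
  obtain ⟨c0, hc0, s, e, hs, he, hsum⟩ := exact_split (S := SR) (P := P)
    (fun X hX Y hY hYX => key Y hY X hX.1 hYX hX.2) hc hfz hcz
  have hmk : mp (kap N K πL) (mp (fq N πL) be) = be := by
    rw [mp_mp]
    have := eq_of_Sp (F := mp (kap N K πL ∘ fq N πL)) (G := LinearMap.id)
      (fun l (hl : st (Ain p K) l) => by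
        rw [mp_single]
        have : l.map (kap N K πL ∘ fq N πL) = l := by
          conv_rhs => rw [← List.map_id l]
          exact List.map_congr_left fun E hE => hkf E (hl.2 E hE)
        rw [this]; rfl) hbe
    simpa using this
  refine ⟨mp (kap N K πL) c0, ?_, s, fun X => mp (kap N K πL) (e X), ?_, ?_, ?_⟩
  · exact mp_mem (wk_map (S := SR \ P) (fun X hX => hkA X hX.1 fun h => hX.2 ⟨hX.1, h⟩)
      fun X _ Y _ h => hkmono X Y h) (Sp_mono st_wk hc0)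
  · intro X hX
    exact ⟨(hs X hX).2, (hs X hX).1.2⟩
  · intro X hX
    refine ⟨?_, by rw [bd_mp, (he X hX).2, map_zero]⟩
    have hXP := (hs X hX).1
    refine mp_mem (wk_map (S := {Y | Y ∈ SR ∧ X < Y}) ?_
      fun X _ Y _ h => hkmono X Y h) (Sp_mono st_wk (he X hX).1)
    rintro Y ⟨hY, hXY⟩
    have h4 := hkA Y hY fun h => hXY.ne (key X hXP.1 Y hY hXY.le h)
    refine ⟨h4.1, le_inf inf_le_right ?_⟩
    intro k hk
    obtain ⟨hk1, hk2⟩ := Subgroup.mem_inf.1 hk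
    obtain ⟨k', rfl, hk'⟩ := mem_pb.1 hk1
    rw [Subgroup.mem_centralizer_iff]
    intro h1 hh
    obtain ⟨h', rfl, hh'⟩ := mem_pb.1 hh
    have h5 : πL (h' * k') = πL (k' * h') := by
      rw [map_mul, map_mul]
      exact (hSRa hY).2.1 _ (hXY.le hh') _ hk'
    have h6 : ((h' * k' * h'⁻¹ * k'⁻¹ : N) : G) ∈ K ⊓ L := by
      refine Subgroup.mem_inf.2 ⟨?_, ?_⟩
      · rw [← h.hπK, map_mul, map_mul, map_mul, map_inv, map_inv, (h.hπK k').2 hk2]
        group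
      · rw [← h.hπL, map_mul, map_mul, map_inv, map_inv, h5, map_mul]
        group
    rw [h.KL, Subgroup.mem_bot] at h6
    have h7 : h' * k' * h'⁻¹ * k'⁻¹ = 1 := Subtype.ext h6
    have h8 : h' * k' = k' * h' := by
      rw [mul_inv_eq_one, mul_inv_eq_iff_eq_mul] at h7
      exact h7
    exact congrArg Subtype.val h8
  · conv_lhs => rw [← hmk, hsum, map_add, map_sum, ← bd_mp]

/-- lifts of subgroups of `Q` to `L⟨x⟩` -/
lemma lift_fq (h : Ctx p L N K πK πL) {X : Subgroup R} {x : N} (hx : πL x ∈ X)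
    {E : Subgroup Q} (hl : ∀ n : N, πK n ∈ E → (n : G) ∈ zpowers (x : G) ⊔ (L ⊔ K)) :
    fq N πK (pb N πK E ⊓ pb N πL X) = E := by
  refine le_antisymm ?_ ?_
  · intro q hq
    obtain ⟨n, hn, rfl⟩ := mem_fq.1 hq
    obtain ⟨n', hn', h4⟩ := mem_pb.1 (Subgroup.mem_inf.1 hn).1
    rw [← Subtype.ext hn']
    exact h4
  · intro q hq
    obtain ⟨n, rfl⟩ := h.hsurj q
    obtain ⟨i, l, hl', k, hk', hne⟩ := h.dec x.2 n.2 (hl n hq)
    have h5 : n = (x ^ i * ⟨l, h.LN hl'⟩) * ⟨k, h.KN hk'⟩ := by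
      refine Subtype.ext ?_
      rw [hne]
      simp [mul_assoc]
    have h6 : πK (x ^ i * ⟨l, h.LN hl'⟩) = πK n := by
      conv_rhs => rw [h5, map_mul, (h.hπK ⟨k, h.KN hk'⟩).2 hk', mul_one]
    refine mem_fq.2 ⟨x ^ i * ⟨l, h.LN hl'⟩, Subgroup.mem_inf.2
      ⟨mem_pb.2 ⟨_, rfl, by rw [h6]; exact hq⟩, mem_pb.2 ⟨_, rfl, ?_⟩⟩, h6⟩
    rw [map_mul, (h.hπL ⟨l, h.LN hl'⟩).2 hl', mul_one, map_zpow]
    exact zpow_mem hx i

lemma lift_mem (h : Ctx p L N K πK πL) {X : Subgroup R} {x : N} (hx : πL x ∈ X)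
    (hkX : kap N K πL X = ⊥) {E : Subgroup Q} (hE : E ∈ ApS p Q)
    (hl : ∀ n : N, πK n ∈ E → (n : G) ∈ zpowers (x : G) ⊔ (L ⊔ K)) :
    pb N πK E ⊓ pb N πL X ∈ Ain p (pb N πL X) := by
  refine pb_inf_ApS h.hπK hkX hE.2.1 hE.2.2 fun h' => hE.1 ?_
  have h4 := h.lift_fq hx hl
  rw [h'] at h4
  rw [← h4, eq_bot_iff]
  intro q hq
  obtain ⟨n, hn, rfl⟩ := mem_fq.1 hq
  rw [Subgroup.mem_bot] at hn
  have : n = 1 := Subtype.ext hn
  rw [this, map_one]
  exact one_mem _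

end Ctx

end Vale.Agent.P240.K
end

section

namespace Vale.Agent.P240.K

open Finsupp Subgroup

variable {𝕜 : Type*} [Field 𝕜]

/-! ### Generalities on chains -/

lemma Sp_or {α : Type*} {P P1 P2 : List α → Prop} (h : ∀ l, P l → P1 l ∨ P2 l) {c : Ch 𝕜 α}
    (hc : c ∈ Sp 𝕜 P) : ∃ c1 ∈ Sp 𝕜 P1, ∃ c2 ∈ Sp 𝕜 P2, c = c1 + c2 := by
  have hsplit : c ∈ Sp 𝕜 P1 ⊔ Sp 𝕜 P2 := by
    rw [Sp, Sp, ← Finsupp.supported_union]
    exact Finsupp.supported_mono (fun l hl => h l hl) hc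
  obtain ⟨c1, h1, c2, h2, h3⟩ := Submodule.mem_sup.1 hsplit
  exact ⟨c1, h1, c2, h2, h3.symm⟩

lemma lam_of_len' {α : Type*} {lam : Ch 𝕜 α →ₗ[𝕜] 𝕜} {n : ℕ} {P : List α → Prop}
    (h : ∀ l : List α, l.length ≠ n → lam (single l (1 : 𝕜)) = 0) (hP : ∀ l, P l → l.length ≠ n)
    {c : Ch 𝕜 α} (hc : c ∈ Sp 𝕜 P) : lam c = 0 := by
  have := eq_of_Sp (F := lam) (G := 0) (fun l (hl : P l) => by
    rw [h l (hP l hl)]; rfl) hc
  simpa using this

lemma bd_len_mem {α : Type*} {n : ℕ} {c : Ch 𝕜 α} (hc : c ∈ Sp 𝕜 (fun l : List α => l.length = n)) :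
    bd c ∈ Sp 𝕜 (fun l : List α => l.length + 1 = n) := by
  refine map_mem bd (fun l hl => ?_) hc
  refine Sp_mono (fun m hm => ?_) (bd_single_len l)
  rw [hm, hl]

lemma mp_len_mem {α β : Type*} {f : α → β} {n : ℕ} {c : Ch 𝕜 α}
    (hc : c ∈ Sp 𝕜 (fun l : List α => l.length = n)) :
    mp f c ∈ Sp 𝕜 (fun l : List β => l.length = n) :=
  mp_mem (fun l hl => by simpa using hl) hc

lemma mp_congr {α β : Type*} {f g : α → β} {P : List α → Prop}
    (h : ∀ l, P l → ∀ a ∈ l, f a = g a) {c : Ch 𝕜 α} (hc : c ∈ Sp 𝕜 P) : mp f c = mp g c :=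
  eq_of_Sp (F := mp f) (G := mp g) (fun l hl => by
    rw [mp_single, mp_single, List.map_congr_left (h l hl)]) hc

lemma mp_eq_self {α : Type*} {f : α → α} {P : List α → Prop}
    (h : ∀ l, P l → ∀ a ∈ l, f a = a) {c : Ch 𝕜 α} (hc : c ∈ Sp 𝕜 P) : mp f c = c := by
  have := eq_of_Sp (F := mp f) (G := LinearMap.id) (fun l hl => by
    rw [mp_single, List.map_congr_left (h l hl)]
    simp) hc
  simpa using this

variable {G Q R : Type*} [Group G] [Group Q] [Group R] {p : ℕ}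

/-- two different types of outer subgroups -/
structure Two (p : ℕ) (L N K : Subgroup G) (N1 N2 : Subgroup G) : Prop where
  le1 : N1 ≤ N
  le2 : N2 ≤ N
  LK1 : L ⊔ K ≤ N1
  LK2 : L ⊔ K ≤ N2
  inf : ∀ x ∈ N1, x ∈ N2 → x ∈ L ⊔ K
  cyc1 : ∀ x ∈ N1, x ∉ L ⊔ K → ∀ y ∈ N1, y ∈ zpowers x ⊔ (L ⊔ K)
  cyc2 : ∀ x ∈ N2, x ∉ L ⊔ K → ∀ y ∈ N2, y ∈ zpowers x ⊔ (L ⊔ K)
  cov : ∀ x ∈ N, x ^ p ∈ K → x ∈ N1 ∨ x ∈ N2

lemma Two.symm {L N K N1 N2 : Subgroup G} (t : Two p L N K N1 N2) : Two p L N K N2 N1 :=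
  ⟨t.le2, t.le1, t.LK2, t.LK1, fun x h1 h2 => t.inf x h2 h1, t.cyc2, t.cyc1,
    fun x hx hp => (t.cov x hx hp).symm⟩

/-- image of `N1` in `Q` -/
def Gam (N : Subgroup G) (πK : N →* Q) (N1 : Subgroup G) : Subgroup Q :=
  (N1.subgroupOf N).map πK

/-- lift of a subgroup of `Q` -/
def sig (N : Subgroup G) (πK : N →* Q) (πL : N →* R) (X : Subgroup R) (E : Subgroup Q) :
    Subgroup G := pb N πK E ⊓ pb N πL X

section
variable {L N K N1 N2 : Subgroup G} {πK : N →* Q} {πL : N →* R}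

lemma mem_Gam (h : Ctx p L N K πK πL) (hK1 : K ≤ N1) {n : N} :
    πK n ∈ Gam N πK N1 ↔ (n : G) ∈ N1 := by
  rw [Gam, Subgroup.mem_map]
  constructor
  · rintro ⟨m, hm, hmn⟩
    have h1 : ((m⁻¹ * n : N) : G) ∈ K := by
      rw [← h.hπK, map_mul, map_inv, hmn, inv_mul_cancel]
    have h2 : (n : G) = m * ((m⁻¹ * n : N) : G) := by simp
    rw [h2]
    exact mul_mem hm (hK1 h1)
  · intro hn
    exact ⟨n, hn, rfl⟩

lemma Two.E_or (t : Two p L N K N1 N2) {E : Subgroup G} (hE : E ∈ Ain p N) :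
    E ≤ N1 ∨ E ≤ N2 := by
  rw [← SubgroupClass.subset_union]
  intro x hx
  refine t.cov x (hE.2 hx) ?_
  rw [hE.1.2.2 x hx]
  exact one_mem _

lemma Two.hR1 (t : Two p L N K N1 N2) : ∀ E ∈ Ain p N, ∀ x ∈ E, ∀ y ∈ E, x ∉ L ⊔ K →
    y ∉ L ⊔ K → y ∈ zpowers x ⊔ (L ⊔ K) := by
  intro E hE x hx y hy hxL _
  rcases t.E_or hE with h | h
  · exact t.cyc1 x (h hx) hxL y (h hy)
  · exact t.cyc2 x (h hx) hxL y (h hy)

lemma Two.Q_or (h : Ctx p L N K πK πL) (t : Two p L N K N1 N2) {E : Subgroup Q}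
    (hE : E ∈ ApS p Q) : E ∈ Ain p (Gam N πK N1) ∨ E ∈ Ain p (Gam N πK N2) := by
  have h1 : ((pb N πK E : Subgroup G) : Set G) ⊆ N1 ∪ N2 := by
    intro g hg
    obtain ⟨n, rfl, hn⟩ := mem_pb.1 hg
    refine t.cov n n.2 ?_
    have : ((n ^ p : N) : G) ∈ K := by rw [← h.hπK, map_pow, hE.2.2 _ hn]
    simpa using this
  rw [SubgroupClass.subset_union] at h1
  rcases h1 with h1 | h1
  · left
    refine ⟨hE, fun q hq => ?_⟩
    obtain ⟨n, rfl⟩ := h.hsurj q
    exact (mem_Gam h (le_sup_right.trans t.LK1)).2 (h1 (mem_pb.2 ⟨n, rfl, hq⟩))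
  · right
    refine ⟨hE, fun q hq => ?_⟩
    obtain ⟨n, rfl⟩ := h.hsurj q
    exact (mem_Gam h (le_sup_right.trans t.LK2)).2 (h1 (mem_pb.2 ⟨n, rfl, hq⟩))

lemma Two.st_or (h : Ctx p L N K πK πL) (t : Two p L N K N1 N2) (l : List (Subgroup Q))
    (hl : st (ApS p Q) l) : st (Ain p (Gam N πK N1)) l ∨ st (Ain p (Gam N πK N2)) l := by
  rcases l with _ | ⟨E, l⟩
  · exact Or.inl ⟨by simp, by simp⟩
  · have hp := List.pairwise_cons.1 hl.1
    have hle : ∀ F ∈ E :: l, F ≤ E := by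
      intro F hF
      rcases List.mem_cons.1 hF with h | h
      · rw [h]
      · exact (hp.1 F h).le
    rcases t.Q_or h (hl.2 E (by simp)) with h1 | h1
    · exact Or.inl ⟨hl.1, fun F hF => ⟨hl.2 F hF, (hle F hF).trans h1.2⟩⟩
    · exact Or.inr ⟨hl.1, fun F hF => ⟨hl.2 F hF, (hle F hF).trans h1.2⟩⟩

lemma sig_mono {X : Subgroup R} {E F : Subgroup Q} (hEF : E ≤ F) :
    sig N πK πL X E ≤ sig N πK πL X F := inf_le_inf_right _ (pb_mono hEF)

lemma pb_bot (h : Ctx p L N K πK πL) : pb N πL ⊥ = L := by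
  ext g
  rw [mem_pb]
  constructor
  · rintro ⟨n, rfl, hn⟩
    rw [Subgroup.mem_bot, h.hπL] at hn
    exact hn
  · intro hg
    exact ⟨⟨g, h.LN hg⟩, rfl, by rw [Subgroup.mem_bot, h.hπL]; exact hg⟩

lemma kap_bot (h : Ctx p L N K πK πL) : kap N K πL ⊥ = ⊥ := by
  rw [kap, pb_bot h, h.LK]

lemma L_le_pb (h : Ctx p L N K πK πL) (X : Subgroup R) : L ≤ pb N πL X := by
  intro l hl
  refine mem_pb.2 ⟨⟨l, h.LN hl⟩, rfl, ?_⟩
  rw [(h.hπL ⟨l, h.LN hl⟩).2 hl]
  exact one_mem _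

lemma sig_eq (h : Ctx p L N K πK πL) {X : Subgroup R} (hX : kap N K πL X = ⊥) {E : Subgroup Q}
    (hE : ∀ n : N, πK n ∈ E → (n : G) ∈ L ⊔ K) : sig N πK πL X E = sig N πK πL ⊥ E := by
  rw [sig, sig, pb_bot h]
  refine le_antisymm (le_inf inf_le_left ?_) (inf_le_inf_left _ (L_le_pb h X))
  intro g hg
  obtain ⟨hg1, hg2⟩ := Subgroup.mem_inf.1 hg
  obtain ⟨n, rfl, hn⟩ := mem_pb.1 hg1
  obtain ⟨l, hl, k, hk, hlk⟩ := h.dec' (hE n hn)
  have hk2 : k ∈ kap N K πL X := by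
    refine Subgroup.mem_inf.2 ⟨?_, hk⟩
    have : k = l⁻¹ * (n : G) := by rw [hlk]; group
    rw [this]
    exact mul_mem (inv_mem (L_le_pb h X hl)) hg2
  rw [hX, Subgroup.mem_bot] at hk2
  rw [hlk, hk2, mul_one]
  exact hl

lemma inner_of (h : Ctx p L N K πK πL) (t : Two p L N K N1 N2) {E : Subgroup Q}
    (h1 : E ≤ Gam N πK N1) (h2 : E ≤ Gam N πK N2) : ∀ n : N, πK n ∈ E → (n : G) ∈ L ⊔ K :=
  fun n hn => t.inf n ((mem_Gam h (le_sup_right.trans t.LK1)).1 (h1 hn))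
    ((mem_Gam h (le_sup_right.trans t.LK2)).1 (h2 hn))

lemma sig_bot_spec (h : Ctx p L N K πK πL) {E : Subgroup Q} (hE : E ∈ ApS p Q)
    (hin : ∀ n : N, πK n ∈ E → (n : G) ∈ L ⊔ K) :
    fq N πK (sig N πK πL ⊥ E) = E ∧ sig N πK πL ⊥ E ∈ Ain p L := by
  have hx : πL (1 : N) ∈ (⊥ : Subgroup R) := by rw [map_one]; exact one_mem _
  have hl : ∀ n : N, πK n ∈ E → (n : G) ∈ zpowers ((1 : N) : G) ⊔ (L ⊔ K) :=
    fun n hn => Subgroup.mem_sup_right (hin n hn)
  refine ⟨h.lift_fq hx hl, ?_⟩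
  have := h.lift_mem hx (kap_bot h) hE hl
  rw [pb_bot h] at this
  rw [sig, pb_bot h]
  exact this

/-- the Mayer-Vietoris step -/
lemma mv1 (h : Ctx p L N K πK πL) (t : Two p L N K N1 N2)
    (hZ : ∀ al ∈ Sp 𝕜 (st (Ain p L)), bd al = 0 →
      mp (fq N πK) al ∈ Bst 𝕜 (Ain p (Gam N πK N1)))
    {om : Ch 𝕜 (Subgroup Q)} (hom : om ∈ Sp 𝕜 (st (Ain p (Gam N πK N1))))
    (hon : om ∈ Bst 𝕜 (ApS p Q)) : om ∈ Bst 𝕜 (Ain p (Gam N πK N1)) := by
  obtain ⟨c, hc, hco⟩ := hon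
  obtain ⟨c1, hc1, c2, hc2, hcc⟩ := Sp_or (t.st_or h) hc
  set v := bd c2 with hv
  have hv1 : v ∈ Sp 𝕜 (st (Ain p (Gam N πK N1))) := by
    have : v = om - bd c1 := by rw [← hco, hcc, map_add]; abel
    rw [this]
    exact Submodule.sub_mem _ hom (bd_st hc1)
  have hv2 : v ∈ Sp 𝕜 (st (Ain p (Gam N πK N2))) := bd_st hc2
  have hv3 := mem_Sp_inf hv1 hv2
  have hin : ∀ l : List (Subgroup Q), (st (Ain p (Gam N πK N1)) l ∧ st (Ain p (Gam N πK N2)) l) →
      ∀ E ∈ l, E ∈ ApS p Q ∧ ∀ n : N, πK n ∈ E → (n : G) ∈ L ⊔ K := fun l hl E hE =>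
    ⟨(hl.1.2 E hE).1, inner_of h t (hl.1.2 E hE).2 (hl.2.2 E hE).2⟩
  have h1 : mp (sig N πK πL ⊥) v ∈ Sp 𝕜 (st (Ain p L)) := by
    refine mp_mem ?_ hv3
    intro l hl
    refine ⟨?_, ?_⟩
    · rw [List.pairwise_map]
      refine hl.1.1.imp_of_mem ?_
      intro E F hE hF hEF
      refine lt_of_le_of_ne (sig_mono hEF.le) fun he => hEF.ne ?_
      rw [← (sig_bot_spec h (hin l hl E hE).1 (hin l hl E hE).2).1,
        ← (sig_bot_spec h (hin l hl F hF).1 (hin l hl F hF).2).1, he]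
    · intro E' hE'
      obtain ⟨E, hE, rfl⟩ := List.mem_map.1 hE'
      exact (sig_bot_spec h (hin l hl E hE).1 (hin l hl E hE).2).2
  have h2 : mp (fq N πK) (mp (sig N πK πL ⊥) v) = v := by
    rw [mp_mp]
    exact mp_eq_self (fun l hl E hE => (sig_bot_spec h (hin l hl E hE).1 (hin l hl E hE).2).1) hv3
  have h3 := hZ _ h1 (by rw [bd_mp, hv, bd_bd, map_zero])
  rw [h2] at h3
  have h4 : om = bd c1 + v := by rw [← hco, hcc, map_add]
  rw [h4]
  exact Submodule.add_mem _ ⟨c1, hc1, rfl⟩ h3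

/-- existence of a useful class in `Q` -/
lemma om_exists (h : Ctx p L N K πK πL) (t : Two p L N K N1 N2)
    (hZ : ∀ al ∈ Sp 𝕜 (st (Ain p L)), bd al = 0 →
      mp (fq N πK) al ∈ Bst 𝕜 (Ain p (Gam N πK N1)))
    (hG1 : NA 𝕜 (Ain p (Gam N πK N1))) :
    ∃ om ∈ Sp 𝕜 (st (Ain p (Gam N πK N1))), bd om = 0 ∧ om ∉ Bst 𝕜 (ApS p Q) := by
  obtain ⟨om, hom, hbom, homn⟩ := hG1
  refine ⟨om, hom, hbom, fun hon => ?_⟩
  obtain ⟨c, hc, hcz⟩ := mv1 h t hZ hom hon
  exact homn c hc hcz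

/-- the basic product detection -/
lemma d1 [Fact p.Prime] [Finite G] (h : Ctx p L N K πK πL) (hK1 : L ⊔ K ≤ N1)
    (hcyc : ∀ x ∈ N1, x ∉ L ⊔ K → ∀ y ∈ N1, y ∈ zpowers x ⊔ (L ⊔ K))
    {V : Submodule 𝕜 (Ch 𝕜 (Subgroup G))}
    (hV : ∀ g, g ∉ N → ∀ l, wk {E | E ∈ Ain p K ∧ ∀ x ∈ E, g * x = x * g} l →
        pi (single l (1 : 𝕜)) ∈ V)
    {om : Ch 𝕜 (Subgroup Q)} (hom : om ∈ Sp 𝕜 (st (Ain p (Gam N πK N1)))) (hbom : bd om = 0)
    (homn : om ∉ Bst 𝕜 (ApS p Q))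
    {X : Subgroup R} (hX : X ∈ SRof L N πL (Ain p N)) (hX1 : ∀ E ∈ Ain p N, fq N πL E = X →
      E ≤ N1) (hkX : kap N K πL X = ⊥)
    {e : Ch 𝕜 (Subgroup G)}
    (he : e ∈ Sp 𝕜 (wk (Ain p (K ⊓ centralizer ((pb N πL X : Subgroup G) : Set G)))))
    (hbe : bd e = 0) (hen : pi e ∉ Bst 𝕜 (Ain p K) ⊔ V) : NA 𝕜 (ApS p G) := by
  obtain ⟨E', hE', hE'L, hE'X⟩ := hX
  obtain ⟨x, hx, hxL⟩ := Set.not_subset.1 hE'L
  have hxLK : x ∉ L ⊔ K := fun hh => hxL (h.ELK hE' (by rw [hE'X]; exact hkX) x hx hh)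
  have hxN1 : x ∈ N1 := hX1 E' hE' hE'X hx
  set x' : N := ⟨x, hE'.2 hx⟩ with hx'
  have hx'X : πL x' ∈ X := by
    rw [← hE'X]
    exact mem_fq.2 ⟨x', hx, rfl⟩
  have hl : ∀ E ∈ Ain p (Gam N πK N1), ∀ n : N, πK n ∈ E →
      (n : G) ∈ zpowers (x' : G) ⊔ (L ⊔ K) := fun E hE n hn =>
    hcyc x hxN1 hxLK n ((mem_Gam h (le_sup_right.trans hK1)).1 (hE.2 hn))
  obtain ⟨lD, hnD, hD, hDV, hlD⟩ := exists_cocycle (Ain p K) V e hen
  obtain ⟨lW, hnW, hW, -, hlW⟩ := exists_cocycle (ApS p Q) ⊥ om (by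
    rw [pi_of_st hom, sup_bot_eq]
    exact homn)
  have hsx : mp (sig N πK πL X) om ∈ Sp 𝕜 (wk (Ain p (pb N πL X))) :=
    mp_mem (wk_map (fun E hE => h.lift_mem hx'X hkX hE.1 (hl E hE))
      fun E _ F _ hh => sig_mono hh) (Sp_mono st_wk hom)
  have hfx : mp (fq N πK) (mp (sig N πK πL X) om) = om := by
    rw [mp_mp]
    exact mp_eq_self (fun l hl' E hE => h.lift_fq hx'X (hl E (hl'.2 E hE))) hom
  have h12 : ∀ a ∈ pb N πL X, ∀ b ∈ K ⊓ centralizer ((pb N πL X : Subgroup G) : Set G),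
      a * b = b * a := fun a ha b hb => (Subgroup.mem_centralizer_iff.1 hb.2) a ha
  refine detect_gen N (phN N K πK lW lD) (phN_coc h.hπK hW hD) (phN_nrm hnW hnD) ?_
    (sh (mp (sig N πK πL X) om) e) (sh_mem_N pb_le (inf_le_left.trans h.KN) h12 hsx he) ?_ ?_
  · intro g hg _ l hl'
    exact phN_van (P := fun E => ∀ x ∈ E, g * x = x * g)
      (fun l hl => hDV _ (hV g hg l hl)) l hl'
  · rw [bd_sh, bd_mp, hbom, hbe, map_zero, map_zero, LinearMap.zero_apply, map_zero, add_zero]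
  · rw [phN_sh h.hπK h.KN hnW pb_le inf_le_left hkX hsx he, hfx]
    exact mul_ne_zero hlW hlD

end

end Vale.Agent.P240.K
end

section

namespace Vale.Agent.P240.K

open Finsupp Subgroup

variable {𝕜 : Type*} [Field 𝕜]

variable {G Q R : Type*} [Group G] [Group Q] [Group R] {p : ℕ}
variable {L N K N1 N2 : Subgroup G} {πK : N →* Q} {πL : N →* R}

/-- lower set used for the mixed functional -/
def DH (L K N1 : Subgroup G) : Set (Subgroup G) := {E | E ≤ N1 ∧ E ⊓ (L ⊔ K) ≤ L}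

open Classical in
/-- the map used for the mixed functional -/
noncomputable def fH (L N K N2 : Subgroup G) (πL : N →* R) (E : Subgroup G) : Subgroup R :=
  if E ≤ N2 then fq N πL E else fq N πL (E ⊓ (L ⊔ K))

/-- Mixed detection: the first type is killed on the side of `L`, the second one on the
side of `K`. -/
lemma hybrid [Fact p.Prime] [Finite G] (h : Ctx p L N K πK πL) (t : Two p L N K N1 N2) {n : ℕ}
    (hm : (∀ g : G, g ^ p = 1 → g ∈ N) ∨ 2 ≤ n)
    {al : Ch 𝕜 (Subgroup G)} (hal : al ∈ Sp 𝕜 (st (Ain p L)))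
    (haln : al ∈ Sp 𝕜 (fun l : List (Subgroup G) => l.length = n)) (hbal : bd al = 0)
    (hane : mp (fq N πK) al ∉ Bst 𝕜 (Ain p (Gam N πK N1)))
    {be : Ch 𝕜 (Subgroup G)} (hbe : be ∈ Sp 𝕜 (st (Ain p K))) (hbbe : bd be = 0)
    (hben : mp (fq N πL) be ∉ Bst 𝕜 (SRof L N πL (Ain p N2))) : NA 𝕜 (ApS p G) := by
  classical
  have hK1 : K ≤ N1 := le_sup_right.trans t.LK1
  have hK2 : K ≤ N2 := le_sup_right.trans t.LK2
  have hL1 : L ≤ N1 := le_sup_left.trans t.LK1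
  have hL2 : L ≤ N2 := le_sup_left.trans t.LK2
  -- functionals
  have hmst : mp (fq N πL) be ∈ Sp 𝕜 (st (SRof L N πL (Ain p N2))) :=
    mp_mem (st_map (h.KSR (F := Ain p N2) (fun E hE => ⟨hE.1, hE.2.trans hK2⟩)) h.fst) hbe
  obtain ⟨lW, hnW, hW, -, hlW⟩ := exists_cocycle (SRof L N πL (Ain p N2)) ⊥ (mp (fq N πL) be) (by
    rw [pi_of_st hmst, sup_bot_eq]; exact hben)
  have hLQ : ∀ E ∈ Ain p L, fq N πK E ∈ Ain p (Gam N πK N1) := by
    intro E hE
    refine ⟨fq_mem_ApS h.hπK hE.1 (hE.2.trans h.LN) fun hh =>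
      hE.1.1 (le_bot_iff.1 (h.LK ▸ le_inf hE.2 hh)), ?_⟩
    intro q hq
    obtain ⟨m, hm', rfl⟩ := mem_fq.1 hq
    exact (mem_Gam h hK1).2 (hL1 (hE.2 hm'))
  have hLst : ∀ B ∈ Ain p L, ∀ B' ∈ Ain p L, B < B' → fq N πK B < fq N πK B' := by
    intro B hB B' hB' hh
    refine lt_of_le_of_ne (fq_mono hh.le) fun he => hh.ne ?_
    rw [← pb_fq h.hπK h.LN h.LK hB.2, ← pb_fq h.hπK h.LN h.LK hB'.2, he]
  have hast : mp (fq N πK) al ∈ Sp 𝕜 (st (Ain p (Gam N πK N1))) := mp_mem (st_map hLQ hLst) hal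
  obtain ⟨lG, hnG, hG, hlG, hlen⟩ := exists_cocycle_len (Ain p (Gam N πK N1)) ⊥
    (mp (fq N πK) al) n (mp_len_mem haln) (by rw [pi_of_st hast, sup_bot_eq]; exact hane)
  set lD : Ch 𝕜 (Subgroup G) →ₗ[𝕜] 𝕜 := (lG.comp (mp (fq N πK))).comp pi with hlD
  have hnD : Nrm lD := by
    intro l hl
    rw [hlD, LinearMap.comp_apply, pi_single, if_neg hl, map_zero]
  have hlDlen : ∀ l : List (Subgroup G), l.length ≠ n → lD (single l (1 : 𝕜)) = 0 := by
    intro l hl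
    rw [hlD, LinearMap.comp_apply, pi_single]
    split_ifs
    · rw [LinearMap.comp_apply, mp_single]
      exact hlen _ (by simpa using hl)
    · rw [map_zero]
  have hDA : ∀ E ∈ Ain p N ∩ DH L K N1, fq N πK E ∈ Ain p (Gam N πK N1) := by
    rintro E ⟨hE, hE1, hE2⟩
    refine ⟨fq_mem_ApS h.hπK hE.1 hE.2 fun hh => hE.1.1 ?_, ?_⟩
    · rw [eq_bot_iff, ← h.LK]
      refine le_inf ?_ hh
      rw [inf_eq_left.2 (hh.trans le_sup_right)] at hE2
      exact hE2
    · intro q hq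
      obtain ⟨m, hm', rfl⟩ := mem_fq.1 hq
      exact (mem_Gam h hK1).2 (hE1 hm')
  have hD : Coc (Ain p N ∩ DH L K N1) lD := by
    intro c hc
    rw [hlD, LinearMap.comp_apply, ← bd_pi hc, LinearMap.comp_apply, ← bd_mp]
    exact hG _ (mp_mem (wk_map hDA fun E _ F _ hh => fq_mono hh) (Sp_mono st_wk (pi_mem hc)))
  have hlow : ∀ x ∈ Ain p N, ∀ y ∈ Ain p N, x ≤ y → y ∈ DH L K N1 → x ∈ DH L K N1 :=
    fun x _ y _ hxy hy => ⟨hxy.trans hy.1, (inf_le_inf_right _ hxy).trans hy.2⟩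
  -- members of type one
  have htype : ∀ E ∈ Ain p N, ¬ E ≤ N2 → E ≤ N1 := fun E hE hE2 =>
    (t.E_or hE).resolve_right hE2
  have hfSR : ∀ E ∈ Ain p N, E ∉ DH L K N1 → fH L N K N2 πL E ∈ SRof L N πL (Ain p N2) := by
    intro E hE hED
    rw [fH]
    split_ifs with h2
    · refine ⟨E, ⟨hE.1, h2⟩, fun hEL => hED ⟨hEL.trans hL1, inf_le_left.trans hEL⟩, rfl⟩
    · have h3 := htype E hE h2
      have h4 : ¬ E ⊓ (L ⊔ K) ≤ L := fun hh => hED ⟨h3, hh⟩
      refine ⟨E ⊓ (L ⊔ K), ⟨mem_ApS_of_le hE.1 inf_le_left ?_, inf_le_right.trans t.LK2⟩, h4, rfl⟩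
      intro hb
      apply h4
      rw [hb]
      exact bot_le
  have hfmono : ∀ x ∈ Ain p N, x ∉ DH L K N1 → ∀ y ∈ Ain p N, y ∉ DH L K N1 → x ≤ y →
      fH L N K N2 πL x ≤ fH L N K N2 πL y := by
    intro x hx _ y hy _ hxy
    rw [fH, fH]
    by_cases hy2 : y ≤ N2
    · rw [if_pos hy2, if_pos (hxy.trans hy2)]
      exact fq_mono hxy
    · rw [if_neg hy2]
      have hy1 := htype y hy hy2
      split_ifs with hx2
      · refine fq_mono (le_inf hxy ?_)
        intro a ha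
        exact t.inf a (hy1 (hxy ha)) (hx2 ha)
      · exact fq_mono (inf_le_inf_right _ hxy)
  have hcoc : Coc (Ain p N) (phi (DH L K N1) (fH L N K N2 πL) lW lD) :=
    phi_coc hlow hfSR hfmono hW hD
  -- vanishing on lists commuting with a mover
  have hvan : ∀ g, g ∉ N → 2 ≤ n → ∀ l, wk {E | E ∈ Ain p N ∧ ∀ x ∈ E, g * x = x * g} l →
      PhiL (DH L K N1) (fH L N K N2 πL) lW lD l = 0 := by
    intro g hg hn l
    induction l with
    | nil =>
      intro _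
      rw [PhiL, hlDlen [] (by simp; omega), zero_smul]
    | cons E l ih =>
      intro hl
      have hp := List.pairwise_cons.1 hl.1
      by_cases hE : E ∈ DH L K N1
      · rw [PhiL_cons_mem hE]
        -- inner parts are trivial
        have hbot : ∀ F ∈ Ain p N, F ∈ DH L K N1 → (∀ x ∈ F, g * x = x * g) →
            F ⊓ (L ⊔ K) = ⊥ := by
          intro F hF hFD hFg
          rw [eq_bot_iff, ← h.LK]
          intro x hx
          have hxL : x ∈ L := hFD.2 hx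
          refine Subgroup.mem_inf.2 ⟨hxL, ?_⟩
          rw [h.hK, Subgroup.mem_centralizer_iff]
          intro y hy
          rw [h.hN] at hg
          have h5 := h.comp.conj g hg y hy x hxL
          have h6 : g * x * g⁻¹ = x := by
            rw [hFg x (Subgroup.mem_inf.1 hx).1, mul_assoc, mul_inv_cancel, mul_one]
          rwa [h6] at h5
        have hEb := hbot E (hl.2 E (by simp)).1 hE (hl.2 E (by simp)).2
        have hsing : ∀ F ∈ l, F = E := by
          intro F hF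
          have hFE : F ≤ E := hp.1 F hF
          have hFA := (hl.2 F (by simp [hF])).1
          have hEA := (hl.2 E (by simp)).1
          refine le_antisymm hFE ?_
          obtain ⟨y, hy1⟩ := (Subgroup.ne_bot_iff_exists_ne_one).1 hFA.1.1
          have hyne : (y : G) ≠ 1 := fun hh => hy1 (Subtype.ext hh)
          have hnotLK : ∀ z ∈ E, z ≠ 1 → z ∉ L ⊔ K := by
            intro z hz hz1 hzLK
            apply hz1
            have : z ∈ E ⊓ (L ⊔ K) := ⟨hz, hzLK⟩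
            rwa [hEb, Subgroup.mem_bot] at this
          intro x hx
          by_cases hx1 : x = 1
          · rw [hx1]; exact one_mem _
          have h7 := t.hR1 E hEA y (hFE y.2) x hx (hnotLK _ (hFE y.2) hyne)
            (hnotLK x hx hx1)
          obtain ⟨i, l', hl', k, hk, hxe⟩ := h.dec (hEA.2 (hFE y.2)) (hEA.2 hx) h7
          have h8 : l' * k ∈ E ⊓ (L ⊔ K) := by
            refine Subgroup.mem_inf.2
              ⟨?_, mul_mem (Subgroup.mem_sup_left hl') (Subgroup.mem_sup_right hk)⟩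
            have : l' * k = ((y : G) ^ i)⁻¹ * x := by rw [hxe]; group
            rw [this]
            exact mul_mem (inv_mem (zpow_mem (hFE y.2) i)) hx
          rw [hEb, Subgroup.mem_bot] at h8
          rw [hxe, h8, mul_one]
          exact zpow_mem y.2 i
        rcases l with _ | ⟨F, l⟩
        · rw [hlDlen [E] (by simp; omega), zero_smul]
        · rw [hnD, zero_smul]
          intro hh
          have h9 := (List.pairwise_cons.1 hh).1 F (by simp)
          rw [hsing F (by simp)] at h9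
          exact lt_irrefl _ h9
      · rw [PhiL_cons_not hE, ih ⟨hp.2, fun F hF => hl.2 F (by simp [hF])⟩, LinearMap.zero_comp]
  refine detect_gen N (phi (DH L K N1) (fH L N K N2 πL) lW lD) hcoc ?_ ?_ (sh be al)
    (sh_mem_N (H1 := K) (H2 := L) h.KN h.LN (fun k hk l hl => (h.comm l hl k hk).symm)
      (Sp_mono st_wk hbe) (Sp_mono st_wk hal)) ?_ ?_
  · intro l hl hs
    rw [phi_single]
    exact PhiL_nrm (S := Ain p N) hnW hnD _ hl hs _
  · intro g hg hgp l hl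
    rcases hm with hm | hm
    · exact absurd (hm g hgp) hg
    · rw [phi_single, hvan g hg hm l hl, LinearMap.zero_apply]
  · rw [bd_sh, hbbe, hbal, map_zero, LinearMap.zero_apply, map_zero, add_zero]
  · have hfK : ∀ E ∈ Ain p K, fH L N K N2 πL E = fq N πL E := by
      intro E hE
      rw [fH, if_pos (hE.2.trans hK2)]
    rw [phi_shuffle (A := Ain p K) (B := Ain p L) ?_ ?_ ?_ hnW
        (Sp_mono (fun l hl => hl.2) hbe) (Sp_mono (fun l hl => hl.2) hal)]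
    · refine mul_ne_zero ?_ ?_
      · rw [mp_congr (g := fq N πL) (fun l (hl : st (Ain p K) l) a ha => hfK a (hl.2 a ha)) hbe]
        exact hlW
      · rw [hlD, LinearMap.comp_apply, pi_of_st hal]
        exact hlG
    · intro E hE hED
      apply hE.1.1
      rw [eq_bot_iff, ← h.LK]
      refine le_inf ?_ hE.2
      have := hED.2
      rwa [inf_eq_left.2 (hE.2.trans le_sup_right)] at this
    · intro E hE
      exact ⟨hE.2.trans hL1, inf_le_left.trans hE.2⟩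
    · intro E hE F hF
      have h1 : E ⊔ F ≤ L ⊔ K := sup_le (hE.2.trans le_sup_right) (hF.2.trans le_sup_left)
      refine ⟨?_, ?_⟩
      · intro hh
        have h2 := hh.2
        rw [inf_eq_left.2 h1] at h2
        apply hE.1.1
        rw [eq_bot_iff, ← h.LK]
        exact le_inf (le_sup_left.trans h2) hE.2
      · rw [hfK E hE, fH, if_pos (h1.trans t.LK2)]
        exact fq_sup h.hπL (hE.2.trans h.KN) (hF.2.trans h.LN) hF.2

end Vale.Agent.P240.K
end

section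

namespace Vale.Agent.P240.K

open Finsupp Subgroup

variable {𝕜 : Type*} [Field 𝕜]

variable {G Q R : Type*} [Group G] [Group Q] [Group R] {p : ℕ}
variable {L N K N1 N2 : Subgroup G} {πK : N →* Q} {πL : N →* R}

/-- one family of terms of the glued cycle -/
lemma glue_term [Fact p.Prime] [Finite G] (h : Ctx p L N K πK πL) (hK1 : L ⊔ K ≤ N1)
    (hcyc : ∀ x ∈ N1, x ∉ L ⊔ K → ∀ y ∈ N1, y ∈ zpowers x ⊔ (L ⊔ K)) (hN1 : N1 ≤ N)
    {lW : Ch 𝕜 (Subgroup Q) →ₗ[𝕜] 𝕜} {lD : Ch 𝕜 (Subgroup G) →ₗ[𝕜] 𝕜} (hnW : Nrm lW)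
    {om : Ch 𝕜 (Subgroup Q)} (hom : om ∈ Sp 𝕜 (st (Ain p (Gam N πK N1))))
    {v : Ch 𝕜 (Subgroup Q)} (hv : bd om = v)
    (hvin : v ∈ Sp 𝕜 (fun l : List (Subgroup Q) => ∀ E ∈ l, ∀ n : N, πK n ∈ E → (n : G) ∈ L ⊔ K))
    {X : Subgroup R} (hX : X ∈ SRof L N πL (Ain p N1)) (hkX : kap N K πL X = ⊥)
    {e : Ch 𝕜 (Subgroup G)}
    (he : e ∈ Sp 𝕜 (wk (Ain p (K ⊓ centralizer ((pb N πL X : Subgroup G) : Set G)))))
    (hbe : bd e = 0) :
    sh (mp (sig N πK πL X) om) e ∈ Sp 𝕜 (wk (Ain p N)) ∧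
    bd (sh (mp (sig N πK πL X) om) e) = sh (mp (sig N πK πL ⊥) v) e ∧
    phN N K πK lW lD (sh (mp (sig N πK πL X) om) e) = lW om * lD e := by
  obtain ⟨E', hE', hE'L, hE'X⟩ := hX
  have hE'N : E' ∈ Ain p N := ⟨hE'.1, hE'.2.trans hN1⟩
  obtain ⟨x, hx, hxL⟩ := Set.not_subset.1 hE'L
  have hxLK : x ∉ L ⊔ K := fun hh => hxL (h.ELK hE'N (by rw [hE'X]; exact hkX) x hx hh)
  have hxN1 : x ∈ N1 := hE'.2 hx
  set x' : N := ⟨x, hE'N.2 hx⟩ with hx'
  have hx'X : πL x' ∈ X := by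
    rw [← hE'X]
    exact mem_fq.2 ⟨x', hx, rfl⟩
  have hl : ∀ E ∈ Ain p (Gam N πK N1), ∀ n : N, πK n ∈ E →
      (n : G) ∈ zpowers (x' : G) ⊔ (L ⊔ K) := fun E hE n hn =>
    hcyc x hxN1 hxLK n ((mem_Gam h (le_sup_right.trans hK1)).1 (hE.2 hn))
  have hsx : mp (sig N πK πL X) om ∈ Sp 𝕜 (wk (Ain p (pb N πL X))) :=
    mp_mem (wk_map (fun E hE => h.lift_mem hx'X hkX hE.1 (hl E hE))
      fun E _ F _ hh => sig_mono hh) (Sp_mono st_wk hom)
  have hfx : mp (fq N πK) (mp (sig N πK πL X) om) = om := by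
    rw [mp_mp]
    exact mp_eq_self (fun l hl' E hE => h.lift_fq hx'X (hl E (hl'.2 E hE))) hom
  have h12 : ∀ a ∈ pb N πL X, ∀ b ∈ K ⊓ centralizer ((pb N πL X : Subgroup G) : Set G),
      a * b = b * a := fun a ha b hb => (Subgroup.mem_centralizer_iff.1 hb.2) a ha
  refine ⟨sh_mem_N pb_le (inf_le_left.trans h.KN) h12 hsx he, ?_, ?_⟩
  · rw [bd_sh, bd_mp, hv, hbe, map_zero, add_zero]
    congr 2
    exact mp_congr (fun l hl' E hE => sig_eq h hkX (hl' E hE)) hvin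
  · rw [phN_sh h.hπK h.KN hnW pb_le inf_le_left hkX hsx he, hfx]

/-- Detection of a glued cycle. -/
lemma glue [Fact p.Prime] [Finite G] (h : Ctx p L N K πK πL) (t : Two p L N K N1 N2)
    {V : Submodule 𝕜 (Ch 𝕜 (Subgroup G))}
    (hV : ∀ g, g ∉ N → ∀ l, wk {E | E ∈ Ain p K ∧ ∀ x ∈ E, g * x = x * g} l →
        pi (single l (1 : 𝕜)) ∈ V)
    {be : Ch 𝕜 (Subgroup G)} (hbe : be ∈ Sp 𝕜 (st (Ain p K)))
    (hbeV : be ∉ Bst 𝕜 (Ain p K) ⊔ V)
    (hY1 : mp (fq N πL) be ∈ Bst 𝕜 (SRof L N πL (Ain p N1)))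
    (hY2 : mp (fq N πL) be ∈ Bst 𝕜 (SRof L N πL (Ain p N2)))
    (h3 : NA 𝕜 (ApS p Q)) : NA 𝕜 (ApS p G) := by
  classical
  have hK1 : K ≤ N1 := le_sup_right.trans t.LK1
  have hK2 : K ≤ N2 := le_sup_right.trans t.LK2
  -- homogeneous class of `Q`
  obtain ⟨n, om, homn, hom, hbom, hone⟩ : ∃ n, ∃ om : Ch 𝕜 (Subgroup Q),
      om ∈ Sp 𝕜 (fun l : List (Subgroup Q) => l.length = n) ∧ om ∈ Sp 𝕜 (st (ApS p Q)) ∧ bd om = 0 ∧
      om ∉ Bst 𝕜 (ApS p Q) := by
    obtain ⟨z, hz, hbz, hzn⟩ := h3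
    by_contra hcon
    push Not at hcon
    obtain ⟨M, hM⟩ := exists_len_bound z
    have h4 : z ∈ Bst 𝕜 (ApS p Q) := by
      rw [← sum_len M hM]
      refine Submodule.sum_mem _ fun n _ => ?_
      have h5 := len_mem (n := n) hz
      refine hcon n (len n z) (Sp_mono (fun l hl => hl.1) h5) (Sp_mono (fun l hl => hl.2) h5) ?_
      rcases n with _ | n
      · exact bd_len_zero _
      · rw [bd_len, hbz, map_zero]
    obtain ⟨c, hc, hcz⟩ := h4
    exact hzn c hc hcz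
  obtain ⟨om1, hom1, om2, hom2, hsum⟩ := Sp_or
    (P := fun l => l.length = n ∧ st (ApS p Q) l)
    (P1 := fun l => l.length = n ∧ st (Ain p (Gam N πK N1)) l)
    (P2 := fun l => l.length = n ∧ st (Ain p (Gam N πK N2)) l)
    (fun l hl => (t.st_or h l hl.2).imp (fun hh => ⟨hl.1, hh⟩) fun hh => ⟨hl.1, hh⟩)
    (mem_Sp_inf homn hom)
  have ho1 : om1 ∈ Sp 𝕜 (st (Ain p (Gam N πK N1))) := Sp_mono (fun l hl => hl.2) hom1
  have ho2 : om2 ∈ Sp 𝕜 (st (Ain p (Gam N πK N2))) := Sp_mono (fun l hl => hl.2) hom2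
  set v := bd om1 with hv
  have hv2 : bd om2 = -v := by
    have : bd om1 + bd om2 = 0 := by rw [← map_add, ← hsum, hbom]
    rw [hv]
    exact eq_neg_of_add_eq_zero_right this
  have hvb : v ∈ Sp 𝕜 (fun l => st (Ain p (Gam N πK N1)) l ∧ st (Ain p (Gam N πK N2)) l) := by
    refine mem_Sp_inf (bd_st ho1) ?_
    have : v = - bd om2 := by rw [hv2, neg_neg]
    rw [this]
    exact Submodule.neg_mem _ (bd_st ho2)
  have hvlen : v ∈ Sp 𝕜 (fun l : List (Subgroup Q) => l.length + 1 = n) :=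
    bd_len_mem (Sp_mono (fun l hl => hl.1) hom1)
  have hvin : v ∈ Sp 𝕜 (fun l : List (Subgroup Q) =>
      ∀ E ∈ l, ∀ n : N, πK n ∈ E → (n : G) ∈ L ⊔ K) :=
    Sp_mono (fun l hl E hE => inner_of h t (hl.1.2 E hE).2 (hl.2.2 E hE).2) hvb
  -- functionals
  obtain ⟨lD, hnD, hD, hDV, hlD⟩ := exists_cocycle (Ain p K) V be (by
    rw [pi_of_st hbe]; exact hbeV)
  obtain ⟨lW, hnW, hW, hlW, hlWlen⟩ := exists_cocycle_len (ApS p Q) ⊥ om n homn (by
    rw [pi_of_st hom, sup_bot_eq]; exact hone)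
  -- splittings of `be`
  obtain ⟨c1, hc1, s1, e1, hs1, he1, hb1⟩ := h.split t.hR1 (F := Ain p N1)
    (fun E hE => ⟨hE.1, hE.2.trans t.le1⟩) (fun E hE => ⟨hE.1, hE.2.trans hK1⟩) hbe hY1
  obtain ⟨c2, hc2, s2, e2, hs2, he2, hb2⟩ := h.split t.hR1 (F := Ain p N2)
    (fun E hE => ⟨hE.1, hE.2.trans t.le2⟩) (fun E hE => ⟨hE.1, hE.2.trans hK2⟩) hbe hY2
  have hT1 : ∀ X ∈ s1, _ := fun X hX => glue_term (lD := lD) h t.LK1 t.cyc1 t.le1 hnW ho1
    hv.symm hvin (hs1 X hX).1 (hs1 X hX).2 (he1 X hX).1 (he1 X hX).2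
  have hvin' : -v ∈ Sp 𝕜 (fun l : List (Subgroup Q) =>
      ∀ E ∈ l, ∀ n : N, πK n ∈ E → (n : G) ∈ L ⊔ K) := Submodule.neg_mem _ hvin
  have hT2 : ∀ X ∈ s2, _ := fun X hX => glue_term (lD := lD) h t.LK2 t.cyc2 t.le2 hnW ho2
    hv2 hvin' (hs2 X hX).1 (hs2 X hX).2 (he2 X hX).1 (he2 X hX).2
  set v' := mp (sig N πK πL ⊥) v with hv'
  have hv'L : v' ∈ Sp 𝕜 (wk (Ain p L)) := by
    refine mp_mem ?_ hvb
    intro l hl
    refine ⟨?_, ?_⟩
    · rw [List.pairwise_map]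
      exact hl.1.1.imp fun hEF => sig_mono hEF.le
    · intro E' hE'
      obtain ⟨E, hE, rfl⟩ := List.mem_map.1 hE'
      exact (sig_bot_spec h (hl.1.2 E hE).1 (inner_of h t (hl.1.2 E hE).2 (hl.2.2 E hE).2)).2
  have hbv' : bd v' = 0 := by rw [hv', bd_mp, hv, bd_bd, map_zero]
  have hLKc : ∀ a ∈ L, ∀ b ∈ K, a * b = b * a := h.comm
  have hsgv : sg v' ∈ Sp 𝕜 (wk (Ain p L)) := sg_mem hv'L
  have hcc : c2 - c1 ∈ Sp 𝕜 (wk (Ain p K)) := Submodule.sub_mem _ hc2 hc1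
  have hbcc : bd (c2 - c1) = ∑ X ∈ s1, e1 X - ∑ X ∈ s2, e2 X := by
    have h5 : bd c1 + ∑ X ∈ s1, e1 X = bd c2 + ∑ X ∈ s2, e2 X := by rw [← hb1, ← hb2]
    rw [map_sub]
    have h6 : bd c2 = bd c1 + ∑ X ∈ s1, e1 X - ∑ X ∈ s2, e2 X := by rw [h5]; abel
    rw [h6]; abel
  -- the glued cycle
  set W : Ch 𝕜 (Subgroup G) := ∑ X ∈ s1, sh (mp (sig N πK πL X) om1) (e1 X) +
    ∑ X ∈ s2, sh (mp (sig N πK πL X) om2) (e2 X) - sh (sg v') (c2 - c1) with hW'
  have hWm : W ∈ Sp 𝕜 (wk (Ain p N)) := by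
    refine Submodule.sub_mem _ (Submodule.add_mem _ (Submodule.sum_mem _ fun X hX => (hT1 X hX).1)
      (Submodule.sum_mem _ fun X hX => (hT2 X hX).1)) ?_
    exact sh_mem_N h.LN h.KN hLKc hsgv hcc
  have hWb : bd W = 0 := by
    rw [hW', map_sub, map_add, map_sum, map_sum,
      Finset.sum_congr rfl fun X hX => (hT1 X hX).2.1,
      Finset.sum_congr rfl fun X hX => (hT2 X hX).2.1, bd_sh, bd_sg, hbv', sg_sg, hbcc]
    simp only [map_neg, map_zero, LinearMap.zero_apply, neg_zero, map_sub, map_sum,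
      LinearMap.neg_apply, Finset.sum_neg_distrib, hv']
    abel
  refine detect_gen N (phN N K πK lW lD) (phN_coc h.hπK hW hD) (phN_nrm hnW hnD) ?_ W hWm hWb ?_
  · intro g hg _ l hl'
    exact phN_van (P := fun E => ∀ x ∈ E, g * x = x * g)
      (fun l hl => hDV _ (hV g hg l hl)) l hl'
  · rw [hW', map_sub, map_add, map_sum, map_sum,
      Finset.sum_congr rfl fun X hX => (hT1 X hX).2.2,
      Finset.sum_congr rfl fun X hX => (hT2 X hX).2.2,
      phN_sh h.hπK h.KN hnW h.LN le_rfl h.LK hsgv hcc]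
    have h7 : lW (mp (fq N πK) (sg v')) = 0 := by
      refine lam_of_len' (P := fun l : List (Subgroup Q) => l.length + 1 = n) hlWlen
        (fun l hl hh => by omega) ?_
      refine mp_mem (P := fun l : List (Subgroup G) => l.length + 1 = n)
        (fun l hl => by simpa using hl) ?_
      exact sg_mem (mp_mem (fun l hl => by simpa using hl) hvlen)
    rw [h7, zero_mul, sub_zero, ← Finset.mul_sum, ← Finset.mul_sum, ← map_sum, ← map_sum]
    have h8 : lD (∑ X ∈ s1, e1 X) = lD be := by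
      rw [hb1, map_add, hD c1 hc1, zero_add]
    have h9 : lD (∑ X ∈ s2, e2 X) = lD be := by
      rw [hb2, map_add, hD c2 hc2, zero_add]
    rw [h8, h9, ← add_mul, ← map_add, ← hsum]
    exact mul_ne_zero hlW hlD

end Vale.Agent.P240.K
end

section

namespace Vale.Agent.P240.K

open Finsupp Subgroup

variable {𝕜 : Type*} [Field 𝕜]

variable {G Q R : Type*} [Group G] [Group Q] [Group R] {p : ℕ}
variable {L N K N1 N2 : Subgroup G} {πK : N →* Q} {πL : N →* R}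

lemma Bst_map {α β : Type*} [PartialOrder α] [PartialOrder β] {S : Set α} {T : Set β}
    {f : α → β} (hT : ∀ x ∈ S, f x ∈ T) (hlt : ∀ x ∈ S, ∀ y ∈ S, x < y → f x < f y) {z : Ch 𝕜 α}
    (hz : z ∈ Bst 𝕜 S) : mp f z ∈ Bst 𝕜 T := by
  obtain ⟨c, hc, rfl⟩ := hz
  exact ⟨mp f c, mp_mem (st_map hT hlt) hc, bd_mp f c⟩

/-- non-homogeneous form of `hybrid` -/
lemma hybrid' [Fact p.Prime] [Finite G] (h : Ctx p L N K πK πL) (t : Two p L N K N1 N2)
    (hm : (∀ g : G, g ^ p = 1 → g ∈ N) ∨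
      ∀ z ∈ Sp 𝕜 (fun l : List (Subgroup G) => l.length = 1 ∧ st (Ain p L) l), bd z = 0 →
        z ∈ Bst 𝕜 (Ain p L))
    {al : Ch 𝕜 (Subgroup G)} (hal : al ∈ Sp 𝕜 (st (Ain p L))) (hbal : bd al = 0)
    (hane : mp (fq N πK) al ∉ Bst 𝕜 (Ain p (Gam N πK N1)))
    {be : Ch 𝕜 (Subgroup G)} (hbe : be ∈ Sp 𝕜 (st (Ain p K))) (hbbe : bd be = 0)
    (hben : mp (fq N πL) be ∉ Bst 𝕜 (SRof L N πL (Ain p N2))) : NA 𝕜 (ApS p G) := by
  have hK1 : K ≤ N1 := le_sup_right.trans t.LK1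
  have hL1 : L ≤ N1 := le_sup_left.trans t.LK1
  have hLQ : ∀ E ∈ Ain p L, fq N πK E ∈ Ain p (Gam N πK N1) := by
    intro E hE
    refine ⟨fq_mem_ApS h.hπK hE.1 (hE.2.trans h.LN) fun hh =>
      hE.1.1 (le_bot_iff.1 (h.LK ▸ le_inf hE.2 hh)), ?_⟩
    intro q hq
    obtain ⟨m, hm', rfl⟩ := mem_fq.1 hq
    exact (mem_Gam h hK1).2 (hL1 (hE.2 hm'))
  have hLst : ∀ B ∈ Ain p L, ∀ B' ∈ Ain p L, B < B' → fq N πK B < fq N πK B' := by
    intro B hB B' hB' hh
    refine lt_of_le_of_ne (fq_mono hh.le) fun he => hh.ne ?_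
    rw [← pb_fq h.hπK h.LN h.LK hB.2, ← pb_fq h.hπK h.LN h.LK hB'.2, he]
  obtain ⟨n, hn⟩ : ∃ n, mp (fq N πK) (len n al) ∉ Bst 𝕜 (Ain p (Gam N πK N1)) := by
    by_contra hcon
    push Not at hcon
    obtain ⟨M, hM⟩ := exists_len_bound al
    apply hane
    rw [← sum_len M hM, map_sum]
    exact Submodule.sum_mem _ fun n _ => hcon n
  have h5 := len_mem (n := n) hal
  have hbn : bd (len n al) = 0 := by
    rcases n with _ | n
    · exact bd_len_zero _
    · rw [bd_len, hbal, map_zero]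
  refine hybrid h t (n := n) ?_ (Sp_mono (fun l hl => hl.2) h5) (Sp_mono (fun l hl => hl.1) h5)
    hbn hn hbe hbbe hben
  refine hm.imp_right fun hm => ?_
  by_contra hlt
  apply hn
  refine Bst_map hLQ hLst ?_
  have h6 : n = 0 ∨ n = 1 := by omega
  rcases h6 with rfl | rfl
  · obtain ⟨F, hF, hFL⟩ := exists_ApS_le (G := G) h.comp.dvd
    refine map_mem (N := Bst 𝕜 (Ain p L)) LinearMap.id ?_ h5
    intro l hl
    have : l = [] := List.length_eq_zero_iff.1 hl.1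
    rw [this, LinearMap.id_apply]
    refine ⟨single [F] (1 : 𝕜), single_mem_Sp ⟨by simp, by simpa using ⟨hF, hFL⟩⟩ _, ?_⟩
    simp [bd_single_cons]
  · exact hm _ h5 hbn

/-- The elimination theorem with two types of outer subgroups of order `p`. -/
theorem two_core [Fact p.Prime] [Finite G] (h : Ctx p L N K πK πL) (t : Two p L N K N1 N2)
    (h1 : NA 𝕜 (Ain p L)) (h2 : NA 𝕜 (Ain p K)) (h3 : NA 𝕜 (ApS p Q))
    (h4 : NA 𝕜 (Ain p (Gam N πK N1))) (h5 : NA 𝕜 (Ain p (Gam N πK N2)))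
    (hm : (∀ g : G, g ^ p = 1 → g ∈ N) ∨
      ∀ z ∈ Sp 𝕜 (fun l : List (Subgroup G) => l.length = 1 ∧ st (Ain p L) l), bd z = 0 →
        z ∈ Bst 𝕜 (Ain p L)) : NA 𝕜 (ApS p G) := by
  classical
  by_contra hG
  have hK1 : K ≤ N1 := le_sup_right.trans t.LK1
  have hK2 : K ≤ N2 := le_sup_right.trans t.LK2
  obtain ⟨V, hV, hVz⟩ := h.exists_V (𝕜 := 𝕜)
  obtain ⟨be, hbe, hbbe, hben⟩ := h2
  have hbeV := hVz be hbe hbbe (by
    rintro ⟨c, hc, hcz⟩
    exact hben c hc hcz)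
  -- a summand outside
  have hsel : ∀ (c : Ch 𝕜 (Subgroup G)) (s : Finset (Subgroup R)) (e : Subgroup R → Ch 𝕜 (Subgroup G)),
      c ∈ Sp 𝕜 (wk (Ain p K)) → be = bd c + ∑ X ∈ s, e X →
      ∃ X ∈ s, pi (e X) ∉ Bst 𝕜 (Ain p K) ⊔ V := by
    intro c s e hc hb
    by_contra hcon
    push Not at hcon
    apply hbeV
    have h6 : be = bd (pi c) + ∑ X ∈ s, pi (e X) := by
      conv_lhs => rw [← pi_of_st hbe, hb]
      rw [map_add, map_sum, bd_pi hc]
    rw [h6]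
    refine Submodule.add_mem _ (Submodule.mem_sup_left ⟨_, pi_mem hc, rfl⟩) ?_
    exact Submodule.sum_mem _ fun X hX => hcon X hX
  -- type one or two for members of `N`
  have hSR1 : ∀ X ∈ SRof L N πL (Ain p N), kap N K πL X = ⊥ →
      (∀ E ∈ Ain p N, fq N πL E = X → E ≤ N1) ∨ (∀ E ∈ Ain p N, fq N πL E = X → E ≤ N2) := by
    rintro X ⟨E, hE, hEL, rfl⟩ hkX
    have haux : ∀ M : Subgroup G, L ≤ M → E ≤ M → ∀ E' ∈ Ain p N, fq N πL E' = fq N πL E →
        E' ≤ M := by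
      intro M hLM hEM E' hE' he x hx
      have h6 : πL ⟨x, hE'.2 hx⟩ ∈ fq N πL E := by
        rw [← he]
        exact mem_fq.2 ⟨⟨x, hE'.2 hx⟩, hx, rfl⟩
      obtain ⟨y, hy, hyx⟩ := mem_fq.1 h6
      have h7 : (((⟨x, hE'.2 hx⟩ : N) * y⁻¹ : N) : G) ∈ L := by
        rw [← h.hπL, map_mul, map_inv, hyx, mul_inv_cancel]
      have h8 : x = (((⟨x, hE'.2 hx⟩ : N) * y⁻¹ : N) : G) * y := by simp
      rw [h8]
      exact mul_mem (hLM h7) (hEM hy)
    rcases t.E_or hE with h6 | h6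
    · exact Or.inl (haux N1 (le_sup_left.trans t.LK1) h6)
    · exact Or.inr (haux N2 (le_sup_left.trans t.LK2) h6)
  have hsub1 : Ain p N1 ⊆ Ain p N := fun E hE => ⟨hE.1, hE.2.trans t.le1⟩
  have hsub2 : Ain p N2 ⊆ Ain p N := fun E hE => ⟨hE.1, hE.2.trans t.le2⟩
  have hty1 : ∀ X ∈ SRof L N πL (Ain p N1), ∀ E ∈ Ain p N, fq N πL E = X → E ≤ N1 := by
    rintro X ⟨E, hE, hEL, rfl⟩ E' hE' he x hx
    have h6 : πL ⟨x, hE'.2 hx⟩ ∈ fq N πL E := by
      rw [← he]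
      exact mem_fq.2 ⟨⟨x, hE'.2 hx⟩, hx, rfl⟩
    obtain ⟨y, hy, hyx⟩ := mem_fq.1 h6
    have h7 : (((⟨x, hE'.2 hx⟩ : N) * y⁻¹ : N) : G) ∈ L := by
      rw [← h.hπL, map_mul, map_inv, hyx, mul_inv_cancel]
    have h8 : x = (((⟨x, hE'.2 hx⟩ : N) * y⁻¹ : N) : G) * y := by simp
    rw [h8]
    exact mul_mem (t.LK1 (Subgroup.mem_sup_left h7)) (hE.2 hy)
  have hty2 : ∀ X ∈ SRof L N πL (Ain p N2), ∀ E ∈ Ain p N, fq N πL E = X → E ≤ N2 := by
    rintro X ⟨E, hE, hEL, rfl⟩ E' hE' he x hx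
    have h6 : πL ⟨x, hE'.2 hx⟩ ∈ fq N πL E := by
      rw [← he]
      exact mem_fq.2 ⟨⟨x, hE'.2 hx⟩, hx, rfl⟩
    obtain ⟨y, hy, hyx⟩ := mem_fq.1 h6
    have h7 : (((⟨x, hE'.2 hx⟩ : N) * y⁻¹ : N) : G) ∈ L := by
      rw [← h.hπL, map_mul, map_inv, hyx, mul_inv_cancel]
    have h8 : x = (((⟨x, hE'.2 hx⟩ : N) * y⁻¹ : N) : G) * y := by simp
    rw [h8]
    exact mul_mem (t.LK2 (Subgroup.mem_sup_left h7)) (hE.2 hy)
  have hSRsub : ∀ {F : Set (Subgroup G)}, F ⊆ Ain p N → SRof L N πL F ⊆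
      SRof L N πL (Ain p N) := by
    rintro F hF X ⟨E, hE, hEL, rfl⟩
    exact ⟨E, hF hE, hEL, rfl⟩
  -- the final detection in the simple cases
  have fin1 : (∀ al ∈ Sp 𝕜 (st (Ain p L)), bd al = 0 →
      mp (fq N πK) al ∈ Bst 𝕜 (Ain p (Gam N πK N1))) → ∀ X ∈ SRof L N πL (Ain p N),
      (∀ E ∈ Ain p N, fq N πL E = X → E ≤ N1) → kap N K πL X = ⊥ →
      ∀ e ∈ Sp 𝕜 (wk (Ain p (K ⊓ centralizer ((pb N πL X : Subgroup G) : Set G)))), bd e = 0 →
      pi e ∈ Bst 𝕜 (Ain p K) ⊔ V := by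
    intro hZ X hX hX1 hkX e he hbe'
    by_contra hen
    obtain ⟨om, hom, hbom, homn⟩ := om_exists h t hZ h4
    exact hG (d1 h t.LK1 t.cyc1 hV hom hbom homn hX hX1 hkX he hbe' hen)
  have fin2 : (∀ al ∈ Sp 𝕜 (st (Ain p L)), bd al = 0 →
      mp (fq N πK) al ∈ Bst 𝕜 (Ain p (Gam N πK N2))) → ∀ X ∈ SRof L N πL (Ain p N),
      (∀ E ∈ Ain p N, fq N πL E = X → E ≤ N2) → kap N K πL X = ⊥ →
      ∀ e ∈ Sp 𝕜 (wk (Ain p (K ⊓ centralizer ((pb N πL X : Subgroup G) : Set G)))), bd e = 0 →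
      pi e ∈ Bst 𝕜 (Ain p K) ⊔ V := by
    intro hZ X hX hX1 hkX e he hbe'
    by_contra hen
    obtain ⟨om, hom, hbom, homn⟩ := om_exists h t.symm hZ h5
    exact hG (d1 h t.LK2 t.cyc2 hV hom hbom homn hX hX1 hkX he hbe' hen)
  by_cases hZ1 : ∀ al ∈ Sp 𝕜 (st (Ain p L)), bd al = 0 →
      mp (fq N πK) al ∈ Bst 𝕜 (Ain p (Gam N πK N1))
  · by_cases hZ2 : ∀ al ∈ Sp 𝕜 (st (Ain p L)), bd al = 0 →
        mp (fq N πK) al ∈ Bst 𝕜 (Ain p (Gam N πK N2))
    · -- case alpha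
      have hb : mp (fq N πL) be ∈ Bst 𝕜 (SRof L N πL (Ain p N)) := by
        by_contra hcon
        exact hG (h.case_a h1 hbe hbbe hcon)
      obtain ⟨c, hc, s, e, hs, he, hbs⟩ := h.split t.hR1 (F := Ain p N) le_rfl
        (fun E hE => ⟨hE.1, hE.2.trans h.KN⟩) hbe hb
      obtain ⟨X, hX, hXV⟩ := hsel c s e hc hbs
      rcases hSR1 X (hs X hX).1 (hs X hX).2 with h6 | h6
      · exact hXV (fin1 hZ1 X (hs X hX).1 h6 (hs X hX).2 _ (he X hX).1 (he X hX).2)
      · exact hXV (fin2 hZ2 X (hs X hX).1 h6 (hs X hX).2 _ (he X hX).1 (he X hX).2)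
    · push Not at hZ2
      obtain ⟨al, hal, hbal, hane⟩ := hZ2
      -- case gamma
      have hY1 : mp (fq N πL) be ∈ Bst 𝕜 (SRof L N πL (Ain p N1)) := by
        by_contra hcon
        exact hG (hybrid' h t.symm hm hal hbal hane hbe hbbe hcon)
      obtain ⟨c, hc, s, e, hs, he, hbs⟩ := h.split t.hR1 (F := Ain p N1) hsub1
        (fun E hE => ⟨hE.1, hE.2.trans hK1⟩) hbe hY1
      obtain ⟨X, hX, hXV⟩ := hsel c s e hc hbs
      exact hXV (fin1 hZ1 X (hSRsub hsub1 (hs X hX).1) (hty1 X (hs X hX).1) (hs X hX).2 _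
        (he X hX).1 (he X hX).2)
  · push Not at hZ1
    obtain ⟨al, hal, hbal, hane⟩ := hZ1
    have hY2 : mp (fq N πL) be ∈ Bst 𝕜 (SRof L N πL (Ain p N2)) := by
      by_contra hcon
      exact hG (hybrid' h t hm hal hbal hane hbe hbbe hcon)
    by_cases hZ2 : ∀ al ∈ Sp 𝕜 (st (Ain p L)), bd al = 0 →
        mp (fq N πK) al ∈ Bst 𝕜 (Ain p (Gam N πK N2))
    · obtain ⟨c, hc, s, e, hs, he, hbs⟩ := h.split t.hR1 (F := Ain p N2) hsub2
        (fun E hE => ⟨hE.1, hE.2.trans hK2⟩) hbe hY2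
      obtain ⟨X, hX, hXV⟩ := hsel c s e hc hbs
      exact hXV (fin2 hZ2 X (hSRsub hsub2 (hs X hX).1) (hty2 X (hs X hX).1) (hs X hX).2 _
        (he X hX).1 (he X hX).2)
    · push Not at hZ2
      obtain ⟨al2, hal2, hbal2, hane2⟩ := hZ2
      have hY1 : mp (fq N πL) be ∈ Bst 𝕜 (SRof L N πL (Ain p N1)) := by
        by_contra hcon
        exact hG (hybrid' h t.symm hm hal2 hbal2 hane2 hbe hbbe hcon)
      exact hG (glue h t hV hbe hbeV hY1 hY2 h3)

end Vale.Agent.P240.K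
end

section

namespace Vale.Agent.P240.K

open Subgroup

variable {𝕜 : Type*} [Field 𝕜]

universe u

theorem elimination {p : ℕ} [Fact p.Prime] {G : Type u} [Group G] [Finite G]
    (L : Subgroup G) (hL : CompLike p L)
    (hout : ∀ x ∈ normalizer (L : Set G), ∀ y ∈ normalizer (L : Set G),
      x ^ p ∈ centralizer (L : Set G) → y ^ p ∈ centralizer (L : Set G) →
      x ∉ L ⊔ centralizer (L : Set G) → y ∉ L ⊔ centralizer (L : Set G) →
      y ∈ zpowers x ⊔ (L ⊔ centralizer (L : Set G)))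
    (h1 : HQ 𝕜 p L) (h2 : HQ 𝕜 p (centralizer (L : Set G)))
    (h3 : HQ 𝕜 p L.normalizerMonoidHom.range) : HQ 𝕜 p G := by
  rw [HQ_iff]
  refine elimination_core L hL (normalizer (L : Set G)) (centralizer (L : Set G)) rfl rfl
    L.normalizerMonoidHom.rangeRestrict ?_ L.normalizerMonoidHom.rangeRestrict_surjective hout
    ((HQ_sub_iff L).1 h1) ((HQ_sub_iff _).1 h2) (HQ_iff.1 h3)
  intro n
  rw [← MonoidHom.mem_ker, MonoidHom.ker_rangeRestrict, normalizerMonoidHom_ker,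
    Subgroup.mem_subgroupOf]

end Vale.Agent.P240.K
end

section

namespace Vale.Agent.P240.K

open Subgroup

variable {𝕜 : Type*} [Field 𝕜]

universe u

/-- `Oₚ(H) = 1` for a subgroup `H` of `G`, phrased with subgroups of `G`. -/
def OpIn {G : Type*} [Group G] (p : ℕ) (H : Subgroup G) : Prop :=
  ∀ Y : Subgroup G, Y ≤ H → (∀ h ∈ H, ∀ y ∈ Y, h * y * h⁻¹ ∈ Y) → IsPGroup p Y → Y = ⊥

section
variable {p : ℕ} {G : Type*} [Group G]

lemma opTrivial_of_opIn {H : Subgroup G} (h : OpIn p H) : OpTrivial p H := by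
  intro N hN hp
  have h1 : N.map H.subtype = ⊥ := by
    apply h _ (map_subtype_le N)
    · rintro a ha _ ⟨y, hy, rfl⟩
      exact ⟨⟨a, ha⟩ * y * ⟨a, ha⟩⁻¹, hN.conj_mem y hy ⟨a, ha⟩, by simp⟩
    · exact hp.map _
  exact (map_eq_bot_iff_of_injective _ H.subtype_injective).1 h1

lemma opIn_top (h : OpTrivial p G) : OpIn p (⊤ : Subgroup G) := by
  intro Y _ hn hp
  exact h Y ⟨fun y hy g => hn g (mem_top g) y hy⟩ hp

lemma le_normalizer_of_conj {Y H : Subgroup G} (hn : ∀ h ∈ H, ∀ y ∈ Y, h * y * h⁻¹ ∈ Y) :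
    H ≤ normalizer (Y : Set G) := by
  intro h hh n
  constructor
  · exact fun hy => hn h hh n hy
  · intro hy
    have := hn h⁻¹ (inv_mem hh) _ hy
    simpa [mul_assoc] using this

lemma OpIn.descend [Finite G] [Fact p.Prime] {M H : Subgroup G} (hHM : H ≤ M)
    (hn : ∀ m ∈ M, ∀ h ∈ H, m * h * m⁻¹ ∈ H) (hM : OpIn p M) : OpIn p H := by
  intro Y hYH hYn hYp
  let S : Set (Subgroup G) :=
    {Z | Z ≤ H ∧ (∀ h ∈ H, ∀ y ∈ Z, h * y * h⁻¹ ∈ Z) ∧ IsPGroup p Z}
  have hfin : S.Finite := Set.toFinite S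
  obtain ⟨Z, hYZ, hZ⟩ := hfin.exists_le_maximal (a := Y) ⟨hYH, hYn, hYp⟩
  have hsup : ∀ W ∈ S, W ≤ Z := by
    intro W hW
    have hmem : Z ⊔ W ∈ S := by
      refine ⟨sup_le hZ.prop.1 hW.1, ?_, ?_⟩
      · intro h hh y hy
        have h1 : H ≤ normalizer (Z : Set G) := le_normalizer_of_conj hZ.prop.2.1
        have h2 : H ≤ normalizer (W : Set G) := le_normalizer_of_conj hW.2.1
        have key : ((Z ⊔ W).map (MulAut.conj h).toMonoidHom) ≤ Z ⊔ W := by
          rw [Subgroup.map_sup]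
          apply sup_le_sup
          · rintro _ ⟨z, hz, rfl⟩
            exact hZ.prop.2.1 h hh z hz
          · rintro _ ⟨z, hz, rfl⟩
            exact hW.2.1 h hh z hz
        exact key ⟨y, hy, rfl⟩
      · exact hZ.prop.2.2.to_sup_of_normal_right' hW.2.2
          (hZ.prop.1.trans (le_normalizer_of_conj hW.2.1))
    exact le_trans le_sup_right (hZ.le_of_ge hmem le_sup_left)
  have hZbot : Z = ⊥ := by
    apply hM Z (hZ.prop.1.trans hHM) _ hZ.prop.2.2
    intro m hm y hy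
    have hmem : Z.map (MulAut.conj m).toMonoidHom ∈ S := by
      refine ⟨?_, ?_, hZ.prop.2.2.map _⟩
      · rintro _ ⟨z, hz, rfl⟩
        exact hn m hm z (hZ.prop.1 hz)
      · rintro h hh _ ⟨z, hz, rfl⟩
        refine ⟨(m⁻¹ * h * m) * z * (m⁻¹ * h * m)⁻¹, ?_, ?_⟩
        · apply hZ.prop.2.1 _ _ z hz
          have := hn m⁻¹ (inv_mem hm) h hh
          simpa using this
        · simp [mul_assoc]
    exact hsup _ hmem ⟨y, hy, rfl⟩
  rw [eq_bot_iff, ← hZbot]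
  exact hYZ

end

section
variable {p : ℕ} [hp : Fact p.Prime] {G : Type u} [Group G] [Finite G] {L : Subgroup G}

omit hp [Finite G] in
/-- the other conjugates of `L` lie in the centralizer -/
lemma CompLike.conj_le (hL : CompLike p L) {g : G} (hg : g ∉ normalizer (L : Set G)) {y : G}
    (hy : y ∈ L) : g * y * g⁻¹ ∈ centralizer (L : Set G) := by
  rw [mem_centralizer_iff]
  intro x hx
  exact hL.conj g hg x hx y hy

omit hp [Finite G] in
lemma CompLike.normalClosure_le (hL : CompLike p L) :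
    normalClosure (L : Set G) ≤ L ⊔ (centralizer (L : Set G) ⊓ normalClosure (L : Set G)) := by
  rw [normalClosure, closure_le]
  intro z hz
  rw [Group.mem_conjugatesOfSet_iff] at hz
  obtain ⟨y, hy, g, rfl⟩ := by simpa [isConj_iff] using hz
  have hM : g * y * g⁻¹ ∈ normalClosure (L : Set G) :=
    normalClosure_normal.conj_mem _ (subset_normalClosure hy) g
  by_cases hg : g ∈ normalizer (L : Set G)
  · exact mem_sup_left ((hg y).1 hy)
  · exact mem_sup_right ⟨hL.conj_le hg hy, hM⟩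

omit hp [Finite G] in
lemma CompLike.conjM_mem (hL : CompLike p L) {m : G} (hm : m ∈ normalClosure (L : Set G)) :
    m ∈ normalizer (L : Set G) := by
  have h := hL.normalClosure_le hm
  exact (sup_le le_normalizer (inf_le_left.trans (centralizer_le_normalizer _))) h

omit hp [Finite G] in
lemma conj_mem_centralizer {m k : G} (hm : m ∈ normalizer (L : Set G))
    (hk : k ∈ centralizer (L : Set G)) : m * k * m⁻¹ ∈ centralizer (L : Set G) := by
  rw [mem_centralizer_iff] at hk ⊢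
  intro x hx
  have h1 : m⁻¹ * x * m ∈ (L : Set G) := ((mem_normalizer_iff''.1 hm) x).1 hx
  have h2 := hk _ h1
  calc x * (m * k * m⁻¹) = m * ((m⁻¹ * x * m) * k) * m⁻¹ := by group
    _ = m * (k * (m⁻¹ * x * m)) * m⁻¹ := by rw [h2]
    _ = m * k * m⁻¹ * x := by group

omit hp [Finite G] in
lemma CompLike.L_ne_bot (hp1 : p ≠ 1) (hL : CompLike p L) : L ≠ ⊥ := by
  rintro rfl
  have := hL.dvd
  simp at this
  exact hp1 this

lemma CompLike.opIn_L (hO : OpTrivial p G) (hL : CompLike p L) : OpIn p L := by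
  have hM : OpIn p (normalClosure (L : Set G)) :=
    OpIn.descend le_top (fun m _ h hh => normalClosure_normal.conj_mem _ hh m) (opIn_top hO)
  apply OpIn.descend (M := normalClosure (L : Set G)) subset_normalClosure _ hM
  intro m hm h hh
  exact ((hL.conjM_mem hm) h).1 hh

lemma CompLike.opIn_K (hO : OpTrivial p G) (hL : CompLike p L) :
    OpIn p (centralizer (L : Set G)) := by
  set M := normalClosure (L : Set G) with hMdef
  set K := centralizer (L : Set G) with hKdef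
  have hMn : M.Normal := normalClosure_normal
  have hM : OpIn p M :=
    OpIn.descend le_top (fun m _ h hh => hMn.conj_mem _ hh m) (opIn_top hO)
  have hLM : (L : Set G) ⊆ M := subset_normalClosure
  have hKM : OpIn p (K ⊓ M) := by
    apply OpIn.descend (M := M) inf_le_right _ hM
    intro m hm h hh
    exact ⟨conj_mem_centralizer (hL.conjM_mem hm) hh.1, hMn.conj_mem _ hh.2 m⟩
  intro Y hYK hYn hYp
  -- `Y ⊓ M = ⊥`
  have hYM : Y ⊓ M = ⊥ := by
    apply hKM (Y ⊓ M) (inf_le_inf_right M hYK)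
    · intro h hh y hy
      exact ⟨hYn h hh.1 y hy.1, hMn.conj_mem _ hy.2 h⟩
    · exact hYp.to_le inf_le_left
  have hYC : Y ≤ centralizer (M : Set G) := by
    rw [← le_centralizer_iff]
    have h1 : M ≤ L ⊔ (K ⊓ M) := hL.normalClosure_le
    refine h1.trans (sup_le ?_ ?_)
    · rw [le_centralizer_iff]
      exact hYK
    · intro k hk
      rw [mem_centralizer_iff]
      intro y hy
      have h2 : y * k * y⁻¹ * k⁻¹ ∈ Y ⊓ M := by
        refine ⟨?_, ?_⟩
        · have := hYn k hk.1 y⁻¹ (inv_mem hy)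
          have h3 := mul_mem hy this
          simpa [mul_assoc] using h3
        · exact M.mul_mem (hMn.conj_mem _ hk.2 y) (M.inv_mem hk.2)
      rw [hYM, mem_bot] at h2
      have h3 : y * k * y⁻¹ = k := by
        have := mul_inv_eq_one.1 h2
        exact this
      calc y * k = (y * k * y⁻¹) * y := by group
        _ = k * y := by rw [h3]
  have hCn : (centralizer (M : Set G)).Normal := inferInstance
  have hCK : centralizer (M : Set G) ≤ K := centralizer_le hLM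
  have hC : OpIn p (centralizer (M : Set G)) :=
    OpIn.descend le_top (fun m _ h hh => hCn.conj_mem _ hh m) (opIn_top hO)
  exact hC Y hYC (fun h hh y hy => hYn h (hCK hh) y hy) hYp

omit hp in
lemma CompLike.card_L_lt (hL : CompLike p L) (hC : centralizer (L : Set G) ≠ ⊥) :
    Nat.card L < Nat.card G := by
  refine lt_of_le_of_ne (card_le_card_group L) ?_
  intro h
  have h1 : L = ⊤ := (card_eq_iff_eq_top L).1 h
  apply hC
  have h2 := hL.centre
  rw [h1] at h2 ⊢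
  simpa using h2

lemma CompLike.card_K_lt (hL : CompLike p L) :
    Nat.card (centralizer (L : Set G)) < Nat.card G := by
  refine lt_of_le_of_ne (card_le_card_group _) ?_
  intro h
  have h1 : centralizer (L : Set G) = ⊤ := (card_eq_iff_eq_top _).1 h
  have h2 := hL.centre
  rw [h1] at h2
  exact hL.L_ne_bot hp.out.ne_one (by simpa using h2)

omit hp in
lemma card_range_lt (hC : centralizer (L : Set G) ≠ ⊥) :
    Nat.card L.normalizerMonoidHom.range < Nat.card G := by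
  have h1 : Nat.card L.normalizerMonoidHom.range * Nat.card (centralizer (L : Set G))
      = Nat.card (normalizer (L : Set G)) := by
    have h2 := Subgroup.card_eq_card_quotient_mul_card_subgroup L.normalizerMonoidHom.ker
    have h3 : Nat.card L.normalizerMonoidHom.ker = Nat.card (centralizer (L : Set G)) := by
      rw [normalizerMonoidHom_ker]
      exact Nat.card_congr (subgroupOfEquivOfLe (centralizer_le_normalizer _)).toEquiv
    have h4 : Nat.card (normalizer (L : Set G) ⧸ L.normalizerMonoidHom.ker)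
        = Nat.card L.normalizerMonoidHom.range :=
      Nat.card_congr (QuotientGroup.quotientKerEquivRange _).toEquiv
    rw [h2, h3, h4]
  have h5 : Nat.card (normalizer (L : Set G)) ≤ Nat.card G := card_le_card_group _
  have h6 : 1 < Nat.card (centralizer (L : Set G)) := (one_lt_card_iff_ne_bot _).2 hC
  have h7 : 0 < Nat.card L.normalizerMonoidHom.range := Nat.card_pos
  nlinarith

lemma CompLike.opTrivial_range (hO : OpTrivial p G) (hL : CompLike p L) :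
    OpTrivial p L.normalizerMonoidHom.range := by
  have hLo : OpTrivial p L := opTrivial_of_opIn (hL.opIn_L hO)
  intro N hN hNp
  -- `ι : L → Γ`
  let ι : L →* L.normalizerMonoidHom.range :=
    (L.normalizerMonoidHom.rangeRestrict).comp (inclusion le_normalizer)
  have hι : ∀ (l x : L), (((ι l : L.normalizerMonoidHom.range) : MulAut L) x : G)
      = l * x * (l : G)⁻¹ := by
    intro l x
    rfl
  have hιinj : Function.Injective ι := by
    rw [injective_iff_map_eq_one]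
    intro l hl
    have h1 : (l : G) ∈ centralizer (L : Set G) := by
      rw [mem_centralizer_iff]
      intro x hx
      have h2 := hι l ⟨x, hx⟩
      rw [hl] at h2
      have h3 : (x : G) = l * x * (l : G)⁻¹ := h2
      calc x * (l : G) = (l * x * (l : G)⁻¹) * l := by rw [← h3]
        _ = l * x := by group
    have h4 : (l : G) ∈ L ⊓ centralizer (L : Set G) := ⟨l.2, h1⟩
    rw [hL.centre, mem_bot] at h4
    exact Subtype.ext h4
  have hconj : ∀ (φ : L.normalizerMonoidHom.range) (l : L),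
      φ * ι l * φ⁻¹ = ι ((φ : MulAut L) l) := by
    intro φ l
    apply Subtype.ext
    apply MulEquiv.ext
    intro x
    apply Subtype.ext
    rw [hι]
    have h1 : ((φ * ι l * φ⁻¹ : L.normalizerMonoidHom.range) : MulAut L) x
        = (φ : MulAut L) (((ι l : L.normalizerMonoidHom.range) : MulAut L)
          ((φ : MulAut L)⁻¹ x)) := rfl
    rw [h1]
    have h2 : ((ι l : L.normalizerMonoidHom.range) : MulAut L) ((φ : MulAut L)⁻¹ x)
        = l * ((φ : MulAut L)⁻¹ x) * l⁻¹ := by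
      apply Subtype.ext
      rw [hι]
      simp
    rw [h2, map_mul, map_mul, map_inv]
    simp
  have hcomap : N.comap ι = ⊥ := by
    apply hLo _ (hN.comap ι)
    exact hNp.comap_of_injective ι hιinj
  rw [eq_bot_iff]
  intro φ hφ
  rw [mem_bot]
  apply Subtype.ext
  apply MulEquiv.ext
  intro l
  have h1 : φ * ι l * φ⁻¹ * (ι l)⁻¹ ∈ N := by
    have := N.mul_mem hφ (hN.conj_mem _ (N.inv_mem hφ) (ι l))
    simpa [mul_assoc] using this
  rw [hconj, ← map_inv, ← map_mul] at h1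
  have h2 : (φ : MulAut L) l * l⁻¹ ∈ N.comap ι := h1
  rw [hcomap, mem_bot, mul_inv_eq_one] at h2
  simpa using h2

/-- In a minimal counterexample to the homological form of Quillen's conjecture, every
component-like subgroup with nontrivial centralizer has at least two distinct outer subgroups
of order `p`. -/
theorem minimal (hO : OpTrivial p G) (hG : ¬ HQ 𝕜 p G)
    (hmin : ∀ (H : Type u) [Group H] [Finite H], Nat.card H < Nat.card G →
      OpTrivial p H → HQ 𝕜 p H)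
    (L : Subgroup G) (hL : CompLike p L) (hC : centralizer (L : Set G) ≠ ⊥) :
    ∃ x ∈ normalizer (L : Set G), ∃ y ∈ normalizer (L : Set G),
      x ^ p ∈ centralizer (L : Set G) ∧ y ^ p ∈ centralizer (L : Set G) ∧
      x ∉ L ⊔ centralizer (L : Set G) ∧ y ∉ L ⊔ centralizer (L : Set G) ∧
      y ∉ zpowers x ⊔ (L ⊔ centralizer (L : Set G)) := by
  by_contra hcon
  apply hG
  apply elimination L hL
  · intro x hx y hy hxp hyp hxL hyL
    by_contra hxy
    exact hcon ⟨x, hx, y, hy, hxp, hyp, hxL, hyL, hxy⟩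
  · exact hmin _ (hL.card_L_lt hC) (opTrivial_of_opIn (hL.opIn_L hO))
  · exact hmin _ hL.card_K_lt (opTrivial_of_opIn (hL.opIn_K hO))
  · exact hmin _ (card_range_lt hC) (hL.opTrivial_range hO)

end

end Vale.Agent.P240.K
end

section

namespace Vale.Agent.P240.K

open Finsupp Subgroup

variable {𝕜 : Type*} [Field 𝕜]

universe u

/-! ### From a third-type-free configuration to `Two` -/

section
variable {G : Type*} [Group G] {p : ℕ}

lemma cyc_of_pow [Fact p.Prime] {N W : Subgroup G} (hW : W ≤ N) [hn : (W.subgroupOf N).Normal]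
    {x1 : G} (hx1 : x1 ∈ N) (hp : x1 ^ p ∈ W) :
    ∀ x ∈ zpowers x1 ⊔ W, x ∉ W → ∀ y ∈ zpowers x1 ⊔ W, y ∈ zpowers x ⊔ W := by
  intro x hx hxW y hy
  have key : ∃ i : ℤ, ∃ w ∈ W, x = x1 ^ i * w := by
    have hxN : x ∈ N := (sup_le (by rw [Subgroup.zpowers_le]; exact hx1) hW) hx
    have h1 : (⟨x, hxN⟩ : N) ∈ (zpowers x1 ⊔ W).subgroupOf N := by
      rw [Subgroup.mem_subgroupOf]; exact hx
    rw [Subgroup.subgroupOf_sup (by rw [Subgroup.zpowers_le]; exact hx1) hW,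
      Subgroup.mem_sup_of_normal_right] at h1
    obtain ⟨a, ha, b, hb, hab⟩ := h1
    rw [Subgroup.mem_subgroupOf] at ha hb
    obtain ⟨i, hi⟩ := ha
    refine ⟨i, b, hb, ?_⟩
    have := congrArg Subtype.val hab
    simp only [Subgroup.coe_mul] at this
    rw [← this, ← hi]
  obtain ⟨i, w, hw, hxe⟩ := key
  have hpp : Prime (p : ℤ) := Nat.prime_iff_prime_int.1 (Fact.out : p.Prime)
  have hi : ¬ (p : ℤ) ∣ i := by
    rintro ⟨j, rfl⟩
    apply hxW
    rw [hxe, zpow_mul, zpow_natCast]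
    exact mul_mem (zpow_mem hp j) hw
  have hco : IsCoprime i (p : ℤ) := ((Prime.coprime_iff_not_dvd hpp).2 hi).symm
  obtain ⟨a, b, hab⟩ := hco
  have h2 : x1 ^ i ∈ zpowers x ⊔ W := by
    have : x1 ^ i = x * w⁻¹ := by rw [hxe]; group
    rw [this]
    exact mul_mem (Subgroup.mem_sup_left (mem_zpowers x)) (Subgroup.mem_sup_right (inv_mem hw))
  have h3 : x1 ∈ zpowers x ⊔ W := by
    have : x1 = (x1 ^ i) ^ a * (x1 ^ p) ^ b := by
      rw [← zpow_mul, ← zpow_natCast x1 p, ← zpow_mul, ← zpow_add, mul_comm i a, mul_comm (p : ℤ) b,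
        hab, zpow_one]
    rw [this]
    exact mul_mem (zpow_mem h2 a) (Subgroup.mem_sup_right (zpow_mem hp b))
  have hle : zpowers x1 ⊔ W ≤ zpowers x ⊔ W :=
    sup_le (by rw [Subgroup.zpowers_le]; exact h3) le_sup_right
  exact hle hy

lemma two_of [Fact p.Prime] {L N K : Subgroup G} (hLN : L ≤ N) (hKN : K ≤ N)
    [hLn : (L.subgroupOf N).Normal] [hKn : (K.subgroupOf N).Normal] {x1 x2 : G}
    (hx1 : x1 ∈ N) (hx2 : x2 ∈ N) (hp1 : x1 ^ p ∈ K) (hp2 : x2 ^ p ∈ K)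
    (h21 : x2 ∉ zpowers x1 ⊔ (L ⊔ K))
    (hcov : ∀ x ∈ N, x ^ p ∈ K → x ∉ L ⊔ K → x ∈ zpowers x1 ⊔ (L ⊔ K) ∨
      x ∈ zpowers x2 ⊔ (L ⊔ K)) :
    Two p L N K (zpowers x1 ⊔ (L ⊔ K)) (zpowers x2 ⊔ (L ⊔ K)) := by
  have hn : ((L ⊔ K).subgroupOf N).Normal := by
    rw [Subgroup.subgroupOf_sup hLN hKN]
    exact Subgroup.sup_normal _ _
  have hW : L ⊔ K ≤ N := sup_le hLN hKN
  have c1 := cyc_of_pow hW hx1 (Subgroup.mem_sup_right (S := L) hp1)
  have c2 := cyc_of_pow hW hx2 (Subgroup.mem_sup_right (S := L) hp2)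
  refine ⟨sup_le (by rw [Subgroup.zpowers_le]; exact hx1) hW,
    sup_le (by rw [Subgroup.zpowers_le]; exact hx2) hW, le_sup_right, le_sup_right, ?_, c1, c2, ?_⟩
  · intro x h1 h2
    by_contra hx
    apply h21
    have h3 : x2 ∈ zpowers x ⊔ (L ⊔ K) := c2 x h2 hx x2 (Subgroup.mem_sup_left (mem_zpowers x2))
    have hle : zpowers x ⊔ (L ⊔ K) ≤ zpowers x1 ⊔ (L ⊔ K) :=
      sup_le (by rw [Subgroup.zpowers_le]; exact h1) le_sup_right
    exact hle h3
  · intro x hx hxp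
    by_cases hxLK : x ∈ L ⊔ K
    · exact Or.inl (Subgroup.mem_sup_right hxLK)
    · exact hcov x hx hxp hxLK

end

/-! ### Groups of automorphisms -/

lemma opTrivial_of_aut {A L : Type*} [Group A] [Group L] {p : ℕ} (hL : OpTrivial p L)
    (j : A →* MulAut L) (hj : Function.Injective j) (i : L →* A)
    (hi : Function.Injective i) (hij : ∀ l x : L, j (i l) x = l * x * l⁻¹) : OpTrivial p A := by
  intro N hN hNp
  have hconj : ∀ (φ : A) (l : L), φ * i l * φ⁻¹ = i (j φ l) := by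
    intro φ l
    apply hj
    apply MulEquiv.ext
    intro x
    rw [map_mul, map_mul, map_inv, hij]
    change j φ (j (i l) ((j φ)⁻¹ x)) = _
    rw [hij, map_mul, map_mul, map_inv]
    have : j φ ((j φ)⁻¹ x) = x := by
      change ((j φ) * (j φ)⁻¹) x = x
      rw [mul_inv_cancel]; rfl
    rw [this]
  have hcomap : N.comap i = ⊥ := hL _ (hN.comap i) (hNp.comap_of_injective i hi)
  rw [eq_bot_iff]
  intro φ hφ
  rw [Subgroup.mem_bot]
  apply hj
  rw [map_one]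
  apply MulEquiv.ext
  intro l
  have h1 : φ * i l * φ⁻¹ * (i l)⁻¹ ∈ N := by
    have := N.mul_mem hφ (hN.conj_mem _ (N.inv_mem hφ) (i l))
    simpa [mul_assoc] using this
  rw [hconj, ← map_inv, ← map_mul] at h1
  have h2 : j φ l * l⁻¹ ∈ N.comap i := h1
  rw [hcomap, Subgroup.mem_bot, mul_inv_eq_one] at h2
  simpa using h2

/-! ### Connectedness -/

lemma conn_h0 {G : Type*} [Group G] [Finite G] {p : ℕ} [Fact p.Prime] {L : Subgroup G}
    (hc : ∀ A B : Ap p L, Relation.ReflTransGen (fun X Y => X ≤ Y ∨ Y ≤ X) A B) :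
    ∀ z ∈ Sp 𝕜 (fun l : List (Subgroup G) => l.length = 1 ∧ st (Ain p L) l), bd z = 0 →
        z ∈ Bst 𝕜 (Ain p L) := by
  classical
  intro z hz hbz
  by_cases hne : ∃ F : Subgroup G, F ∈ Ain p L
  · obtain ⟨F, hF⟩ := hne
    have hsub : ∀ A : Ap p L, A.1.map L.subtype ∈ Ain p L := by
      rintro ⟨A, h1, h2, h3⟩
      refine ⟨⟨?_, ?_, ?_⟩, Subgroup.map_subtype_le A⟩
      · intro h
        exact h1 ((Subgroup.map_eq_bot_iff_of_injective _ L.subtype_injective).1 h)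
      · rintro _ ⟨x, hx, rfl⟩ _ ⟨y, hy, rfl⟩
        rw [← map_mul, ← map_mul, h2 x hx y hy]
      · rintro _ ⟨x, hx, rfl⟩
        rw [← map_pow, h3 x hx, map_one]
    have hlift : ∀ E ∈ Ain p L, ∃ A : Ap p L, A.1.map L.subtype = E := by
      rintro E ⟨⟨h1, h2, h3⟩, h4⟩
      refine ⟨⟨E.subgroupOf L, ?_, ?_, ?_⟩, Subgroup.map_subgroupOf_eq_of_le h4⟩
      · intro h
        apply h1
        rw [Subgroup.subgroupOf_eq_bot] at h
        exact disjoint_self.1 (h.mono_right h4)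
      · intro x hx y hy
        rw [Subgroup.mem_subgroupOf] at hx hy
        exact Subtype.ext (h2 _ hx _ hy)
      · intro x hx
        rw [Subgroup.mem_subgroupOf] at hx
        exact Subtype.ext (h3 _ hx)
    have hadj : ∀ A B : Ap p L, A ≤ B →
        single [B.1.map L.subtype] (1 : 𝕜) - single [A.1.map L.subtype] 1 ∈ Bst 𝕜 (Ain p L) := by
      intro A B hAB
      have hle : A.1.map L.subtype ≤ B.1.map L.subtype := Subgroup.map_mono hAB
      rcases eq_or_lt_of_le hle with h | h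
      · rw [h, sub_self]
        exact Submodule.zero_mem _
      · refine ⟨- single [B.1.map L.subtype, A.1.map L.subtype] 1, ?_, ?_⟩
        · refine Submodule.neg_mem _ (single_mem_Sp ⟨by simpa using h, ?_⟩ _)
          intro a ha
          simp only [List.mem_cons, List.not_mem_nil, or_false] at ha
          rcases ha with h' | h'
          · rw [h']; exact hsub B
          · rw [h']; exact hsub A
        · rw [map_neg, bd_single_cons, bd_single_cons, bd_single_nil]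
          simp
    have hall : ∀ A B : Ap p L, Relation.ReflTransGen (fun X Y => X ≤ Y ∨ Y ≤ X) A B →
        single [B.1.map L.subtype] (1 : 𝕜) - single [A.1.map L.subtype] 1 ∈ Bst 𝕜 (Ain p L) := by
      intro A B hAB
      induction hAB with
      | refl => rw [sub_self]; exact Submodule.zero_mem _
      | @tail B C _ hBC ih =>
        have h1 : single [C.1.map L.subtype] (1 : 𝕜) - single [B.1.map L.subtype] 1 ∈
            Bst 𝕜 (Ain p L) := by
          rcases hBC with h | h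
          · exact hadj B C h
          · rw [← neg_sub]
            exact Submodule.neg_mem _ (hadj C B h)
        have h2 := Submodule.add_mem _ h1 ih
        simpa using h2
    obtain ⟨F0, hF0⟩ := hlift F hF
    -- augmentation
    let ep : Ch 𝕜 (Subgroup G) →ₗ[𝕜] 𝕜 := Finsupp.linearCombination 𝕜 (fun _ => (1 : 𝕜))
    have hep : ep z = 0 := by
      have h1 : (bd z : Ch 𝕜 (Subgroup G)) = ep z • single [] (1 : 𝕜) := by
        have := eq_of_Sp (F := bd) (G := ep.smulRight (single ([] : List (Subgroup G)) (1 : 𝕜)))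
          (fun l (hl : l.length = 1 ∧ st (Ain p L) l) => by
            obtain ⟨E, rfl⟩ := List.length_eq_one_iff.1 hl.1
            simp [bd_single_cons, ep, Finsupp.linearCombination_single]) hz
        simpa using this
      rw [hbz] at h1
      have h2 := congrArg (fun c : Ch 𝕜 (Subgroup G) => c []) h1.symm
      simpa using h2
    have h3 : ((LinearMap.id : Ch 𝕜 (Subgroup G) →ₗ[𝕜] Ch 𝕜 (Subgroup G)) -
        ep.smulRight (single [F] (1 : 𝕜))) z ∈ Bst 𝕜 (Ain p L) := by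
      refine map_mem _ ?_ hz
      intro l hl
      obtain ⟨E, rfl⟩ := List.length_eq_one_iff.1 hl.1
      obtain ⟨E0, hE0⟩ := hlift E (hl.2.2 E (by simp))
      have h4 := hall F0 E0 (hc F0 E0)
      rw [hF0, hE0] at h4
      have h5 : ep (single [E] (1 : 𝕜)) = 1 := by simp [ep, Finsupp.linearCombination_single]
      rw [LinearMap.sub_apply, LinearMap.id_apply, LinearMap.smulRight_apply, h5, one_smul]
      exact h4
    rw [LinearMap.sub_apply, LinearMap.id_apply, LinearMap.smulRight_apply, hep, zero_smul,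
      sub_zero] at h3
    exact h3
  · have : z = 0 := by
      have := eq_of_Sp (F := (LinearMap.id : Ch 𝕜 (Subgroup G) →ₗ[𝕜] Ch 𝕜 (Subgroup G))) (G := 0)
        (fun l (hl : l.length = 1 ∧ st (Ain p L) l) => by
          obtain ⟨E, rfl⟩ := List.length_eq_one_iff.1 hl.1
          exact absurd ⟨E, hl.2.2 E (by simp)⟩ hne) hz
      simpa using this
    rw [this]
    exact Submodule.zero_mem _

/-! ### The elimination theorem with at most two types -/

/-- Elimination theorem, at most two types of outer subgroups of order `p`. -/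
theorem elimination_two {p : ℕ} [Fact p.Prime] {G : Type u} [Group G] [Finite G]
    (L : Subgroup G) (hL : CompLike p L)
    (hconn : (∀ x ∈ normalizer (L : Set G), ∀ y ∈ normalizer (L : Set G),
      x ^ p ∈ centralizer (L : Set G) → y ^ p ∈ centralizer (L : Set G) →
      x ∉ L ⊔ centralizer (L : Set G) → y ∉ L ⊔ centralizer (L : Set G) →
      y ∈ zpowers x ⊔ (L ⊔ centralizer (L : Set G))) ∨
      (∀ g : G, g ^ p = 1 → g ∈ normalizer (L : Set G)) ∨
      ∀ A B : Ap p L, Relation.ReflTransGen (fun X Y => X ≤ Y ∨ Y ≤ X) A B)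
    (hout : ∀ x ∈ normalizer (L : Set G), ∀ y ∈ normalizer (L : Set G),
      ∀ z ∈ normalizer (L : Set G), x ^ p ∈ centralizer (L : Set G) →
      y ^ p ∈ centralizer (L : Set G) → z ^ p ∈ centralizer (L : Set G) →
      x ∉ L ⊔ centralizer (L : Set G) → y ∉ L ⊔ centralizer (L : Set G) →
      z ∉ L ⊔ centralizer (L : Set G) →
      y ∈ zpowers x ⊔ (L ⊔ centralizer (L : Set G)) ∨
      z ∈ zpowers x ⊔ (L ⊔ centralizer (L : Set G)) ∨
      z ∈ zpowers y ⊔ (L ⊔ centralizer (L : Set G)))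
    (h1 : HQ 𝕜 p L) (h2 : HQ 𝕜 p (centralizer (L : Set G)))
    (h3 : ∀ A : Subgroup L.normalizerMonoidHom.range,
      (∀ l : normalizer (L : Set G), (l : G) ∈ L → L.normalizerMonoidHom.rangeRestrict l ∈ A) →
      HQ 𝕜 p A) : HQ 𝕜 p G := by
  classical
  set N : Subgroup G := normalizer (L : Set G) with hN
  set K : Subgroup G := centralizer (L : Set G) with hK
  have hLN : L ≤ N := Subgroup.le_normalizer
  have hLn : (L.subgroupOf N).Normal := Subgroup.normal_in_normalizer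
  have hker : ∀ n : N, L.normalizerMonoidHom.rangeRestrict n = 1 ↔ (n : G) ∈ K := by
    intro n
    rw [← MonoidHom.mem_ker, MonoidHom.ker_rangeRestrict, normalizerMonoidHom_ker,
      Subgroup.mem_subgroupOf]
  have hctx : Ctx p L N K L.normalizerMonoidHom.rangeRestrict
      (QuotientGroup.mk' (L.subgroupOf N)) :=
    { comp := hL
      hN := rfl
      hK := rfl
      hπK := hker
      hsurj := L.normalizerMonoidHom.rangeRestrict_surjective
      hπL := fun n => by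
        rw [← Subgroup.mem_subgroupOf]
        exact QuotientGroup.eq_one_iff n }
  have hKN : K ≤ N := hctx.KN
  have hKn := hctx.Kn
  by_cases hone : ∀ x ∈ N, ∀ y ∈ N, x ^ p ∈ K → y ^ p ∈ K → x ∉ L ⊔ K → y ∉ L ⊔ K →
      y ∈ zpowers x ⊔ (L ⊔ K)
  · refine elimination L hL hone h1 h2 ?_
    have := h3 ⊤ (fun _ _ => Subgroup.mem_top _)
    rw [HQ_sub_iff] at this
    rw [HQ_iff]
    have h4 : Ain p (⊤ : Subgroup L.normalizerMonoidHom.range) =
        ApS p L.normalizerMonoidHom.range := by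
      ext E
      exact ⟨fun h => h.1, fun h => ⟨h, le_top⟩⟩
    rwa [h4] at this
  · push Not at hone
    obtain ⟨x1, hx1, x2, hx2, hp1, hp2, hx1L, hx2L, h21⟩ := hone
    have t : Two p L N K (zpowers x1 ⊔ (L ⊔ K)) (zpowers x2 ⊔ (L ⊔ K)) := by
      refine two_of hLN hKN hx1 hx2 hp1 hp2 h21 ?_
      intro x hx hxp hxLK
      rcases hout x1 hx1 x2 hx2 x hx hp1 hp2 hxp hx1L hx2L hxLK with h | h | h
      · exact absurd h h21
      · exact Or.inl h
      · exact Or.inr h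
    have hQ : NA 𝕜 (ApS p L.normalizerMonoidHom.range) := by
      have := h3 ⊤ (fun _ _ => Subgroup.mem_top _)
      rw [HQ_sub_iff] at this
      have h4 : Ain p (⊤ : Subgroup L.normalizerMonoidHom.range) =
          ApS p L.normalizerMonoidHom.range := by
        ext E
        exact ⟨fun h => h.1, fun h => ⟨h, le_top⟩⟩
      rwa [h4] at this
    rw [HQ_iff]
    refine two_core hctx t ((HQ_sub_iff L).1 h1) ((HQ_sub_iff _).1 h2) hQ ?_ ?_ ?_
    · rw [← HQ_sub_iff]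
      refine h3 _ fun l hl => ?_
      exact (mem_Gam hctx (le_sup_right.trans t.LK1)).2 (t.LK1 (Subgroup.mem_sup_left hl))
    · rw [← HQ_sub_iff]
      refine h3 _ fun l hl => ?_
      exact (mem_Gam hctx (le_sup_right.trans t.LK2)).2 (t.LK2 (Subgroup.mem_sup_left hl))
    · rcases hconn with h | h | h
      · exact absurd (h x1 hx1 x2 hx2 hp1 hp2 hx1L hx2L) h21
      · exact Or.inl h
      · exact Or.inr (conn_h0 h)

/-- In a minimal counterexample to the homological form of Quillen's conjecture, a component-like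
subgroup whose poset is connected, or which is normalized by all elements of order `p`, has at
least three distinct outer subgroups of order `p`. -/
theorem minimal_three {p : ℕ} [Fact p.Prime] {G : Type u} [Group G] [Finite G]
    (hO : OpTrivial p G) (hG : ¬ HQ 𝕜 p G)
    (hmin : ∀ (H : Type u) [Group H] [Finite H], Nat.card H < Nat.card G →
      OpTrivial p H → HQ 𝕜 p H)
    (L : Subgroup G) (hL : CompLike p L) (hC : centralizer (L : Set G) ≠ ⊥)
    (hconn : (∀ g : G, g ^ p = 1 → g ∈ normalizer (L : Set G)) ∨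
      ∀ A B : Ap p L, Relation.ReflTransGen (fun X Y => X ≤ Y ∨ Y ≤ X) A B) :
    ∃ x ∈ normalizer (L : Set G), ∃ y ∈ normalizer (L : Set G), ∃ z ∈ normalizer (L : Set G),
      x ^ p ∈ centralizer (L : Set G) ∧ y ^ p ∈ centralizer (L : Set G) ∧
      z ^ p ∈ centralizer (L : Set G) ∧
      x ∉ L ⊔ centralizer (L : Set G) ∧ y ∉ L ⊔ centralizer (L : Set G) ∧
      z ∉ L ⊔ centralizer (L : Set G) ∧
      y ∉ zpowers x ⊔ (L ⊔ centralizer (L : Set G)) ∧
      z ∉ zpowers x ⊔ (L ⊔ centralizer (L : Set G)) ∧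
      z ∉ zpowers y ⊔ (L ⊔ centralizer (L : Set G)) := by
  by_contra hcon
  apply hG
  have hLo : OpTrivial p L := opTrivial_of_opIn (hL.opIn_L hO)
  apply elimination_two L hL (Or.inr hconn)
  · intro x hx y hy z hz hxp hyp hzp hxL hyL hzL
    by_contra h
    push Not at h
    exact hcon ⟨x, hx, y, hy, z, hz, hxp, hyp, hzp, hxL, hyL, hzL, h.1, h.2.1, h.2.2⟩
  · exact hmin _ (hL.card_L_lt hC) hLo
  · exact hmin _ hL.card_K_lt (opTrivial_of_opIn (hL.opIn_K hO))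
  · intro A hA
    refine hmin _ (lt_of_le_of_lt (card_le_card_group A) (card_range_lt hC)) ?_
    let i : L →* A :=
      { toFun := fun l => ⟨L.normalizerMonoidHom.rangeRestrict (inclusion le_normalizer l),
          hA _ l.2⟩
        map_one' := by
          apply Subtype.ext
          simp
        map_mul' := fun a b => by
          apply Subtype.ext
          simp }
    refine opTrivial_of_aut hLo ((L.normalizerMonoidHom.range.subtype).comp A.subtype) ?_ i ?_ ?_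
    · exact (Subgroup.subtype_injective _).comp (Subgroup.subtype_injective _)
    · rw [injective_iff_map_eq_one]
      intro l hl
      have h1 : (l : G) ∈ centralizer (L : Set G) := by
        rw [mem_centralizer_iff]
        intro x hx
        have h2 : (((i l : L.normalizerMonoidHom.range) : MulAut L) ⟨x, hx⟩ : G)
            = l * x * (l : G)⁻¹ := rfl
        rw [hl] at h2
        have h3 : (x : G) = l * x * (l : G)⁻¹ := h2
        calc x * (l : G) = (l * x * (l : G)⁻¹) * l := by rw [← h3]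
          _ = l * x := by group
      have h4 : (l : G) ∈ L ⊓ centralizer (L : Set G) := ⟨l.2, h1⟩
      rw [hL.centre, mem_bot] at h4
      exact Subtype.ext h4
    · intro l x
      rfl

end Vale.Agent.P240.K
end
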