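import Vale.Agent.P240.K.Defs

namespace Vale.Agent.P240.K

open Subgroup

universe u v

section
variable {G : Type u} [Group G]

/-- `E` is a nontrivial elementary abelian `p`-subgroup. -/
def ElemAb (p : ℕ) (E : Subgroup G) : Prop :=
  E ≠ ⊥ ∧ (∀ x ∈ E, ∀ y ∈ E, x * y = y * x) ∧ ∀ x ∈ E, x ^ p = 1

/-- `F` behaves like the set of components of a group `G` with `O_p(G) = O_{p'}(G) = 1`:
it is stable under conjugation, distinct members commute elementwise, members have trivial centre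
and order divisible by `p`, and no element of order `p` of `G` centralizes all members. -/
structure Family (p : ℕ) (F : Set (Subgroup G)) : Prop where
  conj : ∀ L ∈ F, ∀ g : G, L.map (MulAut.conj g).toMonoidHom ∈ F
  comm : ∀ L ∈ F, ∀ M ∈ F, L ≠ M → ∀ x ∈ L, ∀ y ∈ M, x * y = y * x
  centre : ∀ L ∈ F, L ⊓ centralizer (L : Set G) = ⊥
  dvd : ∀ L ∈ F, p ∣ Nat.card L
  faithful : ∀ g : G, g ^ p = 1 → (∀ L ∈ F, ∀ x ∈ L, g * x = x * g) → g = 1

/-- `x` induces on `L` an automorphism of order `p` that is not inner. -/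
def Outer (p : ℕ) (L : Subgroup G) (x : G) : Prop :=
  x ∈ normalizer (L : Set G) ∧ x ^ p ∈ centralizer (L : Set G) ∧
    x ∉ L ⊔ centralizer (L : Set G)

/-- `y` lies in `⟨x⟩ L C_G(L)`: for outer elements `x`, `y` this says that they generate the same
subgroup of order `p` of `Out_G(L) = N_G(L) / L C_G(L)`. -/
def SameOuter (L : Subgroup G) (x y : G) : Prop :=
  y ∈ zpowers x ⊔ (L ⊔ centralizer (L : Set G))

/-- At most two subgroups of order `p` of `Out_G(L)` come from outer elements; and if there are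
two, then all elements of order `p` normalize `L` or the poset `𝒜ₚ(L)` is connected. -/
def FewOuter (p : ℕ) (L : Subgroup G) : Prop :=
  (∀ x y z : G, Outer p L x → Outer p L y → Outer p L z →
    SameOuter L x y ∨ SameOuter L x z ∨ SameOuter L y z) ∧
  ((∀ x y : G, Outer p L x → Outer p L y → SameOuter L x y) ∨
    (∀ g : G, g ^ p = 1 → g ∈ normalizer (L : Set G)) ∨
    ∀ A B : Ap p L, Relation.ReflTransGen (fun X Y => X ≤ Y ∨ Y ≤ X) A B)

/-- Every group `A` with `Inn(L) ≤ A ≤ Aut_G(L)` satisfies the conclusion of the conjecture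
(for simple `L` this is a theorem of Aschbacher and Kleidman). -/
def AlmostSimpleHQ (𝕜 : Type*) [Field 𝕜] (p : ℕ) (L : Subgroup G) : Prop :=
  ∀ A : Subgroup (MulAut L), A ≤ L.normalizerMonoidHom.range → (∀ l : L, MulAut.conj l ∈ A) →
    HQ 𝕜 p A

/-- `L` has an `r`-subgroup `U` such that every elementary abelian `p`-subgroup of `N_G(L)`
normalized by `U` centralizes `L`. -/
def FreeSub (p r : ℕ) (L : Subgroup G) : Prop :=
  ∃ U : Subgroup G, U ≤ L ∧ IsPGroup r U ∧ ∀ E : Subgroup G, ElemAb p E →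
    E ≤ normalizer (L : Set G) → U ≤ normalizer (E : Set G) → E ≤ centralizer (L : Set G)

/-- `L` has few outer subgroups and satisfies `AlmostSimpleHQ`; or it has a subgroup as in `FreeSub`
for the characteristic `q` of `𝕜`. -/
def Removable (𝕜 : Type*) [Field 𝕜] (p : ℕ) (L : Subgroup G) : Prop :=
  (FewOuter p L ∧ AlmostSimpleHQ 𝕜 p L) ∨ ∃ q : ℕ, q.Prime ∧ q ≠ p ∧ (q : 𝕜) = 0 ∧ FreeSub p q L

/-- The elements of `G` that centralize all members of `F` outside `D`. -/
def Rest (F D : Set (Subgroup G)) : Subgroup G := ⨅ L ∈ F \ D, centralizer (L : Set G)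

/-- `z ∈ Rest F D` has order prime to `p` and normalizes all members of the conjugation-stable
subset `D` of `F`. For `L ∈ D` and every elementary abelian `p`-subgroup `E` of `Rest F D` that
normalizes `L`, if the image of `E` in `Aut(L)` is nontrivial and normalized by `z`, it contains a
nontrivial element commuting with the image of `z`. -/
structure GoodElement (p : ℕ) (F D : Set (Subgroup G)) (z : G) : Prop where
  sub : D ⊆ F
  conj : ∀ L ∈ D, ∀ g : G, L.map (MulAut.conj g).toMonoidHom ∈ D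
  rest : z ∈ Rest F D
  order : ¬ p ∣ orderOf z
  norm : ∀ L ∈ D, z ∈ normalizer (L : Set G)
  fix : ∀ L ∈ D, ∀ E : Subgroup G, ElemAb p E → E ≤ Rest F D ⊓ normalizer (L : Set G) →
    (∀ e ∈ E, z * e * z⁻¹ ∈ E ⊔ centralizer (L : Set G)) →
    (∀ e ∈ E, z * e * z⁻¹ * e⁻¹ ∈ centralizer (L : Set G) → e ∈ centralizer (L : Set G)) →
    E ≤ centralizer (L : Set G)

/-- The centralizer of `z` in `Rest F D`. -/
def Cent (F D : Set (Subgroup G)) (z : G) : Subgroup G := Rest F D ⊓ centralizer {z}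

/-- Minus the reduced Euler characteristic of the order complex of the finite poset `𝒜ₚ(S)`. -/
noncomputable def euler (p : ℕ) (S : Type*) [Group S] : ℤ :=
  ∑ᶠ n : ℕ, (-1) ^ n * (Nat.card {l : List (Ap p S) // l.length = n ∧ l.Pairwise (· < ·)} : ℤ)

/-- The reduced rational homology of the order complex of `α` vanishes below degree `m - 1`. -/
def LowAcyclic (α : Type*) [Preorder α] (m : ℕ) : Prop :=
  ∀ n < m, ∀ c : List α →₀ ℚ, IsChain n c → bd c = 0 →
    ∃ b : List α →₀ ℚ, IsChain (n + 1) b ∧ bd b = c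

/-- `𝒜ₚ(S)` is Cohen–Macaulay over `ℚ`: for some `m` and all `E ∈ 𝒜ₚ(S) ∪ {1}` of rank `k`, we have
`k ≤ m` and the reduced homology of `{A ∈ 𝒜ₚ(S) | E < A}` vanishes below degree `m - k - 1`. -/
def CohenMacaulay (p : ℕ) (S : Type*) [Group S] : Prop :=
  ∃ m, ∀ E : Subgroup S, (E = ⊥ ∨ ElemAb p E) → ∃ k ≤ m, Nat.card E = p ^ k ∧
    LowAcyclic {A : Ap p S // E < A.1} (m - k)

/-- `C` has a solvable normal `p'`-subgroup `W`, not centralized by elements of order `p`, with
`𝒜ₚ(C / W)` Cohen–Macaulay. -/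
def SolvableByCM (p : ℕ) (C : Type*) [Group C] : Prop :=
  ∃ W : Subgroup C, Group.IsSolvable W ∧ ¬ p ∣ Nat.card W ∧
    (∀ x : C, x ^ p = 1 → (∀ w ∈ W, x * w = w * x) → x = 1) ∧
    ∃ _ : W.Normal, CohenMacaulay p (C ⧸ W)

end

/-- `P` has finitely many normal subgroups `N i` with trivial intersection and `𝒜ₚ(P / N i)` not
`𝕜`-acyclic, such that modulo `N i` times the intersection of the other `N j` the group `P` is
nilpotent. -/
def NilpotentCoupling (𝕜 : Type*) [Field 𝕜] (p : ℕ) (P : Type*) [Group P] : Prop :=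
  ∃ (n : ℕ) (N : Fin (n + 1) → Subgroup P), ⨅ i, N i = ⊥ ∧
    (∀ i, ∃ m, (⊤ : Subgroup P).lowerCentralSeries m ≤ N i ⊔ ⨅ (j) (_ : j ≠ i), N j) ∧
    ∀ i, ∃ _ : (N i).Normal, HQ 𝕜 p (P ⧸ N i)

/-- `G` is a counterexample of minimal order (among the groups in its universe) to the assertion
that `O_p(G) = 1` implies that `𝒜ₚ(G)` is not `𝕜`-acyclic. -/
def MinimalCounterexample (𝕜 : Type*) [Field 𝕜] (p : ℕ) (G : Type u) [Group G] : Prop :=
  OpTrivial p G ∧ ¬ HQ 𝕜 p G ∧
    ∀ (H : Type u) [Group H] [Finite H], Nat.card H < Nat.card G → OpTrivial p H → HQ 𝕜 p H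

/-- `L` has trivial centre, commutes with its other conjugates, and has order divisible by `p`. -/
def ComponentLike {G : Type*} [Group G] (p : ℕ) (L : Subgroup G) : Prop :=
  L ⊓ centralizer (L : Set G) = ⊥ ∧
    (∀ g : G, g ∉ normalizer (L : Set G) → ∀ x ∈ L, ∀ y ∈ L,
      x * (g * y * g⁻¹) = (g * y * g⁻¹) * x) ∧ p ∣ Nat.card L

end Vale.Agent.P240.K
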