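import Vale.Agent.P240.WB.B4
import Vale.Agent.P240.WB.FamDefs
import Vale.Agent.P240.WB.B3
import Vale.Agent.P240.WB.B2

set_option linter.all false

section

namespace Vale.Agent.P240.K

open Finsupp Subgroup

variable {𝕜 : Type*} [Field 𝕜]

universe u

section
variable {A B : Type*} [Group A] [Group B] {p : ℕ}

lemma map_mem_ApS {f : A →* B} (hf : Function.Injective f) {E : Subgroup A} :
    E.map f ∈ ApS p B ↔ E ∈ ApS p A := by
  constructor
  · rintro ⟨h1, h2, h3⟩
    refine ⟨?_, ?_, ?_⟩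
    · rintro rfl
      exact h1 (Subgroup.map_bot f)
    · intro x hx y hy
      apply hf
      rw [map_mul, map_mul]
      exact h2 _ ⟨x, hx, rfl⟩ _ ⟨y, hy, rfl⟩
    · intro x hx
      apply hf
      rw [map_pow, map_one]
      exact h3 _ ⟨x, hx, rfl⟩
  · rintro ⟨h1, h2, h3⟩
    refine ⟨?_, ?_, ?_⟩
    · intro h
      exact h1 ((Subgroup.map_eq_bot_iff_of_injective _ hf).1 h)
    · rintro _ ⟨x, hx, rfl⟩ _ ⟨y, hy, rfl⟩
      rw [← map_mul, ← map_mul, h2 x hx y hy]
    · rintro _ ⟨x, hx, rfl⟩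
      rw [← map_pow, h3 x hx, map_one]

lemma map_lt {f : A →* B} (hf : Function.Injective f) {E F : Subgroup A} :
    E < F ↔ E.map f < F.map f := by
  rw [lt_iff_le_not_ge, lt_iff_le_not_ge, Subgroup.map_le_map_iff_of_injective hf,
    Subgroup.map_le_map_iff_of_injective hf]

lemma NA_Ain_map {f : A →* B} (hf : Function.Injective f) (K : Subgroup A) :
    NA 𝕜 (Ain p (K.map f)) ↔ NA 𝕜 (Ain p K) := by
  have h : (Subgroup.map f) '' (Ain p K) = Ain p (K.map f) := by
    ext E
    constructor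
    · rintro ⟨F, ⟨h1, h2⟩, rfl⟩
      exact ⟨(map_mem_ApS hf).2 h1, Subgroup.map_mono h2⟩
    · rintro ⟨h1, h2⟩
      have h3 : (E.comap f).map f = E := by
        rw [Subgroup.map_comap_eq, inf_eq_right]
        refine h2.trans ?_
        exact Subgroup.map_le_range f K
      refine ⟨E.comap f, ⟨?_, ?_⟩, h3⟩
      · rw [← map_mem_ApS hf, h3]
        exact h1
      · rw [← Subgroup.map_le_map_iff_of_injective hf, h3]
        exact h2
  rw [← h]
  exact NA_image (Subgroup.map_injective hf).injOn fun x _ y _ => map_lt hf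

lemma HQ_congr (e : A ≃* B) : HQ 𝕜 p A ↔ HQ 𝕜 p B := by
  have h1 : HQ 𝕜 p A ↔ NA 𝕜 (Ain p (⊤ : Subgroup A)) := by
    rw [HQ_iff]
    have : Ain p (⊤ : Subgroup A) = ApS p A := by
      ext E
      exact ⟨fun h => h.1, fun h => ⟨h, le_top⟩⟩
    rw [this]
  have h2 : HQ 𝕜 p B ↔ NA 𝕜 (Ain p (⊤ : Subgroup B)) := by
    rw [HQ_iff]
    have : Ain p (⊤ : Subgroup B) = ApS p B := by
      ext E
      exact ⟨fun h => h.1, fun h => ⟨h, le_top⟩⟩
    rw [this]
  rw [h1, h2, ← NA_Ain_map (f := e.toMonoidHom) e.injective]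
  have : (⊤ : Subgroup A).map e.toMonoidHom = ⊤ := by
    rw [← MonoidHom.range_eq_map]
    exact MonoidHom.range_eq_top.2 e.surjective
  rw [this]

lemma HQ_map {f : A →* B} (hf : Function.Injective f) (K : Subgroup A) :
    HQ 𝕜 p (K.map f) ↔ HQ 𝕜 p K := by
  rw [HQ_sub_iff, HQ_sub_iff, NA_Ain_map hf]

end

section
variable {G : Type*} [Group G] {p : ℕ}

lemma mem_sup_cent {L : Subgroup G} {x : G} (hx : x ∈ L ⊔ centralizer (L : Set G)) :
    ∃ l ∈ L, ∃ c ∈ centralizer (L : Set G), x = l * c := by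
  have key : ∀ l ∈ L, ∀ c ∈ centralizer (L : Set G), l * c = c * l := by
    intro l hl c hc
    rw [mem_centralizer_iff] at hc
    exact hc l hl
  let T : Subgroup G :=
    { carrier := {x | ∃ l ∈ L, ∃ c ∈ centralizer (L : Set G), x = l * c}
      one_mem' := ⟨1, one_mem _, 1, one_mem _, by simp⟩
      mul_mem' := by
        rintro _ _ ⟨l, hl, c, hc, rfl⟩ ⟨l', hl', c', hc', rfl⟩
        refine ⟨l * l', mul_mem hl hl', c * c', mul_mem hc hc', ?_⟩
        rw [mul_assoc, ← mul_assoc c, ← key l' hl' c hc]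
        group
      inv_mem' := by
        rintro _ ⟨l, hl, c, hc, rfl⟩
        refine ⟨l⁻¹, inv_mem hl, c⁻¹, inv_mem hc, ?_⟩
        rw [mul_inv_rev, key _ (inv_mem hl) _ (inv_mem hc)] }
  have h1 : L ≤ T := fun l hl => ⟨l, hl, 1, one_mem _, by simp⟩
  have h2 : centralizer (L : Set G) ≤ T := fun c hc => ⟨1, one_mem _, c, hc, by simp⟩
  exact (sup_le h1 h2) hx

lemma mem_zpowers_sup {N W : Subgroup G} (hW : W ≤ N) [hn : (W.subgroupOf N).Normal]
    {x y : G} (hx : x ∈ N) (hy : y ∈ zpowers x ⊔ W) : ∃ i : ℤ, ∃ w ∈ W, y = x ^ i * w := by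
  have hyN : y ∈ N := (sup_le (by rw [Subgroup.zpowers_le]; exact hx) hW) hy
  have h1 : (⟨y, hyN⟩ : N) ∈ (zpowers x ⊔ W).subgroupOf N := by
    rw [Subgroup.mem_subgroupOf]; exact hy
  rw [Subgroup.subgroupOf_sup (by rw [Subgroup.zpowers_le]; exact hx) hW,
    Subgroup.mem_sup_of_normal_right] at h1
  obtain ⟨a, ha, b, hb, hab⟩ := h1
  rw [Subgroup.mem_subgroupOf] at ha hb
  obtain ⟨i, hi⟩ := ha
  refine ⟨i, b, hb, ?_⟩
  have := congrArg Subtype.val hab
  simp only [Subgroup.coe_mul] at this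
  rw [← this, ← hi]

lemma mem_norm_sub {H L : Subgroup G} (hLH : L ≤ H) {x : H} :
    x ∈ normalizer ((L.subgroupOf H : Subgroup H) : Set H) ↔ (x : G) ∈ normalizer (L : Set G) := by
  rw [mem_normalizer_iff, mem_normalizer_iff]
  constructor
  · intro h y
    constructor
    · intro hy
      have := (h ⟨y, hLH hy⟩).1 (by rw [mem_subgroupOf]; exact hy)
      rw [mem_subgroupOf] at this
      exact this
    · intro hy
      have hy' : y ∈ H := by
        have h1 := H.mul_mem (H.mul_mem (H.inv_mem x.2) (hLH hy)) x.2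
        have h2 : (x : G)⁻¹ * (x * y * (x : G)⁻¹) * x = y := by group
        rwa [h2] at h1
      have := (h ⟨y, hy'⟩).2 (by rw [mem_subgroupOf]; exact hy)
      rw [mem_subgroupOf] at this
      exact this
  · intro h y
    rw [mem_subgroupOf, mem_subgroupOf]
    exact h y

lemma mem_cent_sub {H L : Subgroup G} (hLH : L ≤ H) {x : H} :
    x ∈ centralizer ((L.subgroupOf H : Subgroup H) : Set H) ↔
      (x : G) ∈ centralizer (L : Set G) := by
  rw [mem_centralizer_iff, mem_centralizer_iff]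
  constructor
  · intro h y hy
    have := h ⟨y, hLH hy⟩ (by
      change (⟨y, hLH hy⟩ : H) ∈ L.subgroupOf H
      rw [mem_subgroupOf]; exact hy)
    exact congrArg Subtype.val this
  · intro h y hy
    apply Subtype.ext
    exact h y (by
      have : y ∈ L.subgroupOf H := hy
      rw [mem_subgroupOf] at this
      exact this)

end

section
variable {G : Type u} [Group G] {p : ℕ}

/-- One step of the elimination, inside a subgroup `H`. -/
theorem elim_step [Fact p.Prime] [Finite G] (H L : Subgroup G) (hLH : L ≤ H) (hL : CompLike p L)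
    (hfew : FewOuter p L) (hAK : AlmostSimpleHQ 𝕜 p L)
    (hC : NA 𝕜 (Ain p (H ⊓ centralizer (L : Set G)))) : NA 𝕜 (Ain p H) := by
  classical
  rw [← HQ_sub_iff]
  set L' : Subgroup H := L.subgroupOf H with hL'
  let e : L' ≃* L := subgroupOfEquivOfLe hLH
  have hsupdown : ∀ x : H, (x : G) ∈ L ⊔ centralizer (L : Set G) →
      x ∈ L' ⊔ centralizer (L' : Set H) := by
    intro x hx
    obtain ⟨l, hl, c, hc, hxe⟩ := mem_sup_cent hx
    have hcH : c ∈ H := by
      have : c = l⁻¹ * x := by rw [hxe]; group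
      rw [this]
      exact H.mul_mem (H.inv_mem (hLH hl)) x.2
    have : x = ⟨l, hLH hl⟩ * ⟨c, hcH⟩ := Subtype.ext hxe
    rw [this]
    refine mul_mem (mem_sup_left ?_) (mem_sup_right ?_)
    · rw [hL', mem_subgroupOf]; exact hl
    · rw [mem_cent_sub hLH]; exact hc
  have hnW : ((L ⊔ centralizer (L : Set G)).subgroupOf (normalizer (L : Set G))).Normal := by
    have hLn : (L.subgroupOf (normalizer (L : Set G))).Normal := Subgroup.normal_in_normalizer
    have hCN : centralizer (L : Set G) ≤ normalizer (L : Set G) := by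
      intro c hc
      rw [mem_normalizer_iff]
      intro y
      rw [mem_centralizer_iff] at hc
      constructor
      · intro hy
        have : c * y * c⁻¹ = y := by rw [← hc y hy]; group
        rwa [this]
      · intro hy
        have h1 := hc _ hy
        have : y = c * y * c⁻¹ := by
          have h2 : c * y * c⁻¹ * c = c * (c * y * c⁻¹) := h1
          have h3 : c * y = c * (c * y * c⁻¹) := by rw [← h2]; group
          exact mul_left_cancel h3
        rw [this]
        exact hy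
    have hCn : ((centralizer (L : Set G)).subgroupOf (normalizer (L : Set G))).Normal := by
      constructor
      intro n hn g
      rw [mem_subgroupOf] at hn ⊢
      exact conj_mem_centralizer g.2 hn
    rw [Subgroup.subgroupOf_sup Subgroup.le_normalizer hCN]
    exact Subgroup.sup_normal _ _
  have hWN : L ⊔ centralizer (L : Set G) ≤ normalizer (L : Set G) := by
    refine sup_le Subgroup.le_normalizer ?_
    intro c hc
    rw [mem_normalizer_iff]
    intro y
    rw [mem_centralizer_iff] at hc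
    constructor
    · intro hy
      have : c * y * c⁻¹ = y := by rw [← hc y hy]; group
      rwa [this]
    · intro hy
      have h1 := hc _ hy
      have : y = c * y * c⁻¹ := by
        have h2 : c * y * c⁻¹ * c = c * (c * y * c⁻¹) := h1
        have h3 : c * y = c * (c * y * c⁻¹) := by rw [← h2]; group
        exact mul_left_cancel h3
      rw [this]
      exact hy
  have hzdown : ∀ x y : H, x ∈ normalizer (L' : Set H) →
      (y : G) ∈ zpowers (x : G) ⊔ (L ⊔ centralizer (L : Set G)) →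
      y ∈ zpowers x ⊔ (L' ⊔ centralizer (L' : Set H)) := by
    intro x y hx hy
    obtain ⟨i, w, hw, hyw⟩ := mem_zpowers_sup hWN ((mem_norm_sub hLH).1 hx) hy
    have hwH : w ∈ H := by
      have : w = (x : G) ^ (-i) * y := by rw [hyw]; group
      rw [this]
      exact H.mul_mem (H.zpow_mem x.2 _) y.2
    have : y = x ^ i * ⟨w, hwH⟩ := Subtype.ext (by simpa using hyw)
    rw [this]
    exact mul_mem (mem_sup_left (zpow_mem (mem_zpowers x) i))
      (mem_sup_right (hsupdown _ hw))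
  obtain ⟨hout, hconn⟩ := hfew
  have hup : ∀ x : H, x ∉ L' ⊔ centralizer (L' : Set H) →
      (x : G) ∉ L ⊔ centralizer (L : Set G) := fun x h h' => h (hsupdown x h')
  have hpw : ∀ x : H, x ^ p ∈ centralizer (L' : Set H) →
      (x : G) ^ p ∈ centralizer (L : Set G) := by
    intro x h
    rw [mem_cent_sub hLH] at h
    simpa using h
  refine elimination_two L' ⟨?_, ?_, ?_⟩ ?_ ?_ ?_ ?_ ?_
  · rw [eq_bot_iff]
    rintro x ⟨h1, h2⟩
    have h3 : (x : G) ∈ L ⊓ centralizer (L : Set G) :=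
      ⟨mem_subgroupOf.1 h1, (mem_cent_sub hLH).1 h2⟩
    rw [hL.centre, mem_bot] at h3
    rw [mem_bot]
    exact Subtype.ext h3
  · intro g hg x hx y hy
    rw [mem_norm_sub hLH] at hg
    apply Subtype.ext
    exact hL.conj g hg x (mem_subgroupOf.1 hx) y (mem_subgroupOf.1 hy)
  · rw [Nat.card_congr e.toEquiv]
    exact hL.dvd
  · rcases hconn with h | h | h
    · left
      intro x hx y hy hxp hyp hxL hyL
      exact hzdown x y hx (h x y ⟨(mem_norm_sub hLH).1 hx, hpw x hxp, hup x hxL⟩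
        ⟨(mem_norm_sub hLH).1 hy, hpw y hyp, hup y hyL⟩)
    · right; left
      intro g hg
      rw [mem_norm_sub hLH]
      exact h g (by simpa using congrArg Subtype.val hg)
    · right; right
      intro A B
      have hm : ∀ A : Ap p L', (A.1.map e.toMonoidHom) ≠ ⊥ ∧
          (∀ x ∈ (A.1.map e.toMonoidHom), ∀ y ∈ (A.1.map e.toMonoidHom), x * y = y * x) ∧
          ∀ x ∈ (A.1.map e.toMonoidHom), x ^ p = 1 := fun A =>
        (map_mem_ApS (p := p) (f := e.toMonoidHom) e.injective).2 A.2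
      have hm' : ∀ A : Ap p L, (A.1.map e.symm.toMonoidHom) ≠ ⊥ ∧
          (∀ x ∈ (A.1.map e.symm.toMonoidHom), ∀ y ∈ (A.1.map e.symm.toMonoidHom),
            x * y = y * x) ∧
          ∀ x ∈ (A.1.map e.symm.toMonoidHom), x ^ p = 1 := fun A =>
        (map_mem_ApS (p := p) (f := e.symm.toMonoidHom) e.symm.injective).2 A.2
      have h1 := h ⟨_, hm A⟩ ⟨_, hm B⟩
      have h2 := Relation.ReflTransGen.lift
        (r := fun X Y : Ap p L => X ≤ Y ∨ Y ≤ X) (p := fun X Y : Ap p L' => X ≤ Y ∨ Y ≤ X)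
        (fun X : Ap p L => (⟨X.1.map e.symm.toMonoidHom, hm' X⟩ : Ap p L'))
        (fun X Y hXY => by
          rcases hXY with h | h
          · exact Or.inl (Subgroup.map_mono h)
          · exact Or.inr (Subgroup.map_mono h)) _ _ h1
      have h3 : ∀ A : Ap p L', (⟨(A.1.map e.toMonoidHom).map e.symm.toMonoidHom,
          hm' ⟨_, hm A⟩⟩ : Ap p L') = A := by
        intro A
        apply Subtype.ext
        change (A.1.map e.toMonoidHom).map e.symm.toMonoidHom = A.1
        rw [Subgroup.map_map]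
        have : e.symm.toMonoidHom.comp e.toMonoidHom = MonoidHom.id L' := by
          ext x
          simp
        rw [this, Subgroup.map_id]
      have h4 := h3 A
      have h5 := h3 B
      rw [← h4, ← h5]
      exact h2
  · intro x hx y hy z hz hxp hyp hzp hxL hyL hzL
    rcases hout x y z ⟨(mem_norm_sub hLH).1 hx, hpw x hxp, hup x hxL⟩
      ⟨(mem_norm_sub hLH).1 hy, hpw y hyp, hup y hyL⟩
      ⟨(mem_norm_sub hLH).1 hz, hpw z hzp, hup z hzL⟩ with h | h | h
    · exact Or.inl (hzdown x y hx h)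
    · exact Or.inr (Or.inl (hzdown x z hx h))
    · exact Or.inr (Or.inr (hzdown y z hy h))
  · rw [HQ_congr e]
    have h1 : Function.Injective (MulAut.conj : L →* MulAut L) := by
      rw [injective_iff_map_eq_one]
      intro l hl
      have h2 : (l : G) ∈ L ⊓ centralizer (L : Set G) := by
        refine ⟨l.2, mem_centralizer_iff.2 ?_⟩
        intro y hy
        have h3 : l * ⟨y, hy⟩ * l⁻¹ = (⟨y, hy⟩ : L) := by
          have := congrArg (fun f : MulAut L => f ⟨y, hy⟩) hl
          simpa using this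
        have h4 := congrArg Subtype.val h3
        simp only [Subgroup.coe_mul, Subgroup.coe_inv] at h4
        calc y * (l : G) = (l * y * (l : G)⁻¹) * l := by rw [h4]
          _ = l * y := by group
      rw [hL.centre, mem_bot] at h2
      exact Subtype.ext h2
    rw [HQ_congr (MonoidHom.ofInjective h1)]
    refine hAK _ ?_ fun l => ⟨l, rfl⟩
    rintro _ ⟨l, rfl⟩
    refine ⟨⟨l, Subgroup.le_normalizer l.2⟩, ?_⟩
    apply MulEquiv.ext
    intro x
    apply Subtype.ext
    rfl
  · rw [HQ_sub_iff, ← NA_Ain_map H.subtype_injective]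
    have : (centralizer (L' : Set H)).map H.subtype = H ⊓ centralizer (L : Set G) := by
      ext x
      constructor
      · rintro ⟨y, hy, rfl⟩
        exact ⟨y.2, (mem_cent_sub hLH).1 hy⟩
      · rintro ⟨h1, h2⟩
        exact ⟨⟨x, h1⟩, (mem_cent_sub hLH).2 h2, rfl⟩
    rw [this]
    exact hC
  · intro A' hA'
    let φ : L'.normalizerMonoidHom.range →* MulAut L :=
      (MulAut.congr e).toMonoidHom.comp (L'.normalizerMonoidHom.range).subtype
    have hφ : Function.Injective φ := (MulAut.congr e).injective.comp (Subgroup.subtype_injective _)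
    rw [← HQ_map hφ]
    have hval : ∀ (n : normalizer (L' : Set H)) (hn : ((n : H) : G) ∈ normalizer (L : Set G)),
        φ (L'.normalizerMonoidHom.rangeRestrict n) = L.normalizerMonoidHom ⟨((n : H) : G), hn⟩ := by
      intro n hn
      apply MulEquiv.ext
      intro x
      apply Subtype.ext
      rfl
    refine hAK _ ?_ ?_
    · rintro _ ⟨⟨_, n, rfl⟩, _, rfl⟩
      have hn := (mem_norm_sub hLH).1 n.2
      exact ⟨⟨_, hn⟩, (hval n hn).symm⟩
    · intro l
      have hl : (⟨l, hLH l.2⟩ : H) ∈ L' := by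
        rw [hL', mem_subgroupOf]
        exact l.2
      refine ⟨L'.normalizerMonoidHom.rangeRestrict ⟨⟨l, hLH l.2⟩, Subgroup.le_normalizer hl⟩,
        hA' _ hl, ?_⟩
      apply MulEquiv.ext
      intro x
      apply Subtype.ext
      rfl

end

end Vale.Agent.P240.K
end

section

namespace Vale.Agent.P240.K

open Finsupp Subgroup

variable {𝕜 : Type*} [Field 𝕜]

universe u

section
variable {G : Type*} [Group G] {p : ℕ}

/-- the common centralizer of a family of subgroups -/
def Cen (F : Set (Subgroup G)) : Subgroup G := centralizer (⋃ L ∈ F, (L : Set G))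

lemma mem_Cen {F : Set (Subgroup G)} {x : G} :
    x ∈ Cen F ↔ ∀ L ∈ F, x ∈ centralizer (L : Set G) := by
  rw [Cen, mem_centralizer_iff]
  constructor
  · intro h L hL
    rw [mem_centralizer_iff]
    intro y hy
    exact h y (Set.mem_biUnion hL hy)
  · intro h y hy
    obtain ⟨L, hL, hyL⟩ := Set.mem_iUnion₂.1 hy
    exact (mem_centralizer_iff.1 (h L hL)) y hyL

lemma Cen_insert {F : Set (Subgroup G)} {L : Subgroup G} :
    Cen (insert L F) = Cen F ⊓ centralizer (L : Set G) := by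
  ext x
  rw [mem_inf, mem_Cen, mem_Cen]
  constructor
  · intro h
    exact ⟨fun M hM => h M (Set.mem_insert_of_mem _ hM), h L (Set.mem_insert _ _)⟩
  · rintro ⟨h1, h2⟩ M hM
    rcases Set.mem_insert_iff.1 hM with rfl | hM
    · exact h2
    · exact h1 M hM

lemma Cen_empty : Cen (∅ : Set (Subgroup G)) = ⊤ := by
  rw [eq_top_iff]
  intro x _
  rw [mem_Cen]
  simp

lemma Family.compLike {F : Set (Subgroup G)} (h : Family p F) {L : Subgroup G} (hL : L ∈ F) :
    CompLike p L := by
  refine ⟨h.centre L hL, ?_, h.dvd L hL⟩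
  intro g hg x hx y hy
  have h1 : cj g L ∈ F := h.conj L hL g
  have h2 : L ≠ cj g L := by
    intro h3
    exact hg (cj_eq_iff.1 h3.symm)
  refine h.comm L hL _ h1 h2 x hx _ ?_
  rw [mem_cj]
  have : g⁻¹ * (g * y * g⁻¹) * g = y := by group
  rwa [this]

lemma Family.le_Cen {F T : Set (Subgroup G)} (h : Family p F) (hT : T ⊆ F) {L : Subgroup G}
    (hL : L ∈ F) (hLT : L ∉ T) : L ≤ Cen T := by
  intro x hx
  rw [mem_Cen]
  intro M hM
  rw [mem_centralizer_iff]
  intro y hy
  refine h.comm M (hT hM) L hL ?_ y hy x hx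
  rintro rfl
  exact hLT hM

lemma zpowers_mem_ApS {x : G} (hx : x ^ p = 1) (hx1 : x ≠ 1) : zpowers x ∈ ApS p G := by
  refine ⟨?_, ?_, ?_⟩
  · intro h
    rw [Subgroup.zpowers_eq_bot] at h
    exact hx1 h
  · rintro _ ⟨i, rfl⟩ _ ⟨j, rfl⟩
    change x ^ i * x ^ j = x ^ j * x ^ i
    rw [← zpow_add, ← zpow_add, add_comm]
  · rintro _ ⟨i, rfl⟩
    change (x ^ i) ^ p = 1
    rw [← zpow_natCast, ← zpow_mul, mul_comm, zpow_mul, zpow_natCast, hx, one_zpow]

lemma free_spec [hp : Fact p.Prime] {r : ℕ} [hr : Fact r.Prime] (hrp : r ≠ p) [Finite G]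
    {L : Subgroup G} (hL : CompLike p L) {U : Subgroup G} (hUL : U ≤ L) (hU : IsPGroup r U)
    (hfree : ∀ E ∈ ApS p G, E ≤ normalizer (L : Set G) →
      U ≤ normalizer (E : Set G) → E ≤ centralizer (L : Set G)) :
    ∀ E ∈ ApS p G, U ≤ normalizer (E : Set G) → E ≤ centralizer (L : Set G) := by
  have hUne : U ≠ ⊥ := by
    rintro rfl
    obtain ⟨x, hx⟩ := exists_prime_orderOf_dvd_card' p hL.dvd
    have hxp : (x : G) ^ p = 1 := by
      have h1 : x ^ p = 1 := by rw [← hx]; exact pow_orderOf_eq_one x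
      simpa using congrArg Subtype.val h1
    have hx1 : (x : G) ≠ 1 := by
      intro h
      have : x = 1 := Subtype.ext h
      rw [this, orderOf_one] at hx
      exact hp.out.one_lt.ne hx
    have hle : zpowers (x : G) ≤ L := by rw [Subgroup.zpowers_le]; exact x.2
    have h2 := hfree _ (zpowers_mem_ApS hxp hx1) (hle.trans Subgroup.le_normalizer) bot_le
    have h3 : (x : G) ∈ L ⊓ centralizer (L : Set G) := ⟨x.2, h2 (mem_zpowers _)⟩
    rw [hL.centre, mem_bot] at h3
    exact hx1 h3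
  intro E hE hUE
  refine hfree E hE ?_ hUE
  intro e he
  by_contra heN
  obtain ⟨u, hu1⟩ := (Subgroup.ne_bot_iff_exists_ne_one).1 hUne
  have huL : (u : G) ∈ L := hUL u.2
  -- the commutator
  have h1 : (u : G) * e * (u : G)⁻¹ ∈ E := by
    have := hUE u.2
    rw [mem_normalizer_iff] at this
    exact (this e).1 he
  have hc : (u : G) * (e * (u : G)⁻¹ * e⁻¹) ∈ E := by
    have := E.mul_mem h1 (E.inv_mem he)
    have h2 : (u : G) * e * (u : G)⁻¹ * e⁻¹ = (u : G) * (e * (u : G)⁻¹ * e⁻¹) := by group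
    rwa [h2] at this
  have hcomm : Commute (u : G) (e * (u : G)⁻¹ * e⁻¹) :=
    hL.conj e heN u huL _ (L.inv_mem huL)
  have h3 := hE.2.2 _ hc
  rw [hcomm.mul_pow] at h3
  have h4 : (e * (u : G)⁻¹ * e⁻¹) ^ p = e * ((u : G) ^ p)⁻¹ * e⁻¹ := by
    rw [conj_pow, inv_pow]
  rw [h4] at h3
  have h5 : (u : G) ^ p = e * (u : G) ^ p * e⁻¹ := by
    calc (u : G) ^ p = (e * ((u : G) ^ p)⁻¹ * e⁻¹)⁻¹ := eq_inv_of_mul_eq_one_left h3
      _ = e * (u : G) ^ p * e⁻¹ := by group
  have h6 : (u : G) ^ p ∈ L ⊓ centralizer (L : Set G) := by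
    refine ⟨L.pow_mem huL p, ?_⟩
    change (u : G) ^ p ∈ centralizer (L : Set G)
    rw [mem_centralizer_iff]
    intro x hx
    have := hL.conj e heN x hx _ (L.pow_mem huL p)
    rwa [← h5] at this
  rw [hL.centre, mem_bot] at h6
  obtain ⟨k, hk⟩ := hU u
  have h7 : (u : G) ^ r ^ k = 1 := by simpa using congrArg Subtype.val hk
  have h8 : Nat.Coprime p (r ^ k) :=
    Nat.Coprime.pow_right k ((Nat.coprime_primes hp.out hr.out).2 hrp.symm)
  have h9 : (u : G) = 1 := by
    rw [← orderOf_eq_one_iff]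
    exact Nat.eq_one_of_dvd_coprimes h8 (orderOf_dvd_of_pow_eq_one h6)
      (orderOf_dvd_of_pow_eq_one h7)
  exact hu1 (Subtype.ext h9)

lemma cj_mem_Ain {H : Subgroup G} {u : G} (hu : u ∈ H) {E : Subgroup G} (hE : E ∈ Ain p H) :
    cj u E ∈ Ain p H := by
  refine ⟨(map_mem_ApS (f := (MulAut.conj u).toMonoidHom) (MulAut.conj u).injective).2 hE.1, ?_⟩
  intro x hx
  rw [mem_cj] at hx
  have h1 := hE.2 hx
  have h2 := H.mul_mem (H.mul_mem hu h1) (H.inv_mem hu)
  have h3 : u * (u⁻¹ * x * u) * u⁻¹ = x := by group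
  rwa [h3] at h2

/-- One Smith step. -/
theorem smith_step [Fact p.Prime] {q : ℕ} [hq : Fact q.Prime] (hqp : q ≠ p)
    (hchar : (q : 𝕜) = 0) [Finite G] (H L : Subgroup G) (hLH : L ≤ H) (hL : CompLike p L)
    (hfree : FreeSub p q L) (hC : NA 𝕜 (Ain p (H ⊓ centralizer (L : Set G)))) :
    NA 𝕜 (Ain p H) := by
  obtain ⟨U, hUL, hU, hf⟩ := hfree
  obtain ⟨n, hn⟩ := IsPGroup.iff_card.1 hU
  have hspec := free_spec hqp hL hUL hU hf
  by_contra hac
  have h1 := smith_group (𝕜 := 𝕜) hchar n U hn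
    (fun u hu E hE => cj_mem_Ain (hLH (hUL hu)) hE) hac
  apply h1
  have : {E | E ∈ Ain p H ∧ U ≤ normalizer (E : Set G)} =
      Ain p (H ⊓ centralizer (L : Set G)) := by
    ext E
    constructor
    · rintro ⟨h1, h2⟩
      exact ⟨h1.1, le_inf h1.2 (hspec E h1.1 h2)⟩
    · rintro ⟨h1, h2⟩
      refine ⟨⟨h1, h2.trans inf_le_left⟩, ?_⟩
      intro u hu
      rw [mem_normalizer_iff]
      have hu' : ∀ x ∈ E, u * x = x * u := fun x hx =>
        mem_centralizer_iff.1 ((h2.trans inf_le_right) hx) u (hUL hu)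
      intro x
      constructor
      · intro hx
        rw [hu' x hx, mul_assoc, mul_inv_cancel, mul_one]
        exact hx
      · intro hx
        have h3 := hu' _ hx
        have h4 : x = u * x * u⁻¹ := by
          have h5 : u * (u * x * u⁻¹) = u * x := by rw [h3]; group
          exact (mul_left_cancel h5).symm
        rw [h4]
        exact hx
  rw [this]
  exact hC

end

section
variable {G : Type u} [Group G] {p : ℕ}

theorem remove [Fact p.Prime] [Finite G] {F : Set (Subgroup G)} (hF : Family p F)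
    {T : Set (Subgroup G)} (hTF : T ⊆ F) (hT : ∀ L ∈ T, Removable 𝕜 p L)
    (hC : NA 𝕜 (Ain p (Cen T))) : NA 𝕜 (ApS p G) := by
  have key : ∀ T : Set (Subgroup G), T.Finite → T ⊆ F → (∀ L ∈ T, Removable 𝕜 p L) →
      NA 𝕜 (Ain p (Cen T)) → NA 𝕜 (Ain p (⊤ : Subgroup G)) := by
    intro T hfin
    induction T, hfin using Set.Finite.induction_on with
    | empty =>
      intro _ _ h
      rwa [Cen_empty] at h
    | @insert L T hLT _ ih =>
      intro hsub hrem h
      have hLF : L ∈ F := hsub (Set.mem_insert _ _)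
      have hTF : T ⊆ F := fun M hM => hsub (Set.mem_insert_of_mem _ hM)
      refine ih hTF (fun M hM => hrem M (Set.mem_insert_of_mem _ hM)) ?_
      rw [Cen_insert] at h
      have hle : L ≤ Cen T := hF.le_Cen hTF hLF hLT
      rcases hrem L (Set.mem_insert _ _) with ⟨h1, h2⟩ | ⟨q, hq, hqp, hchar, hfree⟩
      · exact elim_step (Cen T) L hle (hF.compLike hLF) h1 h2 h
      · have : Fact q.Prime := ⟨hq⟩
        exact smith_step hqp hchar (Cen T) L hle (hF.compLike hLF) hfree h
  have h1 := key T (Set.toFinite T) hTF hT hC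
  have : Ain p (⊤ : Subgroup G) = ApS p G := by
    ext E
    exact ⟨fun h => h.1, fun h => ⟨h, le_top⟩⟩
  rwa [this] at h1

/-- The minimal counterexample. -/
theorem min_few [Fact p.Prime] [Finite G] (hO : OpTrivial p G) (hG : ¬ HQ 𝕜 p G)
    (hmin : ∀ (H : Type u) [Group H] [Finite H], Nat.card H < Nat.card G →
      OpTrivial p H → HQ 𝕜 p H)
    (L : Subgroup G) (hL : CompLike p L) (hC : centralizer (L : Set G) ≠ ⊥) :
    ¬ FewOuter p L := by
  rintro ⟨hout, hconn⟩
  apply hG
  have hLo : OpTrivial p L := opTrivial_of_opIn (hL.opIn_L hO)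
  refine elimination_two L hL ?_ ?_ ?_ ?_ ?_
  · rcases hconn with h | h | h
    · exact Or.inl fun x hx y hy hxp hyp hxL hyL => h x y ⟨hx, hxp, hxL⟩ ⟨hy, hyp, hyL⟩
    · exact Or.inr (Or.inl h)
    · exact Or.inr (Or.inr h)
  · intro x hx y hy z hz hxp hyp hzp hxL hyL hzL
    exact hout x y z ⟨hx, hxp, hxL⟩ ⟨hy, hyp, hyL⟩ ⟨hz, hzp, hzL⟩
  · exact hmin _ (hL.card_L_lt hC) hLo
  · exact hmin _ hL.card_K_lt (opTrivial_of_opIn (hL.opIn_K hO))
  · intro A hA
    refine hmin _ (lt_of_le_of_lt (card_le_card_group A) (card_range_lt hC)) ?_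
    let i : L →* A :=
      { toFun := fun l => ⟨L.normalizerMonoidHom.rangeRestrict (inclusion le_normalizer l),
          hA _ l.2⟩
        map_one' := by
          apply Subtype.ext
          simp
        map_mul' := fun a b => by
          apply Subtype.ext
          simp }
    refine opTrivial_of_aut hLo ((L.normalizerMonoidHom.range.subtype).comp A.subtype) ?_ i ?_ ?_
    · exact (Subgroup.subtype_injective _).comp (Subgroup.subtype_injective _)
    · rw [injective_iff_map_eq_one]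
      intro l hl
      have h1 : (l : G) ∈ centralizer (L : Set G) := by
        rw [mem_centralizer_iff]
        intro x hx
        have h2 : (((i l : L.normalizerMonoidHom.range) : MulAut L) ⟨x, hx⟩ : G)
            = l * x * (l : G)⁻¹ := rfl
        rw [hl] at h2
        have h3 : (x : G) = l * x * (l : G)⁻¹ := h2
        calc x * (l : G) = (l * x * (l : G)⁻¹) * l := by rw [← h3]
          _ = l * x := by group
      have h4 : (l : G) ∈ L ⊓ centralizer (L : Set G) := ⟨l.2, h1⟩
      rw [hL.centre, mem_bot] at h4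
      exact Subtype.ext h4
    · intro l x
      rfl

end

end Vale.Agent.P240.K
end

section

namespace Vale.Agent.P240.K

open Finsupp

section
variable {R R' : Type*} [CommRing R] [CommRing R'] {α : Type*}

/-- boundary over a commutative ring -/
noncomputable def bdR (R : Type*) [CommRing R] {α : Type*} : (List α →₀ R) →ₗ[R] (List α →₀ R) :=
  Finsupp.linearCombination R fun l : List α =>
    ∑ i ∈ Finset.range l.length, (-1 : R) ^ i • Finsupp.single (l.eraseIdx i) (1 : R)

/-- change of coefficients -/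
noncomputable def MR (φ : R →+ R') : (List α →₀ R) →+ (List α →₀ R') :=
  Finsupp.mapRange.addMonoidHom φ

lemma MR_apply (φ : R →+ R') (c : List α →₀ R) (l : List α) : MR φ c l = φ (c l) := rfl

lemma MR_single (φ : R →+ R') (l : List α) (r : R) : MR φ (single l r) = single l (φ r) :=
  Finsupp.mapRange_single (hf := φ.map_zero)

lemma bdR_MR (φ : R →+ R') (c : List α →₀ R) : bdR R' (MR φ c) = MR φ (bdR R c) := by
  have hneg : ∀ (i : ℕ) (r : R), φ (r * (-1) ^ i) = φ r * (-1) ^ i := by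
    intro i r
    rcases neg_one_pow_eq_or R i with h | h
    · rcases neg_one_pow_eq_or R' i with h' | h'
      · rw [h, h', mul_one, mul_one]
      · rcases Nat.even_or_odd i with hi | hi
        · rw [hi.neg_one_pow, hi.neg_one_pow, mul_one, mul_one]
        · rw [hi.neg_one_pow, hi.neg_one_pow, mul_neg_one, mul_neg_one, map_neg]
    · rcases Nat.even_or_odd i with hi | hi
      · rw [hi.neg_one_pow, hi.neg_one_pow, mul_one, mul_one]
      · rw [hi.neg_one_pow, hi.neg_one_pow, mul_neg_one, mul_neg_one, map_neg]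
  induction c using Finsupp.induction_linear with
  | zero => simp
  | add f g hf hg => rw [map_add, map_add, hf, hg, map_add, map_add]
  | single l r =>
    rw [MR_single, bdR, bdR, Finsupp.linearCombination_single, Finsupp.linearCombination_single,
      Finset.smul_sum, Finset.smul_sum, map_sum]
    refine Finset.sum_congr rfl fun i _ => ?_
    rw [smul_smul, smul_smul, Finsupp.smul_single, Finsupp.smul_single, MR_single, smul_eq_mul,
      smul_eq_mul, mul_one, mul_one, hneg]

lemma MR_supported {s : Set (List α)} (φ : R →+ R') {c : List α →₀ R}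
    (hc : c ∈ Finsupp.supported R R s) : MR φ c ∈ Finsupp.supported R' R' s := by
  rw [Finsupp.mem_supported] at hc ⊢
  intro l hl
  apply hc
  rw [Finset.mem_coe, Finsupp.mem_support_iff] at hl ⊢
  intro h
  exact hl (by rw [MR_apply, h, map_zero])

end

section
variable {𝕜 : Type*} [Field 𝕜] {α : Type*} [PartialOrder α] {S : Set α}

lemma st_finite (hS : S.Finite) : {l : List α | st S l}.Finite := by
  classical
  have h : {l : List α | st S l} ⊆ ⋃ n ∈ Finset.range (hS.toFinset.card + 1), stn S n := by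
    intro l hl
    rw [Set.mem_iUnion₂]
    refine ⟨l.length, ?_, rfl, hl⟩
    rw [Finset.mem_range]
    exact Nat.lt_succ_of_le (st_length_le hS hl)
  refine Set.Finite.subset ?_ h
  refine Set.Finite.biUnion (Finset.finite_toSet _) fun n _ => stn_finite hS n

omit [PartialOrder α] in
lemma bdR_eq {K : Type*} [Field K] (c : List α →₀ K) : bdR K c = bd c := rfl

lemma castZ_inj {x y : ℤ} (h : Int.castAddHom ℚ x = Int.castAddHom ℚ y) : x = y :=
  Int.cast_injective (α := ℚ) h

/-- Acyclicity descends along a split extension. -/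
lemma not_NA_retr {F : Type*} [Field F] (ι : F →+ 𝕜) (ρ : 𝕜 →+ F) (h : ∀ x, ρ (ι x) = x)
    (hac : ¬ NA 𝕜 S) : ¬ NA F S := by
  rw [not_NA_iff] at hac ⊢
  intro z hz hb
  obtain ⟨c, hc, hcz⟩ := hac (MR ι z) (MR_supported ι hz) (by
    rw [← bdR_eq, bdR_MR, bdR_eq, hb, map_zero])
  refine ⟨MR ρ c, MR_supported ρ hc, ?_⟩
  rw [← bdR_eq, bdR_MR, bdR_eq, hcz]
  ext l
  rw [MR_apply, MR_apply, h]

/-- an additive map to a subfield fixing `1` -/
lemma exists_retr (F : Type*) [Field F] [Algebra F 𝕜] :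
    ∃ ρ : 𝕜 →ₗ[F] F, ρ 1 = 1 := by
  obtain ⟨f, -, hf⟩ := exists_functional (𝕜 := F) (⊥ : Submodule F 𝕜) 1 (by
    rw [Submodule.mem_bot]; exact one_ne_zero)
  exact ⟨(f 1)⁻¹ • f, by rw [LinearMap.smul_apply, smul_eq_mul, inv_mul_cancel₀ hf]⟩

/-- **Universal coefficients**: an acyclic finite poset over some field is `ℚ`-acyclic. -/
theorem NA_of_rat (hS : S.Finite) (h : NA ℚ S) : NA 𝕜 S := by
  by_contra hac
  apply absurd h
  obtain ⟨q, hq⟩ := CharP.exists 𝕜
  rcases Nat.eq_zero_or_pos q with hq0 | hq0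
  · subst hq0
    have : CharZero 𝕜 := CharP.charP_to_charZero 𝕜
    obtain ⟨ρ, hρ⟩ := exists_retr (𝕜 := 𝕜) ℚ
    refine not_NA_retr (Rat.castHom 𝕜).toAddMonoidHom ρ.toAddMonoidHom (fun x => ?_) hac
    change ρ ((x : ℚ) : 𝕜) = x
    have : ((x : ℚ) : 𝕜) = x • (1 : 𝕜) := by rw [Rat.smul_one_eq_cast]
    rw [this, map_smul, hρ, smul_eq_mul, mul_one]
  · have hqp : q.Prime := (CharP.char_is_prime_or_zero 𝕜 q).resolve_right hq0.ne'
    have : Fact q.Prime := ⟨hqp⟩
    let alg : Algebra (ZMod q) 𝕜 := ZMod.algebra 𝕜 q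
    obtain ⟨ρ, hρ⟩ := exists_retr (𝕜 := 𝕜) (ZMod q)
    have hac' : ¬ NA (ZMod q) S := by
      refine not_NA_retr (algebraMap (ZMod q) 𝕜).toAddMonoidHom ρ.toAddMonoidHom (fun x => ?_) hac
      change ρ (algebraMap (ZMod q) 𝕜 x) = x
      rw [Algebra.algebraMap_eq_smul_one, map_smul, hρ, smul_eq_mul, mul_one]
    clear hac hρ ρ alg hq
    rw [not_NA_iff] at hac' ⊢
    -- integral cycles and boundaries
    let st' : Set (List α) := {l | st S l}
    let C : Submodule ℤ (List α →₀ ℤ) := Finsupp.supported ℤ ℤ st'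
    let Z : Submodule ℤ (List α →₀ ℤ) := C ⊓ LinearMap.ker (bdR ℤ)
    let B : Submodule ℤ (List α →₀ ℤ) := C.map (bdR ℤ)
    have hstf : st'.Finite := st_finite hS
    have hCfg : C.FG := by
      have : Finite st' := hstf
      have h1 : Module.Finite ℤ C :=
        Module.Finite.equiv (Finsupp.supportedEquivFinsupp (M := ℤ) (R := ℤ) st').symm
      exact Module.Finite.iff_fg.1 h1
    have hZfg : Z.FG := by
      have hN : IsNoetherian ℤ C := isNoetherian_of_fg_of_noetherian C hCfg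
      have h2 : (Z.comap C.subtype).FG := IsNoetherian.noetherian _
      have h3 : (Z.comap C.subtype).map C.subtype = Z := by
        rw [Submodule.map_comap_subtype]
        exact inf_eq_right.2 inf_le_left
      rw [← h3]
      exact h2.map _
    have hcast : ∀ z : List α →₀ ℤ, ∀ l, MR (Int.castAddHom (ZMod q)) z l = ((z l : ℤ) : ZMod q) :=
      fun _ _ => rfl
    have hstep : ∀ z ∈ Z, ∃ b ∈ B, ∃ y ∈ Z, z = b + (q : ℤ) • y := by
      rintro z ⟨hz, hbz⟩
      have hbz' : bdR ℤ z = 0 := hbz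
      obtain ⟨c, hc, hcz⟩ := hac' (MR (Int.castAddHom (ZMod q)) z) (MR_supported _ hz) (by
        rw [← bdR_eq, bdR_MR, hbz', map_zero])
      let c2 : List α →₀ ℤ := Finsupp.mapRange (fun x : ZMod q => (x.val : ℤ)) (by simp) c
      have hc2 : MR (Int.castAddHom (ZMod q)) c2 = c := by
        ext l
        rw [hcast]
        change (((c l).val : ℤ) : ZMod q) = c l
        simp
      have hc2s : c2 ∈ C := by
        change c2 ∈ Finsupp.supported ℤ ℤ st'
        rw [Finsupp.mem_supported]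
        intro l hl
        have hc' : c ∈ Finsupp.supported (ZMod q) (ZMod q) st' := hc
        rw [Finsupp.mem_supported] at hc'
        apply hc'
        rw [Finset.mem_coe, Finsupp.mem_support_iff] at hl ⊢
        intro h0
        apply hl
        change (((c l).val : ℕ) : ℤ) = 0
        rw [h0]
        simp
      set w : List α →₀ ℤ := z - bdR ℤ c2 with hw
      have hwdvd : ∀ l, (q : ℤ) ∣ w l := by
        intro l
        rw [← ZMod.intCast_zmod_eq_zero_iff_dvd, ← hcast, hw, map_sub, ← bdR_MR, hc2, bdR_eq, hcz,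
          sub_self]
        rfl
      let y : List α →₀ ℤ := Finsupp.mapRange (fun x : ℤ => x / q) (by simp) w
      have hwy : w = (q : ℤ) • y := by
        ext l
        change w l = (q : ℤ) * (w l / q)
        rw [Int.mul_ediv_cancel' (hwdvd l)]
      have hbw : bdR ℤ w = 0 := by
        have hbb : bdR ℤ (bdR ℤ c2) = 0 := by
          have hinj : Function.Injective (MR (α := α) (Int.castAddHom ℚ)) := by
            intro a b hab
            ext l
            have := DFunLike.congr_fun hab l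
            rw [MR_apply, MR_apply] at this
            exact castZ_inj this
          apply hinj
          rw [← bdR_MR, ← bdR_MR, map_zero, bdR_eq, bdR_eq, bd_bd]
        rw [hw, map_sub, hbz', hbb, sub_zero]
      have hws : w ∈ C := by
        refine Submodule.sub_mem _ hz ?_
        change bdR ℤ c2 ∈ Finsupp.supported ℤ ℤ st'
        rw [Finsupp.mem_supported]
        intro l hl
        have h4 : bd (MR (Int.castAddHom ℚ) c2) ∈ Sp ℚ (st S) := bd_st (MR_supported _ hc2s)
        rw [mem_Sp] at h4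
        refine h4 l ?_
        rw [Finset.mem_coe, Finsupp.mem_support_iff] at hl
        rw [Finsupp.mem_support_iff, ← bdR_eq, bdR_MR, MR_apply]
        intro h5
        exact hl (castZ_inj (h5.trans (map_zero _).symm))
      refine ⟨bdR ℤ c2, ⟨c2, hc2s, rfl⟩, y, ⟨?_, ?_⟩, ?_⟩
      · change y ∈ Finsupp.supported ℤ ℤ st'
        rw [Finsupp.mem_supported]
        intro l hl
        have hws' : w ∈ Finsupp.supported ℤ ℤ st' := hws
        rw [Finsupp.mem_supported] at hws'
        apply hws'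
        rw [Finset.mem_coe, Finsupp.mem_support_iff] at hl ⊢
        intro h0
        apply hl
        change w l / q = 0
        rw [h0]
        simp
      · change bdR ℤ y = 0
        rw [hwy, map_smul] at hbw
        exact (smul_eq_zero.1 hbw).resolve_left (by exact_mod_cast hqp.ne_zero)
      · rw [← hwy, hw]
        abel
    -- Nakayama
    have hnak := Submodule.exists_sub_one_mem_and_smul_eq_zero_of_fg_of_le_smul
      (Ideal.span {(q : ℤ)}) (Z.map B.mkQ) (hZfg.map _) (by
        rintro _ ⟨z, hz, rfl⟩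
        obtain ⟨b, hb, y, hy, rfl⟩ := hstep z hz
        have hb0 : B.mkQ b = 0 := (Submodule.Quotient.mk_eq_zero B).2 hb
        rw [map_add, hb0, zero_add, map_smul]
        exact Submodule.smul_mem_smul (Ideal.mem_span_singleton_self _) ⟨y, hy, rfl⟩)
    obtain ⟨r, hr, hrz⟩ := hnak
    have hr0 : r ≠ 0 := by
      rintro rfl
      rw [Ideal.mem_span_singleton, zero_sub, dvd_neg] at hr
      have : q ∣ 1 := by exact_mod_cast hr
      exact hqp.one_lt.ne' (Nat.dvd_one.1 this)
    intro z hz hb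
    -- clear denominators
    let m : ℤ := ∏ l ∈ z.support, ((z l).den : ℤ)
    have hm0 : m ≠ 0 := Finset.prod_ne_zero_iff.2 fun l _ => by exact_mod_cast (z l).den_nz
    have hint : ∀ l, ∃ k : ℤ, (m : ℚ) * z l = k := by
      intro l
      by_cases hl : l ∈ z.support
      · have h1 : ((z l).den : ℤ) ∣ m := Finset.dvd_prod_of_mem (fun l => ((z l).den : ℤ)) hl
        obtain ⟨t, ht⟩ := h1
        refine ⟨t * (z l).num, ?_⟩
        rw [ht]
        push_cast
        have h2 : ((z l).den : ℚ) * z l = (z l).num := by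
          rw [mul_comm]; exact Rat.mul_den_eq_num _
        calc ((z l).den : ℚ) * t * z l = t * (((z l).den : ℚ) * z l) := by ring
          _ = t * (z l).num := by rw [h2]
      · rw [Finsupp.notMem_support_iff] at hl
        exact ⟨0, by rw [hl]; simp⟩
    choose k hk using hint
    have hk0 : ∀ l, k l ≠ 0 → l ∈ z.support := by
      intro l hl
      rw [Finsupp.mem_support_iff]
      intro h0
      apply hl
      have := hk l
      rw [h0, mul_zero] at this
      exact_mod_cast this.symm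
    let zi : List α →₀ ℤ := Finsupp.onFinset z.support k hk0
    have hzi : MR (Int.castAddHom ℚ) zi = (m : ℚ) • z := by
      ext l
      change ((k l : ℤ) : ℚ) = m * z l
      rw [hk]
    have hziZ : zi ∈ Z := by
      refine ⟨?_, ?_⟩
      · change zi ∈ Finsupp.supported ℤ ℤ st'
        rw [Finsupp.mem_supported]
        intro l hl
        rw [Finset.mem_coe, Finsupp.mem_support_iff] at hl
        exact (mem_Sp.1 hz) l (hk0 l hl)
      · change bdR ℤ zi = 0
        ext l
        have h1 : MR (Int.castAddHom ℚ) (bdR ℤ zi) l = 0 := by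
          rw [← bdR_MR, hzi, bdR_eq, map_smul, hb, smul_zero]
          rfl
        rw [MR_apply] at h1
        exact castZ_inj (h1.trans (map_zero _).symm)
    have h2 := hrz _ ⟨zi, hziZ, rfl⟩
    rw [← map_smul, Submodule.mkQ_apply, Submodule.Quotient.mk_eq_zero] at h2
    obtain ⟨c, hc, hcz⟩ := h2
    have hrm : (r : ℚ) * m ≠ 0 := mul_ne_zero (by exact_mod_cast hr0) (by exact_mod_cast hm0)
    refine ⟨((r : ℚ) * m)⁻¹ • MR (Int.castAddHom ℚ) c,
      Submodule.smul_mem _ _ (MR_supported _ hc), ?_⟩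
    rw [map_smul, ← bdR_eq, bdR_MR, hcz]
    have h3 : MR (Int.castAddHom ℚ) (r • zi) = (r : ℚ) • MR (Int.castAddHom ℚ) zi := by
      ext l
      change (((r • zi) l : ℤ) : ℚ) = (r : ℚ) * ((zi l : ℤ) : ℚ)
      rw [Finsupp.smul_apply, smul_eq_mul]
      push_cast
      ring
    rw [h3, hzi, smul_smul, smul_smul, mul_assoc, inv_mul_cancel₀ hrm, one_smul]

end

end Vale.Agent.P240.K
end

section

namespace Vale.Agent.P240.K

open Finsupp

variable {𝕜 : Type*} [Field 𝕜] {α : Type*}

/-! ### Prism operator for `ρ ≤ id` -/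

noncomputable def h2L (ρ : α → α) : List α → Ch 𝕜 α
  | [] => 0
  | x :: l => single (x :: ρ x :: l.map ρ) 1 - cons x (h2L ρ l)

/-- prism operator for `ρ ≤ id` -/
noncomputable def h2 (ρ : α → α) : Ch 𝕜 α →ₗ[𝕜] Ch 𝕜 α := Finsupp.linearCombination 𝕜 (h2L ρ)

lemma h2_single (ρ : α → α) (l : List α) : h2 ρ (single l (1 : 𝕜)) = h2L ρ l := by
  simp [h2, Finsupp.linearCombination_single]

lemma h2_cons (ρ : α → α) (x : α) (c : Ch 𝕜 α) :
    h2 ρ (cons x c) = cons x (cons (ρ x) (mp ρ c)) - cons x (h2 ρ c) := by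
  have := lin_ext_apply (f := (h2 ρ).comp (cons x))
    (g := ((cons x).comp (cons (ρ x))).comp (mp ρ) - (cons x).comp (h2 ρ))
    (fun l => by simp [h2_single, h2L]) c
  simpa using this

lemma bd_h2 (ρ : α → α) (c : Ch 𝕜 α) : bd (h2 ρ c) + h2 ρ (bd c) = mp ρ c - c := by
  have := ch_ext_apply (F := bd.comp (h2 ρ) + (h2 ρ).comp bd)
    (G := mp ρ - LinearMap.id) (by simp [h2_single, h2L])
    (fun y c h => by
      simp only [LinearMap.comp_apply, LinearMap.sub_apply, LinearMap.id_apply,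
        LinearMap.add_apply] at h
      simp only [LinearMap.comp_apply, LinearMap.sub_apply, LinearMap.id_apply,
        LinearMap.add_apply, h2_cons, map_sub, bd_cons, mp_cons, bd_mp]
      have h' : bd (h2 ρ c) = mp ρ c - c - h2 ρ (bd c) := by rw [← h]; abel
      rw [h']
      simp only [map_sub]
      abel) c
  simpa using this

/-- support of the prism operator -/
lemma h2_mem [Preorder α] {S : Set α} {ρ : α → α} (hρS : ∀ x ∈ S, ρ x ∈ S)
    (hle : ∀ x ∈ S, ρ x ≤ x) (hmono : ∀ x ∈ S, ∀ y ∈ S, x ≤ y → ρ x ≤ ρ y) {c : Ch 𝕜 α}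
    (hc : c ∈ Sp 𝕜 (wk S)) : h2 ρ c ∈ Sp 𝕜 (wk S) := by
  refine map_mem _ (fun l hl => ?_) hc
  rw [h2_single]
  have key : ∀ l : List α, wk S l → h2L ρ l ∈ Sp 𝕜 (fun m : List α => wk S m ∧
      ∀ a ∈ m, ∃ b ∈ l, a ≤ b) := by
    intro l
    induction l with
    | nil => intro _; exact Submodule.zero_mem _
    | cons x l ih =>
      intro hl
      have hp := List.pairwise_cons.1 hl.1
      have hxT : x ∈ S := hl.2 x (by simp)
      have hlT : wk S l := ⟨hp.2, fun a ha => hl.2 a (by simp [ha])⟩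
      have hρl : ∀ a ∈ ρ x :: l.map ρ, a ≤ x ∧ a ∈ S := by
        intro a ha
        rcases List.mem_cons.1 ha with h | ha
        · rw [h]; exact ⟨hle _ hxT, hρS _ hxT⟩
        · obtain ⟨b, hb, rfl⟩ := List.mem_map.1 ha
          exact ⟨(hle _ (hlT.2 b hb)).trans (hp.1 b hb), hρS _ (hlT.2 b hb)⟩
      have c1 : wk S (x :: ρ x :: l.map ρ) ∧ ∀ a ∈ x :: ρ x :: l.map ρ, ∃ b ∈ x :: l, a ≤ b := by
        refine ⟨⟨?_, ?_⟩, ?_⟩
        · rw [List.pairwise_cons]
          refine ⟨fun a ha => (hρl a ha).1, ?_⟩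
          rw [← List.map_cons, List.pairwise_map]
          exact hl.1.imp_of_mem fun {a b} ha hb hab => hmono _ (hl.2 b hb) _ (hl.2 a ha) hab
        · intro a ha
          rcases List.mem_cons.1 ha with h | ha
          · rw [h]; exact hxT
          · exact (hρl a ha).2
        · intro a ha
          refine ⟨x, by simp, ?_⟩
          rcases List.mem_cons.1 ha with h | ha
          · rw [h]
          · exact (hρl a ha).1
      have c2 : ∀ m : List α, (wk S m ∧ ∀ a ∈ m, ∃ b ∈ l, a ≤ b) →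
          (wk S (x :: m) ∧ ∀ a ∈ x :: m, ∃ b ∈ x :: l, a ≤ b) := by
        rintro m ⟨hm, hm'⟩
        refine ⟨⟨?_, ?_⟩, ?_⟩
        · rw [List.pairwise_cons]
          refine ⟨?_, hm.1⟩
          intro a ha
          obtain ⟨b, hb, hab⟩ := hm' a ha
          exact le_trans hab (hp.1 b hb)
        · intro a ha
          rcases List.mem_cons.1 ha with h | ha
          · rw [h]; exact hxT
          · exact hm.2 a ha
        · intro a ha
          rcases List.mem_cons.1 ha with h | ha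
          · rw [h]; exact ⟨x, by simp, le_refl _⟩
          · obtain ⟨b, hb, hab⟩ := hm' a ha
            exact ⟨b, by simp [hb], hab⟩
      exact Submodule.sub_mem _ (single_mem_Sp c1 _) (cons_mem c2 (ih hlT))
  exact Sp_mono (fun m hm => hm.1) (key l hl)

section
variable [PartialOrder α]

/-- a monotone map sends strict chains to weak chains -/
lemma mp_wk {S R : Set α} {ρ : α → α} (hρ : ∀ x ∈ S, ρ x ∈ R)
    (hmono : ∀ x ∈ S, ∀ y ∈ S, x ≤ y → ρ x ≤ ρ y) {c : Ch 𝕜 α} (hc : c ∈ Sp 𝕜 (st S)) :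
    mp ρ c ∈ Sp 𝕜 (wk R) := by
  refine mp_mem (P := st S) ?_ hc
  intro l hl
  refine ⟨?_, ?_⟩
  · rw [List.pairwise_map]
    exact hl.1.imp_of_mem fun {a b} ha hb hab => hmono _ (hl.2 b hb) _ (hl.2 a ha) (le_of_lt hab)
  · intro a ha
    obtain ⟨b, hb, rfl⟩ := List.mem_map.1 ha
    exact hρ _ (hl.2 b hb)

/-- A retract of an acyclic poset is acyclic. -/
lemma not_NA_retract {S R : Set α} {ρ : α → α} (hRS : R ⊆ S) (hρ : ∀ x ∈ S, ρ x ∈ R)
    (hmono : ∀ x ∈ S, ∀ y ∈ S, x ≤ y → ρ x ≤ ρ y) (hid : ∀ x ∈ R, ρ x = x)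
    (hac : ¬ NA 𝕜 S) : ¬ NA 𝕜 R := by
  rw [not_NA_iff] at hac ⊢
  intro z hz hbz
  obtain ⟨c, hc, hcz⟩ := hac z (Sp_mono (st_mono hRS) hz) hbz
  have h1 := mp_wk (𝕜 := 𝕜) hρ hmono hc
  refine ⟨pi (mp ρ c), pi_mem h1, ?_⟩
  rw [bd_pi h1, bd_mp, hcz]
  have h2 : mp ρ z = z := mp_eq_self (P := st R) (fun l hl a ha => hid a (hl.2 a ha)) hz
  rw [h2, pi_of_st hz]

/-- If a poset retracts downwards onto an acyclic one, it is acyclic. -/
lemma not_NA_down {S R : Set α} {ρ : α → α} (hRS : R ⊆ S) (hρ : ∀ x ∈ S, ρ x ∈ R)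
    (hle : ∀ x ∈ S, ρ x ≤ x) (hmono : ∀ x ∈ S, ∀ y ∈ S, x ≤ y → ρ x ≤ ρ y)
    (hac : ¬ NA 𝕜 R) : ¬ NA 𝕜 S := by
  rw [not_NA_iff] at hac ⊢
  intro z hz hbz
  have h1 := mp_wk (𝕜 := 𝕜) hρ hmono hz
  obtain ⟨d, hd, hdz⟩ := hac (pi (mp ρ z)) (pi_mem h1) (by
    rw [bd_pi h1, bd_mp, hbz, map_zero, map_zero])
  have hzw : z ∈ Sp 𝕜 (wk S) := Sp_mono (fun l hl => st_wk l hl) hz
  have h2' := h2_mem (𝕜 := 𝕜) (fun x hx => hRS (hρ x hx)) hle hmono hzw
  refine ⟨d - pi (h2 ρ z), Submodule.sub_mem _ (Sp_mono (st_mono hRS) hd) (pi_mem h2'), ?_⟩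
  have h3 := bd_h2 ρ z
  rw [hbz, map_zero, add_zero] at h3
  rw [map_sub, bd_pi h2', h3, map_sub, pi_of_st hz, hdz]
  abel

/-- Attaching a minimal element with acyclic upper link. -/
lemma not_NA_attach {S : Set α} {T : α} (hT : T ∈ S) (hmin : ∀ x ∈ S, ¬ x < T)
    (hac : ¬ NA 𝕜 (S \ {T})) (hlk : ¬ NA 𝕜 {x | x ∈ S ∧ T < x}) : ¬ NA 𝕜 S := by
  rw [not_NA_iff] at hac hlk ⊢
  intro z hz hbz
  set Lk : Set α := {x | x ∈ S ∧ T < x} with hLk
  have hLkS : Lk ⊆ S \ {T} := by
    rintro x ⟨h1, h2⟩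
    exact ⟨h1, fun h => h2.ne' h⟩
  obtain ⟨a, ha, b2, hb2, hzab⟩ := Sp_or (P := st S) (P1 := st (S \ {T}))
    (P2 := fun l => ∃ m, st Lk m ∧ l = m ++ [T]) (fun l hl => by
      by_cases hTl : T ∈ l
      · right
        obtain ⟨m, n, rfl⟩ := List.append_of_mem hTl
        have hp := List.pairwise_append.1 hl.1
        have hn : n = [] := by
          rcases n with _ | ⟨y, n⟩
          · rfl
          · exfalso
            have h1 := (List.pairwise_cons.1 hp.2.1).1 y (by simp)
            exact hmin y (hl.2 y (by simp)) h1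
        subst hn
        refine ⟨m, ⟨hp.1, fun x hx => ⟨hl.2 x (by simp [hx]), ?_⟩⟩, rfl⟩
        exact hp.2.2 x hx T (by simp)
      · left
        exact ⟨hl.1, fun x hx => ⟨hl.2 x hx, fun h => hTl (h ▸ hx)⟩⟩) hz
  obtain ⟨b, hb, rfl⟩ : ∃ b ∈ Sp 𝕜 (st Lk), ap T b = b2 := by
    have : (LinearMap.id : Ch 𝕜 α →ₗ[𝕜] Ch 𝕜 α) b2 ∈ (Sp 𝕜 (st Lk)).map (ap T) := by
      refine map_mem (M := Ch 𝕜 α) LinearMap.id ?_ hb2
      rintro l ⟨m, hm, rfl⟩
      exact ⟨single m 1, single_mem_Sp hm _, by simp⟩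
    exact this
  -- `bd b = 0`
  have hba : bd a ∈ Sp 𝕜 (fun l : List α => T ∉ l) :=
    bd_mem (fun l l' hs hl hT' => hl (hs.subset hT'))
      (Sp_mono (fun l (hl : st (S \ {T}) l) hTl => (hl.2 T hTl).2 rfl) ha)
  have hsb : sg b ∈ Sp 𝕜 (fun l : List α => T ∉ l) :=
    sg_mem (Sp_mono (fun l (hl : st Lk l) hTl => lt_irrefl _ (hl.2 T hTl).2) hb)
  have hsum : bd a + (ap T (bd b) + sg b) = 0 := by
    rw [hzab, map_add, bd_ap] at hbz
    exact hbz
  have hap0 : ap T (bd b) = 0 := by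
    have h1 : ap T (bd b) = - (bd a + sg b) := by
      rw [eq_neg_iff_add_eq_zero, ← hsum]; abel
    have h2 : ap T (bd b) ∈ Sp 𝕜 (fun l : List α => T ∉ l) := by
      rw [h1]
      exact Submodule.neg_mem _ (Submodule.add_mem _ hba hsb)
    have h3 : ap T (bd b) ∈ Sp 𝕜 (fun l : List α => T ∈ l) :=
      ap_mem (P := fun _ => True) (fun l _ => by simp) (by simp [mem_Sp])
    have h4 := mem_Sp_inf h2 h3
    rw [← Finsupp.support_eq_empty, Finset.eq_empty_iff_forall_notMem]
    intro l hl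
    exact (mem_Sp.1 h4 l hl).1 (mem_Sp.1 h4 l hl).2
  have hb0 : bd b = 0 := by
    have hinj : Function.Injective (ap (𝕜 := 𝕜) T) := by
      intro c d hcd
      exact Finsupp.mapDomain_injective (f := fun l : List α => l ++ [T])
        (fun l m h => List.append_cancel_right h) hcd
    exact hinj (by rw [hap0, map_zero])
  obtain ⟨b', hb', rfl⟩ := hlk b hb hb0
  obtain ⟨a', ha', haa⟩ := hac (a - sg b') (Submodule.sub_mem _ ha
    (sg_mem (Sp_mono (st_mono hLkS) hb'))) (by
      rw [map_sub, bd_sg]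
      rw [hap0, zero_add] at hsum
      rw [sub_neg_eq_add]
      exact hsum)
  refine ⟨a' + ap T b', Submodule.add_mem _ (Sp_mono (st_mono fun x hx => hx.1) ha') ?_, ?_⟩
  · refine ap_mem (P := st Lk) ?_ hb'
    intro l hl
    refine ⟨?_, ?_⟩
    · rw [List.pairwise_append]
      refine ⟨hl.1, by simp, ?_⟩
      intro x hx y hy
      rw [List.mem_singleton] at hy
      subst hy
      exact (hl.2 x hx).2
    · intro x hx
      rcases List.mem_append.1 hx with hx | hx
      · exact (hl.2 x hx).1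
      · rw [List.mem_singleton] at hx
        subst hx
        exact hT
  · rw [map_add, haa, bd_ap, hzab]
    abel

/-- Attaching many elements with acyclic upper links to an upwards closed subset. -/
lemma not_NA_attach_all {S : Set α} (hS : S.Finite) {X : Set α} (hXS : X ⊆ S)
    (hup : ∀ x ∈ X, ∀ y ∈ S, x ≤ y → y ∈ X) (hX : ¬ NA 𝕜 X)
    (hlk : ∀ T ∈ S, T ∉ X → ¬ NA 𝕜 {x | x ∈ S ∧ T < x}) : ¬ NA 𝕜 S := by
  classical
  have key : ∀ n : ℕ, ∀ S : Set α, S.Finite → X ⊆ S → (S \ X).ncard = n →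
      (∀ x ∈ X, ∀ y ∈ S, x ≤ y → y ∈ X) →
      (∀ T ∈ S, T ∉ X → ¬ NA 𝕜 {x | x ∈ S ∧ T < x}) → ¬ NA 𝕜 S := by
    intro n
    induction n with
    | zero =>
      intro S hS hXS hn _ _
      rw [Set.ncard_eq_zero (hS.subset Set.diff_subset)] at hn
      have : S = X := Set.Subset.antisymm (Set.diff_eq_empty.1 hn) hXS
      rwa [this]
    | succ n ih =>
      intro S hS hXS hn hup hlk
      have hfin : (S \ X).Finite := hS.subset Set.diff_subset
      have hne : (S \ X).Nonempty := by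
        rw [Set.nonempty_iff_ne_empty]
        intro h
        rw [h, Set.ncard_empty] at hn
        omega
      obtain ⟨T, hT⟩ := hfin.exists_minimal hne
      have hTS : T ∈ S := hT.prop.1
      have hTX : T ∉ X := hT.prop.2
      have hmin : ∀ x ∈ S, ¬ x < T := by
        intro x hx hlt
        by_cases hxX : x ∈ X
        · exact hTX (hup x hxX T hTS hlt.le)
        · exact hlt.not_ge (hT.2 (show x ∈ S \ X from ⟨hx, hxX⟩) hlt.le)
      refine not_NA_attach hTS hmin ?_ (hlk T hTS hTX)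
      refine ih (S \ {T}) (hS.subset Set.diff_subset) ?_ ?_ ?_ ?_
      · intro x hx
        exact ⟨hXS hx, fun h => hTX (h ▸ hx)⟩
      · have : (S \ {T}) \ X = (S \ X) \ {T} := by
          ext x
          simp only [Set.mem_diff, Set.mem_singleton_iff]
          tauto
        rw [this, Set.ncard_diff_singleton_of_mem (show T ∈ S \ X from ⟨hTS, hTX⟩), hn]
        rfl
      · intro x hx y hy hxy
        exact hup x hx y hy.1 hxy
      · intro T' hT' hT'X
        have : {x | x ∈ S \ {T} ∧ T' < x} = {x | x ∈ S ∧ T' < x} := by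
          ext x
          constructor
          · rintro ⟨h1, h2⟩
            exact ⟨h1.1, h2⟩
          · rintro ⟨h1, h2⟩
            refine ⟨⟨h1, ?_⟩, h2⟩
            rintro rfl
            exact hmin T' hT'.1 h2
        rw [this]
        exact hlk T' hT'.1 hT'X
  exact key _ S hS hXS rfl hup hlk

end

end Vale.Agent.P240.K
end

section

namespace Vale.Agent.P240.K

open Finsupp Subgroup

variable {𝕜 : Type*} [Field 𝕜] {G : Type*} [Group G] {p : ℕ}

lemma mem_sup_comm {A B : Subgroup G} (h : ∀ a ∈ A, ∀ b ∈ B, a * b = b * a) {x : G}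
    (hx : x ∈ A ⊔ B) : ∃ a ∈ A, ∃ b ∈ B, x = a * b := by
  let T : Subgroup G :=
    { carrier := {x | ∃ a ∈ A, ∃ b ∈ B, x = a * b}
      one_mem' := ⟨1, one_mem _, 1, one_mem _, by simp⟩
      mul_mem' := by
        rintro _ _ ⟨l, hl, c, hc, rfl⟩ ⟨l', hl', c', hc', rfl⟩
        refine ⟨l * l', mul_mem hl hl', c * c', mul_mem hc hc', ?_⟩
        rw [mul_assoc, ← mul_assoc c, ← h l' hl' c hc]
        group
      inv_mem' := by
        rintro _ ⟨l, hl, c, hc, rfl⟩
        refine ⟨l⁻¹, inv_mem hl, c⁻¹, inv_mem hc, ?_⟩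
        rw [mul_inv_rev, h _ (inv_mem hl) _ (inv_mem hc)] }
  have h1 : A ≤ T := fun l hl => ⟨l, hl, 1, one_mem _, by simp⟩
  have h2 : B ≤ T := fun c hc => ⟨1, one_mem _, c, hc, by simp⟩
  exact (sup_le h1 h2) hx

lemma ApS_isPGroup {E : Subgroup G} (hE : E ∈ ApS p G) : IsPGroup p E := by
  intro x
  refine ⟨1, ?_⟩
  rw [pow_one]
  exact Subtype.ext (by simpa using hE.2.2 x x.2)

lemma ApS_dvd [hp : Fact p.Prime] [Finite G] {E : Subgroup G} (hE : E ∈ ApS p G) :
    p ∣ Nat.card E := by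
  obtain ⟨x, hx⟩ := (Subgroup.ne_bot_iff_exists_ne_one).1 hE.1
  have h1 : orderOf (x : G) = p := orderOf_eq_prime (hE.2.2 x x.2) (by
    intro h
    exact hx (Subtype.ext h))
  rw [← h1, Subgroup.orderOf_coe]
  exact orderOf_dvd_natCard x

/-- A `p`-group normalizing `E` centralizes a nontrivial subgroup of `E`. -/
lemma fixed_ne_bot [hp : Fact p.Prime] [Finite G] {E T : Subgroup G} (hE : E ∈ ApS p G)
    (hT : IsPGroup p T) (hTE : T ≤ normalizer (E : Set G)) :
    E ⊓ centralizer (T : Set G) ≠ ⊥ := by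
  let act : MulAction T E :=
    MulAction.compHom E ((E.normalizerMonoidHom).comp (Subgroup.inclusion hTE))
  have hsmul : ∀ (t : T) (x : E), ((t • x : E) : G) = t * x * (t : G)⁻¹ := fun t x => rfl
  have h1 : (1 : E) ∈ MulAction.fixedPoints T E := by
    intro t
    apply Subtype.ext
    rw [hsmul]
    simp
  obtain ⟨b, hb, hb1⟩ := hT.exists_fixed_point_of_prime_dvd_card_of_fixed_point E
    (ApS_dvd hE) h1
  intro h
  have h2 : (b : G) ∈ E ⊓ centralizer (T : Set G) := by
    refine ⟨b.2, ?_⟩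
    change (b : G) ∈ centralizer (T : Set G)
    rw [mem_centralizer_iff]
    intro t ht
    have h3 := congrArg Subtype.val (hb ⟨t, ht⟩)
    rw [hsmul] at h3
    calc t * (b : G) = (t * b * t⁻¹) * t := by group
      _ = b * t := by rw [h3]
  rw [h, mem_bot] at h2
  exact hb1 (Subtype.ext h2.symm)

/-- Smith theory: if `𝒜ₚ(N)` is acyclic over a field of characteristic `p` and the `p`-group `T`
normalizes `N`, then `𝒜ₚ(C_N(T))` is acyclic. -/
theorem smith_cent [hp : Fact p.Prime] (hchar : (p : 𝕜) = 0) [Finite G] {N T : Subgroup G}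
    (hTN : T ≤ normalizer (N : Set G)) (hT : IsPGroup p T) (hac : ¬ NA 𝕜 (Ain p N)) :
    ¬ NA 𝕜 (Ain p (N ⊓ centralizer (T : Set G))) := by
  obtain ⟨n, hn⟩ := IsPGroup.iff_card.1 hT
  have h1 := smith_group (𝕜 := 𝕜) hchar n T hn (fun u hu E hE => by
    refine ⟨(map_mem_ApS (f := (MulAut.conj u).toMonoidHom) (MulAut.conj u).injective).2 hE.1, ?_⟩
    intro x hx
    rw [mem_cj] at hx
    have h2 := hE.2 hx
    have h3 := hTN hu
    rw [mem_normalizer_iff] at h3
    have h4 := (h3 _).1 h2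
    have h5 : u * (u⁻¹ * x * u) * u⁻¹ = x := by group
    rwa [h5] at h4) hac
  refine not_NA_retract (ρ := fun E => E ⊓ centralizer (T : Set G)) ?_ ?_ ?_ ?_ h1
  · rintro E ⟨h1, h2⟩
    refine ⟨⟨h1, h2.trans inf_le_left⟩, ?_⟩
    intro t ht
    rw [mem_normalizer_iff]
    have hcm : ∀ x ∈ E, t * x * t⁻¹ = x := by
      intro x hx
      have h3 : x ∈ centralizer (T : Set G) := (h2.trans inf_le_right) hx
      rw [mem_centralizer_iff] at h3
      rw [h3 t ht]
      group
    intro x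
    constructor
    · intro hx
      rw [hcm x hx]; exact hx
    · intro hx
      have h3 := hcm _ hx
      have h4 : x = t * x * t⁻¹ := by
        have h5 : t * (t * x * t⁻¹) = t * x := by
          calc t * (t * x * t⁻¹) = (t * (t * x * t⁻¹) * t⁻¹) * t := by group
            _ = t * x * t⁻¹ * t := by rw [h3]
            _ = t * x := by group
        exact (mul_left_cancel h5).symm
      rw [h4]
      exact hx
  · rintro E ⟨⟨h1, h2⟩, h3⟩
    have h4 := fixed_ne_bot h1 hT h3
    exact ⟨mem_ApS_of_le h1 inf_le_left h4, inf_le_inf_right _ h2⟩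
  · intro E _ F _ h
    exact inf_le_inf_right _ h
  · rintro E ⟨_, h2⟩
    exact inf_eq_left.2 (h2.trans inf_le_right)

/-- **Permanence (S1)**: over a field of characteristic `p`, if `N` is normal in `G` and `𝒜ₚ(N)` is
acyclic, then `𝒜ₚ(G)` is acyclic. -/
theorem acyclic_of_normal [hp : Fact p.Prime] (hchar : (p : 𝕜) = 0) [Finite G] {N : Subgroup G}
    [hN : N.Normal] (hac : ¬ NA 𝕜 (Ain p N)) : ¬ NA 𝕜 (ApS p G) := by
  classical
  have hNn : ∀ T : Subgroup G, T ≤ normalizer (N : Set G) := fun T => by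
    rw [Subgroup.normalizer_eq_top]
    exact le_top
  -- the upper links
  have hlink : ∀ n : ℕ, ∀ T ∈ ApS p G, T ⊓ N = ⊥ → Nat.card G - Nat.card T ≤ n →
      ¬ NA 𝕜 {x | x ∈ ApS p G ∧ T < x} := by
    intro n
    induction n using Nat.strong_induction_on with
    | _ n ih =>
      intro T hT hTN hn
      have hTle : Nat.card T ≤ Nat.card G := Subgroup.card_le_card_group T
      refine not_NA_attach_all (Set.toFinite _)
        (X := {x | (x ∈ ApS p G ∧ T < x) ∧ x ⊓ N ≠ ⊥}) (fun x hx => hx.1) ?_ ?_ ?_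
      · rintro x ⟨_, hx2⟩ y hy hxy
        refine ⟨hy, fun h => hx2 ?_⟩
        rw [← le_bot_iff, ← h]
        exact inf_le_inf_right _ hxy
      · -- retract to `T ⊔ (x ⊓ N)`
        have hF : ∀ x ∈ {x | (x ∈ ApS p G ∧ T < x) ∧ x ⊓ N ≠ ⊥},
            x ⊓ N ∈ Ain p (N ⊓ centralizer (T : Set G)) := by
          rintro x ⟨⟨h1, h2⟩, h3⟩
          refine ⟨mem_ApS_of_le h1 inf_le_left h3, le_inf inf_le_right ?_⟩
          intro y hy
          rw [mem_centralizer_iff]
          intro t ht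
          exact h1.2.1 t (h2.le ht) y hy.1
        have hcomm : ∀ F ∈ Ain p (N ⊓ centralizer (T : Set G)), ∀ x ∈ T, ∀ y ∈ F,
            x * y = y * x := by
          intro F hF x hx y hy
          exact mem_centralizer_iff.1 ((hF.2.trans inf_le_right) hy) x hx
        have hmod : ∀ F ∈ Ain p (N ⊓ centralizer (T : Set G)), (T ⊔ F) ⊓ N = F := by
          intro F hF
          apply le_antisymm
          · rintro x ⟨h1, h2⟩
            obtain ⟨t, ht, f, hf, rfl⟩ := mem_sup_comm (hcomm F hF) h1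
            have h3 : t ∈ N := by
              have : t = (t * f) * f⁻¹ := by group
              rw [this]
              exact N.mul_mem h2 (N.inv_mem ((hF.2.trans inf_le_left) hf))
            have h4 : t ∈ T ⊓ N := ⟨ht, h3⟩
            rw [hTN, mem_bot] at h4
            rw [h4, one_mul]
            exact hf
          · exact le_inf le_sup_right (hF.2.trans inf_le_left)
        refine not_NA_down (ρ := fun x => T ⊔ (x ⊓ N))
          (R := (fun F => T ⊔ F) '' Ain p (N ⊓ centralizer (T : Set G))) ?_ ?_ ?_ ?_ ?_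
        · rintro _ ⟨F, hF, rfl⟩
          refine ⟨⟨sup_mem_ApS hT hF.1 (hcomm F hF), ?_⟩, ?_⟩
          · refine lt_of_le_of_ne le_sup_left fun h => ?_
            have h1 := hmod F hF
            change T = T ⊔ F at h
            rw [← h, hTN] at h1
            exact hF.1.1 h1.symm
          · change (T ⊔ F) ⊓ N ≠ ⊥
            rw [hmod F hF]
            exact hF.1.1
        · intro x hx
          exact ⟨x ⊓ N, hF x hx, rfl⟩
        · rintro x ⟨⟨h1, h2⟩, h3⟩
          exact sup_le h2.le inf_le_left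
        · intro x _ y _ h
          exact sup_le_sup_left (inf_le_inf_right _ h) _
        · rw [NA_image]
          · exact smith_cent hchar (hNn T) (ApS_isPGroup hT) hac
          · intro F hF F' hF' h
            change T ⊔ F = T ⊔ F' at h
            rw [← hmod F hF, ← hmod F' hF', h]
          · intro F hF F' hF'
            constructor
            · intro h
              refine lt_of_le_of_ne (sup_le_sup_left h.le _) fun h' => h.ne ?_
              rw [← hmod F hF, ← hmod F' hF', h']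
            · intro h
              refine lt_of_le_of_ne ?_ fun h' => h.ne (by rw [h'])
              rw [← hmod F hF, ← hmod F' hF']
              exact inf_le_inf_right _ h.le
      · rintro T' ⟨h1, h2⟩ h3
        have hT'N : T' ⊓ N = ⊥ := by
          by_contra h
          exact h3 ⟨⟨h1, h2⟩, h⟩
        have hlt : Nat.card T < Nat.card T' := by
          have hfin : (T' : Set G).Finite := Set.toFinite _
          have hss : (T : Set G) ⊂ (T' : Set G) := h2
          exact Set.ncard_lt_ncard hss hfin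
        have hT'le : Nat.card T' ≤ Nat.card G := Subgroup.card_le_card_group T'
        have := ih (Nat.card G - Nat.card T') (by omega) T' h1 hT'N le_rfl
        have heq : {x | x ∈ {x | x ∈ ApS p G ∧ T < x} ∧ T' < x} = {x | x ∈ ApS p G ∧ T' < x} := by
          ext x
          constructor
          · rintro ⟨⟨a, _⟩, c⟩
            exact ⟨a, c⟩
          · rintro ⟨a, c⟩
            exact ⟨⟨a, h2.trans c⟩, c⟩
        rw [heq]
        exact this
  refine not_NA_attach_all (Set.toFinite _) (X := {x | x ∈ ApS p G ∧ x ⊓ N ≠ ⊥})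
    (fun x hx => hx.1) ?_ ?_ ?_
  · rintro x ⟨_, hx2⟩ y hy hxy
    refine ⟨hy, fun h => hx2 ?_⟩
    rw [← le_bot_iff, ← h]
    exact inf_le_inf_right _ hxy
  · refine not_NA_down (ρ := fun x => x ⊓ N) (R := Ain p N) ?_ ?_ ?_ ?_ hac
    · intro x hx
      refine ⟨hx.1, ?_⟩
      rw [inf_eq_left.2 hx.2]
      exact hx.1.1
    · rintro x ⟨h1, h2⟩
      exact ⟨mem_ApS_of_le h1 inf_le_left h2, inf_le_right⟩
    · intro x _
      exact inf_le_left
    · intro x _ y _ h
      exact inf_le_inf_right _ h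
  · intro T hT hTX
    have hTN : T ⊓ N = ⊥ := by
      by_contra h
      exact hTX ⟨hT, h⟩
    exact hlink _ T hT hTN le_rfl

end Vale.Agent.P240.K
end

section

namespace Vale.Agent.P240.K

open Finsupp Subgroup

variable {𝕜 : Type*} [Field 𝕜]

universe u

section
variable {G : Type*} [Group G] {p : ℕ}

lemma mem_Rest {F D : Set (Subgroup G)} {x : G} :
    x ∈ Rest F D ↔ ∀ M ∈ F, M ∉ D → x ∈ centralizer (M : Set G) := by
  rw [Rest, mem_iInf]
  constructor
  · intro h M hM hMD
    have := h M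
    rw [mem_iInf] at this
    exact this ⟨hM, hMD⟩
  · intro h M
    rw [mem_iInf]
    rintro ⟨h1, h2⟩
    exact h M h1 h2

lemma le_Rest {F D : Set (Subgroup G)} {E : Subgroup G}
    (h : ∀ M ∈ F, M ∉ D → E ≤ centralizer (M : Set G)) : E ≤ Rest F D :=
  fun _ hx => mem_Rest.2 fun M h1 h2 => h M h1 h2 hx

lemma cj_mul_mem {g x : G} {L : Subgroup G} (hx : x ∈ L) : g * x * g⁻¹ ∈ cj g L := by
  rw [mem_cj]
  have : g⁻¹ * (g * x * g⁻¹) * g = x := by group
  rwa [this]

lemma mem_of_comm {H : Subgroup G} {x : G} (h : ∀ y ∈ H, x * y = y * x) :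
    x ∈ normalizer (H : Set G) := by
  rw [mem_normalizer_iff]
  intro y
  constructor
  · intro hy
    rw [h y hy, mul_assoc, mul_inv_cancel, mul_one]
    exact hy
  · intro hy
    have h3 := h _ hy
    have h4 : y = x * y * x⁻¹ := by
      have h5 : x * (x * y * x⁻¹) = x * y := by rw [h3]; group
      exact (mul_left_cancel h5).symm
    rw [h4]
    exact hy

end

end Vale.Agent.P240.K
end

section

namespace Vale.Agent.P240.K

open Subgroup

universe u

lemma elem_closure {W : Type*} [Group W] {p : ℕ} {E : Set W}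
    (hc : ∀ x ∈ E, ∀ y ∈ E, x * y = y * x) (hp : ∀ x ∈ E, x ^ p = 1) :
    (∀ x ∈ closure E, ∀ y ∈ closure E, x * y = y * x) ∧ ∀ x ∈ closure E, x ^ p = 1 := by
  have h1 : ∀ x ∈ closure E, ∀ y ∈ closure E, x * y = y * x := by
    have h2 : closure E ≤ centralizer E := by
      rw [closure_le]
      intro x hx
      rw [SetLike.mem_coe, mem_centralizer_iff]
      intro y hy
      exact hc y hy x hx
    have h3 : closure E ≤ centralizer (closure E : Set W) := by
      rw [closure_le]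
      intro x hx
      rw [SetLike.mem_coe, mem_centralizer_iff]
      intro y hy
      exact ((mem_centralizer_iff.1 (h2 hy)) x hx).symm
    intro x hx y hy
    exact ((mem_centralizer_iff.1 (h3 hx)) y hy).symm
  refine ⟨h1, ?_⟩
  intro x hx
  induction hx using closure_induction with
  | mem x hx => exact hp x hx
  | one => exact one_pow _
  | mul x y hx hy h2 h3 =>
    have : Commute x y := h1 x hx y hy
    rw [this.mul_pow, h2, h3, one_mul]
  | inv x _ h2 => rw [inv_pow, h2, inv_one]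

section
variable {G : Type u} [Group G] {p : ℕ}

/-- the elementary abelian Sylow subgroup -/
lemma exists_elem_sylow [hp : Fact p.Prime] [Finite G] {D Q : Subgroup G}
    (hn : ∀ x ∈ D, ∀ q ∈ Q, x * q * x⁻¹ ∈ Q) (hpQ : ¬ p ∣ Nat.card Q)
    (hcomm : ∀ x ∈ D, ∀ y ∈ D, x ^ p = 1 → y ^ p = 1 → x * y * x⁻¹ * y⁻¹ ∈ Q) :
    ∃ P ≤ D, (∀ x ∈ P, ∀ y ∈ P, x * y = y * x) ∧ (∀ x ∈ P, x ^ p = 1) ∧
      ∀ X ≤ D, (∀ x ∈ X, x ^ p = 1) → ∃ q ∈ Q, ∀ x ∈ X, q⁻¹ * x * q ∈ P := by
  have hN : (Q.subgroupOf D).Normal := by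
    refine ⟨fun m hm x => ?_⟩
    rw [mem_subgroupOf] at hm ⊢
    exact hn x x.2 m hm
  set π : D →* D ⧸ Q.subgroupOf D := QuotientGroup.mk' _ with hπ
  have hπ1 : ∀ x : D, π x = 1 ↔ (x : G) ∈ Q := by
    intro x
    change ((x : D ⧸ Q.subgroupOf D) = 1) ↔ _
    rw [QuotientGroup.eq_one_iff, mem_subgroupOf]
  set E : Set (D ⧸ Q.subgroupOf D) := {w | ∃ x : D, x ^ p = 1 ∧ π x = w} with hE
  obtain ⟨hCc, hCp⟩ := elem_closure (p := p) (E := E) (by
    rintro _ ⟨x, hx, rfl⟩ _ ⟨y, hy, rfl⟩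
    have h1 : π (x * y * x⁻¹ * y⁻¹) = 1 := by
      rw [hπ1]
      push_cast
      exact hcomm x x.2 y y.2 (by exact_mod_cast congrArg Subtype.val hx)
        (by exact_mod_cast congrArg Subtype.val hy)
    rw [map_mul, map_mul, map_mul, map_inv, map_inv] at h1
    have h2 := mul_inv_eq_one.1 h1
    exact mul_inv_eq_iff_eq_mul.1 h2) (by
    rintro _ ⟨x, hx, rfl⟩
    rw [← map_pow, hx, map_one])
  set K : Subgroup D := (closure E).comap π with hK
  let P' : Sylow p K := default
  -- the intersection with `Q` is trivial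
  have hint : ∀ z : K, z ∈ (P' : Subgroup K) → (((z : D) : G) ∈ Q) → z = 1 := by
    intro z hz hzQ
    obtain ⟨k, hk⟩ := P'.isPGroup' ⟨z, hz⟩
    have h1 : z ^ p ^ k = 1 := congrArg Subtype.val hk
    have h2 : ((z : D) : G) ^ p ^ k = 1 := by
      have := congrArg (fun z : K => ((z : D) : G)) h1
      simpa using this
    have h3 : orderOf ((z : D) : G) ∣ p ^ k := orderOf_dvd_of_pow_eq_one h2
    have h4 : orderOf ((z : D) : G) ∣ Nat.card Q := by
      have := orderOf_dvd_natCard (⟨((z : D) : G), hzQ⟩ : Q)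
      rwa [← orderOf_coe] at this
    have h5 : Nat.Coprime (p ^ k) (Nat.card Q) :=
      Nat.Coprime.pow_left k ((Nat.Prime.coprime_iff_not_dvd hp.out).2 hpQ)
    have h6 := orderOf_eq_one_iff.1 (Nat.eq_one_of_dvd_coprimes h5 h3 h4)
    exact Subtype.ext (Subtype.ext h6)
  let j : K →* G := D.subtype.comp K.subtype
  refine ⟨(P' : Subgroup K).map j, ?_, ?_, ?_, ?_⟩
  · rintro _ ⟨x, _, rfl⟩
    exact (x : D).2
  · rintro _ ⟨x, hx, rfl⟩ _ ⟨y, hy, rfl⟩
    have h1 : x * y * x⁻¹ * y⁻¹ = 1 := by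
      refine hint _ (mul_mem (mul_mem (mul_mem hx hy) (inv_mem hx)) (inv_mem hy)) ?_
      rw [← hπ1]
      have h2 := hCc (π x) x.2 (π y) y.2
      push_cast
      rw [map_mul, map_mul, map_mul, map_inv, map_inv, h2, mul_inv_cancel_right, mul_inv_cancel]
    have h3 := mul_inv_eq_iff_eq_mul.1 (mul_inv_eq_one.1 h1)
    rw [← map_mul, ← map_mul, h3]
  · rintro _ ⟨x, hx, rfl⟩
    have h1 : x ^ p = 1 := by
      refine hint _ (pow_mem hx p) ?_
      rw [← hπ1]
      push_cast
      rw [map_pow]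
      exact hCp _ x.2
    rw [← map_pow, h1, map_one]
  · intro X hXD hXp
    have hmem : ∀ x (hx : x ∈ X), (⟨x, hXD hx⟩ : D) ∈ K := by
      intro x hx
      refine subset_closure ⟨⟨x, hXD hx⟩, ?_, rfl⟩
      exact Subtype.ext (hXp x hx)
    have hXK : IsPGroup p (X.comap j) := by
      intro x
      refine ⟨1, ?_⟩
      rw [pow_one]
      apply Subtype.ext
      apply Subtype.ext
      apply Subtype.ext
      have := hXp _ x.2
      simpa [j] using this
    obtain ⟨S, hS⟩ := hXK.exists_le_sylow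
    obtain ⟨g, hg⟩ := MulAction.exists_smul_eq K P' S
    -- decomposition of `g`
    have hsurj : Function.Surjective (π.subgroupComap (closure E)) := by
      rintro ⟨w, hw⟩
      obtain ⟨x, rfl⟩ := QuotientGroup.mk'_surjective _ w
      exact ⟨⟨x, hw⟩, rfl⟩
    have htop : (Sylow.mapSurjective hsurj P' : Subgroup (closure E)) = ⊤ := by
      refine ((Sylow.mapSurjective hsurj P').is_maximal' (Q := ⊤) ?_ le_top).symm
      intro w
      exact ⟨1, by rw [pow_one]; apply Subtype.ext; apply Subtype.ext; exact hCp _ w.1.2⟩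
    have h1 : (π.subgroupComap (closure E)) g ∈
        (Sylow.mapSurjective hsurj P' : Subgroup (closure E)) := by rw [htop]; trivial
    rw [Sylow.coe_mapSurjective] at h1
    obtain ⟨y, hy, hyg⟩ := h1
    have h2 : (((g * y⁻¹ : K) : D) : G) ∈ Q := by
      rw [← hπ1]
      have h3 : π (y : D) = π (g : D) := congrArg Subtype.val hyg
      push_cast
      rw [map_mul, map_inv, h3, mul_inv_cancel]
    refine ⟨_, h2, ?_⟩
    intro x hx
    have h3 : (⟨⟨x, hXD hx⟩, hmem x hx⟩ : K) ∈ (S : Subgroup K) := hS hx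
    rw [← hg] at h3
    have h4 : g⁻¹ * (⟨⟨x, hXD hx⟩, hmem x hx⟩ : K) * g ∈ (P' : Subgroup K) := by
      rw [Sylow.coe_subgroup_smul] at h3
      obtain ⟨z, hz, hzx⟩ := h3
      have h5 : (⟨⟨x, hXD hx⟩, hmem x hx⟩ : K) = g * z * g⁻¹ := hzx.symm
      rw [h5]
      have h6 : g⁻¹ * (g * z * g⁻¹) * g = z := by group
      rw [h6]
      exact hz
    refine ⟨y * (g⁻¹ * (⟨⟨x, hXD hx⟩, hmem x hx⟩ : K) * g) * y⁻¹,
      mul_mem (mul_mem hy h4) (inv_mem hy), ?_⟩
    simp only [j, MonoidHom.comp_apply, Subgroup.coe_subtype]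
    push_cast
    group

end

end Vale.Agent.P240.K
end

section

namespace Vale.Agent.P240.K

open Subgroup

universe u

section
variable {G : Type u} [Group G] {p : ℕ}

/-- conjugation is an order isomorphism -/
def cjIso (g : G) : Subgroup G ≃o Subgroup G where
  toFun := cj g
  invFun := cj g⁻¹
  left_inv E := by rw [← cj_mul, inv_mul_cancel, cj_one]
  right_inv E := by rw [← cj_mul, mul_inv_cancel, cj_one]
  map_rel_iff' := cj_le

lemma cj_mem_ApS {g : G} {E : Subgroup G} : cj g E ∈ ApS p G ↔ E ∈ ApS p G :=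
  map_mem_ApS (f := (MulAut.conj g).toMonoidHom) (MulAut.conj g).injective

open Classical in
/-- the Möbius function -/
noncomputable def mb (p : ℕ) (F : Subgroup G) : ℤ :=
  if F = ⊥ then 1 else - eu {Y | Y ∈ ApS p G ∧ Y < F}

lemma mb_cj (q : G) (F : Subgroup G) : mb p (cj q F) = mb p F := by
  have h1 : cj q F = ⊥ ↔ F = ⊥ := by
    have hb : cj q (⊥ : Subgroup G) = ⊥ := by
      rw [cj, Subgroup.map_bot]
    constructor
    · intro h
      exact cj_injective q (h.trans hb.symm)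
    · rintro rfl
      exact hb
  have h2 : {Y | Y ∈ ApS p G ∧ Y < cj q F} = cjIso q '' {Y | Y ∈ ApS p G ∧ Y < F} := by
    ext Y
    constructor
    · rintro ⟨hY1, hY2⟩
      refine ⟨cj q⁻¹ Y, ⟨cj_mem_ApS.2 hY1, ?_⟩, ?_⟩
      · rw [← cj_lt (g := q), ← cj_mul, mul_inv_cancel, cj_one]
        exact hY2
      · change cj q (cj q⁻¹ Y) = Y
        rw [← cj_mul, mul_inv_cancel, cj_one]
    · rintro ⟨Z, ⟨hZ1, hZ2⟩, rfl⟩
      exact ⟨cj_mem_ApS.2 hZ1, cj_lt.2 hZ2⟩
  unfold mb
  rw [h2, eu_image]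
  by_cases h : F = ⊥
  · rw [if_pos h, if_pos (h1.2 h)]
  · rw [if_neg h, if_neg fun h' => h (h1.1 h')]

lemma mb_of_mem {F : Subgroup G} (hF : F ∈ ApS p G) :
    mb p F = - eu {Y | Y ∈ ApS p G ∧ Y < F} := by
  unfold mb
  rw [if_neg hF.1]

lemma sum_mb [Finite G] {E : Subgroup G} (hE : E ∈ ApS p G) : ∑ F ∈ subs E, mb p F = 0 := by
  classical
  have hfin : {Y | Y ∈ ApS p G ∧ Y ≤ E}.Finite := Set.toFinite _
  have h1 : subs E = insert ⊥ hfin.toFinset := by
    ext F
    rw [mem_subs, Finset.mem_insert, Set.Finite.mem_toFinset]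
    constructor
    · intro h
      by_cases hb : F = ⊥
      · exact Or.inl hb
      · exact Or.inr ⟨mem_ApS_of_le hE h hb, h⟩
    · rintro (rfl | h)
      · exact bot_le
      · exact h.2
  have h2 : (⊥ : Subgroup G) ∉ hfin.toFinset := by
    rw [Set.Finite.mem_toFinset]
    exact fun h => h.1.1 rfl
  rw [h1, Finset.sum_insert h2]
  have h3 : ∀ F ∈ hfin.toFinset, mb p F =
      - eu {Y | Y ∈ {Y | Y ∈ ApS p G ∧ Y ≤ E} ∧ Y < F} := by
    intro F hF
    rw [Set.Finite.mem_toFinset] at hF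
    rw [mb_of_mem hF.1]
    congr 2
    ext Y
    exact ⟨fun h => ⟨⟨h.1, h.2.le.trans hF.2⟩, h.2⟩, fun h => ⟨h.1.1, h.2⟩⟩
  rw [Finset.sum_congr rfl h3, Finset.sum_neg_distrib]
  have h4 := eu_rec hfin
  rw [eu_top hfin (m := E) ⟨hE, le_rfl⟩ fun x hx => hx.2] at h4
  have h5 : mb p (⊥ : Subgroup G) = 1 := by unfold mb; rw [if_pos rfl]
  rw [h5]
  linarith

/-- the number of conjugates under a `p'`-subgroup -/
lemma card_orb [Finite G] {Q F : Subgroup G} (hn : ∀ x ∈ F, ∀ q ∈ Q, x * q * x⁻¹ ∈ Q)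
    (hFQ : ∀ x ∈ F, x ∈ Q → x = 1) :
    Nat.card {X | ∃ q ∈ Q, X = cj q F} *
      Nat.card (Q ⊓ centralizer (F : Set G) : Subgroup G) = Nat.card Q := by
  let act : MulAction Q (Subgroup G) :=
    { smul := fun q X => cj (q : G) X
      one_smul := fun X => cj_one X
      mul_smul := fun a b X => cj_mul (a : G) b X }
  have h1 := MulAction.index_stabilizer Q F
  have h2 := (MulAction.stabilizer Q F).card_mul_index
  have h3 : MulAction.orbit Q F = {X | ∃ q ∈ Q, X = cj q F} := by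
    ext X
    constructor
    · rintro ⟨q, rfl⟩
      exact ⟨q, q.2, rfl⟩
    · rintro ⟨q, hq, rfl⟩
      exact ⟨⟨q, hq⟩, rfl⟩
  have h4 : Nat.card (MulAction.stabilizer Q F) =
      Nat.card (Q ⊓ centralizer (F : Set G) : Subgroup G) := by
    refine Nat.card_congr
      { toFun := fun q => ⟨q.1.1, q.1.2, ?_⟩
        invFun := fun q => ⟨⟨q.1, q.2.1⟩, ?_⟩
        left_inv := fun _ => rfl
        right_inv := fun _ => rfl }
    · have h5 : cj (q.1 : G) F = F := q.2
      change (q.1 : G) ∈ centralizer (F : Set G)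
      rw [mem_centralizer_iff]
      intro f hf
      have h6 : (q.1 : G) * f * (q.1 : G)⁻¹ ∈ F := by
        have := (mem_normalizer_iff.1 (cj_eq_iff.1 h5) f).1 hf
        exact this
      have h7 : (q.1 : G) * f * (q.1 : G)⁻¹ * f⁻¹ = 1 := by
        refine hFQ _ (mul_mem h6 (inv_mem hf)) ?_
        have h8 := hn f hf _ (inv_mem q.1.2)
        have h9 : (q.1 : G) * f * (q.1 : G)⁻¹ * f⁻¹ = q.1 * (f * (q.1 : G)⁻¹ * f⁻¹) := by group
        rw [h9]
        exact mul_mem q.1.2 h8
      exact (mul_inv_eq_iff_eq_mul.1 (mul_inv_eq_one.1 h7)).symm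
    · change cj (q.1 : G) F = F
      rw [cj_eq_iff]
      refine mem_of_comm ?_
      intro f hf
      exact (mem_centralizer_iff.1 q.2.2 f hf).symm
  rw [h1, h3, h4] at h2
  rw [← h2, mul_comm]
  rfl

/-- **Non-vanishing** of the reduced Euler characteristic, with its sign. -/
theorem eu_pos [hp : Fact p.Prime] [Finite G] {D Q : Subgroup G}
    (hn : ∀ x ∈ D, ∀ q ∈ Q, x * q * x⁻¹ ∈ Q) (hQD : Q ≤ D) (hsol : Group.IsSolvable Q)
    (hpQ : ¬ p ∣ Nat.card Q)
    (hcomm : ∀ x ∈ D, ∀ y ∈ D, x ^ p = 1 → y ^ p = 1 → x * y * x⁻¹ * y⁻¹ ∈ Q)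
    (hfaith : ∀ x ∈ D, x ^ p = 1 → (∀ q ∈ Q, x * q = q * x) → x = 1) :
    ∃ P ≤ D, (∀ x ∈ P, x ^ p = 1) ∧
      (∀ X ≤ D, (∀ x ∈ X, x ^ p = 1) → ∃ q ∈ Q, ∀ x ∈ X, q⁻¹ * x * q ∈ P) ∧
      ∀ m, Nat.card P = p ^ m → 0 < (-1 : ℤ) ^ m * eu (Ain p D) := by
  classical
  obtain ⟨P, hPD, hPc, hPp, hconj⟩ := exists_elem_sylow hn hpQ hcomm
  obtain ⟨Λ, hΛ, hw⟩ := exists_weights hPc hPp _ Q rfl hsol hpQ
    (fun x hx => hn x (hPD hx))
  have hPQ : ∀ x ∈ P, x ∈ Q → x = 1 := by
    intro x hx hxQ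
    rw [← orderOf_eq_one_iff]
    have h1 : orderOf x ∣ p := orderOf_dvd_of_pow_eq_one (hPp x hx)
    have h2 : orderOf x ∣ Nat.card Q := by
      have := orderOf_dvd_natCard (⟨x, hxQ⟩ : Q)
      rwa [← orderOf_coe] at this
    rcases (Nat.dvd_prime hp.out).1 h1 with h | h
    · exact h
    · rw [h] at h2
      exact absurd h2 hpQ
  have hPA : ∀ F ≤ P, F ≠ ⊥ → F ∈ ApS p G := fun F hF hne =>
    ⟨hne, fun x hx y hy => hPc x (hF hx) y (hF hy), fun x hx => hPp x (hF hx)⟩
  have hS : (Ain p D).Finite := Set.toFinite _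
  -- the sum over all elements
  have e1 : eu (Ain p D) = 1 + ∑ X ∈ hS.toFinset, mb p X := by
    rw [eu_rec hS]
    have h3 : ∀ X ∈ hS.toFinset, eu {Y | Y ∈ Ain p D ∧ Y < X} = - mb p X := by
      intro X hX
      rw [Set.Finite.mem_toFinset] at hX
      rw [mb_of_mem hX.1, neg_neg]
      congr 1
      ext Y
      exact ⟨fun h => ⟨h.1.1, h.2⟩, fun h => ⟨⟨h.1, h.2.le.trans hX.2⟩, h.2⟩⟩
    rw [Finset.sum_congr rfl h3, Finset.sum_neg_distrib]
    ring
  -- the fibres
  let orb : Subgroup G → Finset (Subgroup G) := fun F =>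
    (Set.toFinite {X | ∃ q ∈ Q, X = cj q F}).toFinset
  have e2 : hS.toFinset = ((subs P).erase ⊥).biUnion orb := by
    ext X
    rw [Set.Finite.mem_toFinset, Finset.mem_biUnion]
    constructor
    · intro hX
      obtain ⟨q, hq, hqX⟩ := hconj X hX.2 hX.1.2.2
      refine ⟨cj q⁻¹ X, ?_, ?_⟩
      · rw [Finset.mem_erase, mem_subs]
        refine ⟨(cj_mem_ApS (p := p).2 hX.1).1, ?_⟩
        intro y hy
        rw [mem_cj, inv_inv] at hy
        have h3 := hqX _ hy
        have h4 : q⁻¹ * (q * y * q⁻¹) * q = y := by group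
        rwa [h4] at h3
      · rw [Set.Finite.mem_toFinset]
        refine ⟨q, hq, ?_⟩
        rw [← cj_mul, mul_inv_cancel, cj_one]
    · rintro ⟨F, hF, hX⟩
      rw [Finset.mem_erase, mem_subs] at hF
      rw [Set.Finite.mem_toFinset] at hX
      obtain ⟨q, hq, rfl⟩ := hX
      exact cj_mem_Ain (hQD hq) ⟨hPA F hF.2 hF.1, hF.2.trans hPD⟩
  have e3 : ((((subs P).erase ⊥ : Finset (Subgroup G)) : Set (Subgroup G))).PairwiseDisjoint
      orb := by
    intro F hF F' hF' hne
    rw [Finset.mem_coe, Finset.mem_erase, mem_subs] at hF hF'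
    change Disjoint (orb F) (orb F')
    rw [Finset.disjoint_left]
    intro X hX hX'
    rw [Set.Finite.mem_toFinset] at hX hX'
    obtain ⟨q, hq, rfl⟩ := hX
    obtain ⟨q', hq', hX'⟩ := hX'
    apply hne
    have key : ∀ q ∈ Q, ∀ A ≤ P, ∀ B ≤ P, cj q A = B → A ≤ B := by
      rintro q hq A hA B hB rfl x hx
      have h3 : q * x * q⁻¹ ∈ cj q A := cj_mul_mem hx
      have h4 : q * x * q⁻¹ * x⁻¹ = 1 := by
        refine hPQ _ (mul_mem (hB h3) (inv_mem (hA hx))) ?_
        have h5 : q * x * q⁻¹ * x⁻¹ = q * (x * q⁻¹ * x⁻¹) := by group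
        rw [h5]
        exact mul_mem hq (hn x (hPD (hA hx)) _ (inv_mem hq))
      rwa [mul_inv_eq_one.1 h4] at h3
    have h6 : cj (q'⁻¹ * q) F = F' := by
      rw [cj_mul, hX', ← cj_mul, inv_mul_cancel, cj_one]
    have h7 : cj (q⁻¹ * q') F' = F := by
      rw [cj_mul, ← hX', ← cj_mul, inv_mul_cancel, cj_one]
    exact le_antisymm (key _ (mul_mem (inv_mem hq') hq) F hF.2 F' hF'.2 h6)
      (key _ (mul_mem (inv_mem hq) hq') F' hF'.2 F hF.2 h7)
  have e4 : ∀ F ∈ (subs P).erase ⊥, ∑ X ∈ orb F, mb p X = mb p F * wt Λ F := by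
    intro F hF
    rw [Finset.mem_erase, mem_subs] at hF
    have h3 : ∀ X ∈ orb F, mb p X = mb p F := by
      intro X hX
      rw [Set.Finite.mem_toFinset] at hX
      obtain ⟨q, _, rfl⟩ := hX
      exact mb_cj q F
    rw [Finset.sum_congr rfl h3, Finset.sum_const, nsmul_eq_mul]
    have h4 := card_orb (Q := Q) (F := F) (fun x hx => hn x (hPD (hF.2 hx)))
      (fun x hx => hPQ x (hF.2 hx))
    have h5 := hw F hF.2
    have h6 : ((orb F).card : ℤ) = wt Λ F := by
      have h7 : Nat.card {X | ∃ q ∈ Q, X = cj q F} = (orb F).card :=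
        Nat.card_eq_card_finite_toFinset _
      have h8 : (Nat.card (Q ⊓ centralizer (F : Set G) : Subgroup G) : ℤ) ≠ 0 := by
        exact_mod_cast Nat.card_pos.ne'
      apply mul_left_cancel₀ h8
      rw [← h5, ← h4, h7]
      push_cast
      ring
    rw [h6]
    ring
  have e5 : eu (Ain p D) = ∑ F ∈ subs P, mb p F * wt Λ F := by
    rw [e1, e2, Finset.sum_biUnion e3, Finset.sum_congr rfl e4]
    have h3 : (⊥ : Subgroup G) ∈ subs P := mem_subs.2 bot_le
    rw [← Finset.add_sum_erase _ _ h3]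
    congr 1
    have h4 : wt Λ (⊥ : Subgroup G) = 1 := by
      unfold wt
      apply List.prod_eq_one
      intro x hx
      obtain ⟨a, _, rfl⟩ := List.mem_map.1 hx
      rw [if_pos bot_le]
    rw [h4, mb, if_pos rfl, mul_one]
  refine ⟨P, hPD, hPp, hconj, fun m hm => ?_⟩
  rw [e5]
  refine (weights_pos (P := P) (mb p) (by rw [mb, if_pos rfl])
    (fun E hE hne => sum_mb (hPA E hE hne)) Λ hΛ P le_rfl m hm).2 ?_
  · intro x hx hxΛ
    refine hfaith x (hPD hx) (hPp x hx) ?_
    have h4 : zpowers x ≤ P := zpowers_le.2 hx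
    have h5 := hw _ h4
    have h6 : wt Λ (zpowers x) = 1 := by
      unfold wt
      apply List.prod_eq_one
      intro y hy
      obtain ⟨a, ha, rfl⟩ := List.mem_map.1 hy
      rw [if_pos (zpowers_le.2 (hxΛ a ha))]
    rw [h6, mul_one] at h5
    have h7 : Nat.card Q = Nat.card (Q ⊓ centralizer (zpowers x : Set G) : Subgroup G) := by
      exact_mod_cast h5
    have h8 : Q ⊓ centralizer (zpowers x : Set G) = Q :=
      Subgroup.eq_of_le_of_card_ge inf_le_left h7.le
    intro q hq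
    rw [← h8] at hq
    exact mem_centralizer_iff.1 hq.2 x (mem_zpowers x)

/-- **Non-vanishing** of the reduced Euler characteristic. -/
theorem eu_ne_zero [hp : Fact p.Prime] [Finite G] {D Q : Subgroup G}
    (hn : ∀ x ∈ D, ∀ q ∈ Q, x * q * x⁻¹ ∈ Q) (hQD : Q ≤ D) (hsol : Group.IsSolvable Q)
    (hpQ : ¬ p ∣ Nat.card Q)
    (hcomm : ∀ x ∈ D, ∀ y ∈ D, x ^ p = 1 → y ^ p = 1 → x * y * x⁻¹ * y⁻¹ ∈ Q)
    (hfaith : ∀ x ∈ D, x ^ p = 1 → (∀ q ∈ Q, x * q = q * x) → x = 1) :
    eu (Ain p D) ≠ 0 := by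
  obtain ⟨P, hPD, hPp, _, h⟩ := eu_pos hn hQD hsol hpQ hcomm hfaith
  have hPg : IsPGroup p P := fun x => ⟨1, by
    rw [pow_one]
    exact Subtype.ext (hPp x x.2)⟩
  obtain ⟨m, hm⟩ := IsPGroup.iff_card.1 hPg
  have h3 := h m hm
  intro h0
  rw [h0, mul_zero] at h3
  exact lt_irrefl _ h3

end

end Vale.Agent.P240.K
end

section

namespace Vale.Agent.P240.K

open Finsupp Subgroup

variable {𝕜 : Type*} [Field 𝕜]

universe u

section
variable {G : Type u} [Group G] {p : ℕ}

lemma conj_centralizer {M : Subgroup G} {g x : G} (hg : g ∈ normalizer (M : Set G))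
    (hx : x ∈ centralizer (M : Set G)) : g * x * g⁻¹ ∈ centralizer (M : Set G) := by
  rw [mem_centralizer_iff] at hx ⊢
  intro y hy
  have h3 : g⁻¹ * y * g ∈ M := by
    have := (mem_normalizer_iff.1 (inv_mem hg) y).1 hy
    simpa using this
  have h4 := hx _ h3
  calc y * (g * x * g⁻¹) = g * ((g⁻¹ * y * g) * x) * g⁻¹ := by group
    _ = g * (x * (g⁻¹ * y * g)) * g⁻¹ := by rw [h4]
    _ = g * x * g⁻¹ * y := by group

/-- coprime action on an elementary abelian group: fixed points modulo a subgroup -/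
lemma fixed_mod [Finite G] {E A : Subgroup G} {d : G}
    (hEc : ∀ x ∈ E, ∀ y ∈ E, x * y = y * x) (hEp : ∀ x ∈ E, x ^ p = 1)
    (hdE : ∀ x ∈ E, d * x * d⁻¹ ∈ E) (hdA : ∀ x ∈ E ⊓ A, d * x * d⁻¹ ∈ A)
    (hd : Nat.Coprime (orderOf d) p) (hfix : ∀ x ∈ E, d * x = x * d → x = 1)
    {e : G} (he : e ∈ E) (heA : d * e * d⁻¹ * e⁻¹ ∈ A) : e ∈ A := by
  let inst : CommGroup E :=
    { (inferInstance : Group E) with
      mul_comm := fun a b => Subtype.ext (hEc a a.2 b b.2) }
  let β : Monoid.End E :=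
    { toFun := fun x => ⟨d * x * d⁻¹, hdE x x.2⟩
      map_one' := by apply Subtype.ext; simp
      map_mul' := fun a b => by
        apply Subtype.ext
        push_cast
        group }
  have hβpow : ∀ k : ℕ, ∀ x : E, ((β ^ k) x : G) = d ^ k * x * (d ^ k)⁻¹ := by
    intro k
    induction k with
    | zero => intro x; simp
    | succ k ih =>
      intro x
      rw [pow_succ']
      change d * ((β ^ k) x : G) * d⁻¹ = _
      rw [ih, pow_succ']
      group
  have hβ : β ^ orderOf d = 1 := by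
    apply MonoidHom.ext
    intro x
    apply Subtype.ext
    refine (hβpow _ x).trans ?_
    rw [pow_orderOf_eq_one, one_mul, inv_one, mul_one]
    rfl
  have hk : 0 < orderOf d := orderOf_pos d
  have h1 := norm_one hk β hβ (fun v hv => by
    apply Subtype.ext
    refine hfix v v.2 ?_
    have h2 : d * (v : G) * d⁻¹ = v := congrArg Subtype.val hv
    exact mul_inv_eq_iff_eq_mul.1 h2) ⟨e, he⟩
  -- congruence modulo `A`
  have h2 : ∀ k : ℕ, ((((β ^ k) ⟨e, he⟩ : E) : G) * e⁻¹) ∈ E ⊓ A := by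
    intro k
    induction k with
    | zero => simp [one_mem]
    | succ k ih =>
      rw [pow_succ']
      change d * ((β ^ k) ⟨e, he⟩ : G) * d⁻¹ * e⁻¹ ∈ E ⊓ A
      have h3 : d * ((β ^ k) ⟨e, he⟩ : G) * d⁻¹ * e⁻¹ =
          (d * (((β ^ k) ⟨e, he⟩ : G) * e⁻¹) * d⁻¹) * (d * e * d⁻¹ * e⁻¹) := by group
      rw [h3]
      exact mul_mem (Subgroup.mem_inf.2 ⟨hdE _ ih.1, hdA _ ih⟩)
        (Subgroup.mem_inf.2 ⟨mul_mem (hdE e he) (inv_mem he), heA⟩)
  have h3 : ∀ k : ℕ, (((∏ i ∈ Finset.range k, (β ^ i) ⟨e, he⟩ : E) : G) * (e ^ k)⁻¹) ∈ A := by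
    intro k
    induction k with
    | zero => simp [one_mem]
    | succ k ih =>
      rw [Finset.prod_range_succ]
      have h4 : ((((∏ i ∈ Finset.range k, (β ^ i) ⟨e, he⟩) * (β ^ k) ⟨e, he⟩ : E) : G) *
          (e ^ (k + 1))⁻¹) = (((∏ i ∈ Finset.range k, (β ^ i) ⟨e, he⟩ : E) : G) * (e ^ k)⁻¹) *
            (((β ^ k) ⟨e, he⟩ : G) * e⁻¹) := by
        have h5 : (((β ^ k) ⟨e, he⟩ : E) : G) * (e ^ k)⁻¹ = (e ^ k)⁻¹ * ((β ^ k) ⟨e, he⟩ : G) :=
          hEc _ (Subtype.mem _) _ (inv_mem (pow_mem he k))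
        rw [Subgroup.coe_mul, pow_succ', mul_inv_rev]
        calc _ = ((∏ i ∈ Finset.range k, (β ^ i) ⟨e, he⟩ : E) : G) *
              ((((β ^ k) ⟨e, he⟩ : E) : G) * (e ^ k)⁻¹) * e⁻¹ := by group
          _ = _ := by rw [h5]; group
      rw [h4]
      exact mul_mem ih (h2 k).2
  have h4 := h3 (orderOf d)
  rw [h1] at h4
  have h5 : e ^ orderOf d ∈ A := by
    have : ((1 : E) : G) * (e ^ orderOf d)⁻¹ = (e ^ orderOf d)⁻¹ := by simp
    rw [this] at h4
    exact inv_mem_iff.1 h4
  obtain ⟨m, hm⟩ := exists_pow_eq_self_of_coprime (x := e) (n := orderOf d)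
    (hd.coprime_dvd_right (orderOf_dvd_of_pow_eq_one (hEp e he)))
  rw [← hm]
  exact pow_mem h5 m

end

end Vale.Agent.P240.K
end
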