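import Vale.Agent.P240.WB.B5

set_option linter.all false

section

namespace Vale.Agent.P240.K

open Finsupp Subgroup

section
variable {α : Type*} [PartialOrder α] {S : Set α}

lemma stn_dual (S : Set α) (n : ℕ) :
    Nat.card (stn (α := αᵒᵈ) (OrderDual.ofDual ⁻¹' S) n) = Nat.card (stn S n) := by
  have h : stn S n = (fun l : List αᵒᵈ => (l.map OrderDual.ofDual).reverse) ''
      stn (α := αᵒᵈ) (OrderDual.ofDual ⁻¹' S) n := by
    ext l
    constructor
    · rintro ⟨h1, h2, h3⟩
      refine ⟨(l.map OrderDual.toDual).reverse, ⟨by simpa using h1, ?_, ?_⟩, ?_⟩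
      · rw [List.pairwise_reverse, List.pairwise_map]
        exact h2
      · intro a ha
        rw [List.mem_reverse, List.mem_map] at ha
        obtain ⟨b, hb, rfl⟩ := ha
        exact h3 b hb
      · change ((l.map OrderDual.toDual).reverse.map OrderDual.ofDual).reverse = l
        rw [List.map_reverse, List.reverse_reverse, List.map_map]
        conv_rhs => rw [← List.map_id l]
        rfl
    · rintro ⟨l, ⟨h1, h2, h3⟩, rfl⟩
      refine ⟨by simpa using h1, ?_, ?_⟩
      · rw [List.pairwise_reverse, List.pairwise_map]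
        exact h2
      · intro a ha
        rw [List.mem_reverse, List.mem_map] at ha
        obtain ⟨b, hb, rfl⟩ := ha
        exact h3 b hb
  rw [h]
  symm
  refine Nat.card_image_of_injective ?_ _
  intro l m hlm
  exact List.map_injective_iff.2 OrderDual.ofDual.injective (List.reverse_injective hlm)

lemma eu_dual (S : Set α) : eu (α := αᵒᵈ) (OrderDual.ofDual ⁻¹' S) = eu S := by
  have h1 : Nat.card (OrderDual.ofDual ⁻¹' S : Set αᵒᵈ) = Nat.card S := rfl
  rw [eu, eu, h1]
  exact Finset.sum_congr rfl fun n _ => by rw [stn_dual]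

/-- the recursion from below -/
lemma eu_rec' (hS : S.Finite) : eu S = 1 - ∑ x ∈ hS.toFinset, eu {y | y ∈ S ∧ x < y} := by
  have hS' : (OrderDual.ofDual ⁻¹' S : Set αᵒᵈ).Finite := hS
  have h := eu_rec hS'
  rw [eu_dual] at h
  rw [h]
  congr 1
  refine Finset.sum_bij (fun x _ => OrderDual.ofDual x) ?_ ?_ ?_ ?_
  · intro x hx
    rw [Set.Finite.mem_toFinset] at hx ⊢
    exact hx
  · intro x _ y _ h
    exact h
  · intro x hx
    refine ⟨OrderDual.toDual x, ?_, rfl⟩
    rw [Set.Finite.mem_toFinset] at hx ⊢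
    exact hx
  · intro x _
    rw [← eu_dual {y | y ∈ S ∧ OrderDual.ofDual x < y}]
    rfl

/-- rank–nullity -/
lemma euler_aux (hS : S.Finite) (m : ℕ)
    (hlow : ∀ n < m, ∀ z ∈ Finsupp.supported ℚ ℚ (stn S n), bd z = 0 →
      ∃ c ∈ Finsupp.supported ℚ ℚ (stn S (n + 1)), bd c = z) (N : ℕ) (hN : N ≤ m) :
    ∑ n ∈ Finset.range (N + 1), (-1 : ℤ) ^ n * (Nat.card (stn S n) : ℤ) =
      (-1 : ℤ) ^ N * Module.finrank ℚ (Zs ℚ S N) := by
  have hfr : ∀ n, Module.finrank ℚ (Finsupp.supported ℚ ℚ (stn S n)) = Nat.card (stn S n) := by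
    intro n
    have hfin := stn_finite hS n
    have : Fintype (stn S n) := hfin.fintype
    rw [(Finsupp.supportedEquivFinsupp (M := ℚ) (R := ℚ) (stn S n)).finrank_eq,
      Module.finrank_finsupp_self, Nat.card_eq_fintype_card]
  induction N with
  | zero =>
    have h : Zs ℚ S 0 = Finsupp.supported ℚ ℚ (stn S 0) := by
      rw [Zs, inf_eq_left]
      intro c hc
      have h1 : c = len 0 c :=
        (len_of_mem (Sp_mono (fun l (hl : l ∈ stn S 0) => hl.1) hc)).symm
      rw [LinearMap.mem_ker, h1, bd_len_zero]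
    rw [zero_add, Finset.sum_range_one, h, hfr]
  | succ N ih =>
    have := fd_supported (𝕜 := ℚ) hS (N + 1)
    have := fd_Zs (𝕜 := ℚ) hS (N + 1)
    have := fd_Zs (𝕜 := ℚ) hS N
    let d : Finsupp.supported ℚ ℚ (stn S (N + 1)) →ₗ[ℚ] Zs ℚ S N :=
      (bd : Ch ℚ α →ₗ[ℚ] Ch ℚ α).restrict (fun c hc => ⟨bd_stn hc, bd_bd c⟩)
    have hsurj : LinearMap.range d = ⊤ := by
      rw [LinearMap.range_eq_top]
      rintro ⟨z, hz1, hz2⟩
      obtain ⟨c, hc, hcz⟩ := hlow N (by omega) z hz1 (LinearMap.mem_ker.1 hz2)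
      exact ⟨⟨c, hc⟩, Subtype.ext hcz⟩
    have hker : Module.finrank ℚ (LinearMap.ker d) = Module.finrank ℚ (Zs ℚ S (N + 1)) := by
      have hk : (LinearMap.ker d).map (Finsupp.supported ℚ ℚ (stn S (N + 1))).subtype =
          Zs ℚ S (N + 1) := by
        ext c
        constructor
        · rintro ⟨⟨c, hc⟩, h, rfl⟩
          exact ⟨hc, congrArg Subtype.val h⟩
        · rintro ⟨hc, h⟩
          exact ⟨⟨c, hc⟩, Subtype.ext h, rfl⟩
      rw [← hk]
      exact (LinearEquiv.finrank_eq (Submodule.equivMapOfInjective _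
        (Submodule.subtype_injective _) _))
    have hrn := LinearMap.finrank_range_add_finrank_ker d
    rw [hsurj, finrank_top, hker, hfr] at hrn
    rw [Finset.sum_range_succ, ih (by omega), ← hrn, pow_succ]
    push_cast
    ring

lemma eu_sign (hS : S.Finite) (m : ℕ)
    (hlow : ∀ n < m, ∀ z ∈ Finsupp.supported ℚ ℚ (stn S n), bd z = 0 →
      ∃ c ∈ Finsupp.supported ℚ ℚ (stn S (n + 1)), bd c = z)
    (hdim : ∀ l, st S l → l.length ≤ m) : 0 ≤ (-1 : ℤ) ^ m * eu S := by
  have h1 : eu S = ∑ n ∈ Finset.range (m + 1), (-1 : ℤ) ^ n * (Nat.card (stn S n) : ℤ) := by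
    rw [← eu_eq hS (le_max_left (Nat.card S) m)]
    symm
    refine Finset.sum_subset ?_ ?_
    · intro n hn
      rw [Finset.mem_range] at hn ⊢
      exact lt_of_lt_of_le hn (Nat.succ_le_succ (le_max_right _ _))
    · intro n _ hn
      rw [Finset.mem_range, not_lt] at hn
      have : stn S n = ∅ := by
        rw [Set.eq_empty_iff_forall_notMem]
        rintro l ⟨h1, h2⟩
        have := hdim l h2
        omega
      rw [this]
      simp
  rw [h1, euler_aux hS m hlow m le_rfl, ← mul_assoc, ← mul_pow]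
  norm_num

end

end Vale.Agent.P240.K
end

section

namespace Vale.Agent.P240.K

open Finsupp Subgroup

section
variable {G : Type*} [Group G] {p : ℕ}

/-- elementary abelian `p`-subgroups, including the trivial one -/
def ApB (p : ℕ) (G : Type*) [Group G] : Set (Subgroup G) := {E | E = ⊥ ∨ E ∈ ApS p G}

lemma eu_Ain [Finite G] (H : Subgroup G) :
    eu (Ain p H) = ∑ X ∈ (Set.toFinite {X | X ∈ ApB p G ∧ X ≤ H}).toFinset, mb p X := by
  classical
  have hS : (Ain p H).Finite := Set.toFinite _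
  have h1 : (Set.toFinite {X | X ∈ ApB p G ∧ X ≤ H}).toFinset = insert ⊥ hS.toFinset := by
    ext X
    rw [Set.Finite.mem_toFinset, Finset.mem_insert, Set.Finite.mem_toFinset]
    constructor
    · rintro ⟨h1 | h1, h2⟩
      · exact Or.inl h1
      · exact Or.inr ⟨h1, h2⟩
    · rintro (h | h)
      · exact ⟨Or.inl h, h.le.trans bot_le⟩
      · exact ⟨Or.inr h.1, h.2⟩
  have h2 : (⊥ : Subgroup G) ∉ hS.toFinset := by
    rw [Set.Finite.mem_toFinset]
    exact fun h => h.1.1 rfl
  rw [h1, Finset.sum_insert h2, eu_rec hS]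
  have h3 : ∀ X ∈ hS.toFinset, eu {Y | Y ∈ Ain p H ∧ Y < X} = - mb p X := by
    intro X hX
    rw [Set.Finite.mem_toFinset] at hX
    rw [mb_of_mem hX.1, neg_neg]
    congr 1
    ext Y
    exact ⟨fun h => ⟨h.1.1, h.2⟩, fun h => ⟨⟨h.1, h.2.le.trans hX.2⟩, h.2⟩⟩
  have h4 : mb p (⊥ : Subgroup G) = 1 := by unfold mb; rw [if_pos rfl]
  rw [Finset.sum_congr rfl h3, Finset.sum_neg_distrib, h4]
  ring

/-- the weights above -/
noncomputable def kp (p : ℕ) (F : Subgroup G) : ℤ := eu {A | A ∈ ApS p G ∧ F < A}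

lemma sum_kp [Finite G] {F' : Subgroup G} (hF' : F' ∈ ApB p G) :
    ∑ F ∈ (Set.toFinite {F | F ∈ ApB p G ∧ F' ≤ F}).toFinset, kp p F = 1 := by
  classical
  have hS : {A | A ∈ ApS p G ∧ F' < A}.Finite := Set.toFinite _
  have h1 : (Set.toFinite {F | F ∈ ApB p G ∧ F' ≤ F}).toFinset = insert F' hS.toFinset := by
    ext X
    rw [Set.Finite.mem_toFinset, Finset.mem_insert, Set.Finite.mem_toFinset]
    constructor
    · rintro ⟨h1, h2⟩
      rcases h2.eq_or_lt with h | h
      · exact Or.inl h.symm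
      · refine Or.inr ⟨?_, h⟩
        rcases h1 with h1 | h1
        · rw [h1] at h
          exact absurd h (not_lt_bot)
        · exact h1
    · rintro (h | h)
      · subst h
        exact ⟨hF', le_rfl⟩
      · exact ⟨Or.inr h.1, h.2.le⟩
  have h2 : F' ∉ hS.toFinset := by
    rw [Set.Finite.mem_toFinset]
    exact fun h => lt_irrefl _ h.2
  rw [h1, Finset.sum_insert h2]
  have h3 := eu_rec' hS
  have h4 : ∀ x ∈ hS.toFinset, eu {y | y ∈ {A | A ∈ ApS p G ∧ F' < A} ∧ x < y} = kp p x := by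
    intro x hx
    rw [Set.Finite.mem_toFinset] at hx
    unfold kp
    congr 1
    ext y
    exact ⟨fun h => ⟨h.1.1, h.2⟩, fun h => ⟨⟨h.1, hx.2.trans h.2⟩, h.2⟩⟩
  rw [Finset.sum_congr rfl h4] at h3
  unfold kp at h3 ⊢
  rw [h3]
  ring

lemma map_ApB {H : Type*} [Group H] (f : G →* H) {X : Subgroup G} (hX : X ∈ ApB p G) :
    X.map f ∈ ApB p H := by
  by_cases h : X.map f = ⊥
  · exact Or.inl h
  · rcases hX with hX | hX
    · rw [hX, Subgroup.map_bot] at h
      exact absurd rfl h
    · refine Or.inr ⟨h, ?_, ?_⟩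
      · rintro _ ⟨x, hx, rfl⟩ _ ⟨y, hy, rfl⟩
        rw [← map_mul, ← map_mul, hX.2.1 x hx y hy]
      · rintro _ ⟨x, hx, rfl⟩
        rw [← map_pow, hX.2.2 x hx, map_one]

/-- fibration formula -/
lemma eu_cover [Finite G] {H : Type*} [Group H] [Finite H] (f : G →* H) :
    eu (ApS p G) = ∑ F ∈ (Set.toFinite (ApB p H)).toFinset, eu (Ain p (F.comap f)) * kp p F := by
  classical
  have h1 : eu (ApS p G) = ∑ X ∈ (Set.toFinite (ApB p G)).toFinset, mb p X := by
    have h := eu_Ain (p := p) (⊤ : Subgroup G)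
    have h2 : Ain p (⊤ : Subgroup G) = ApS p G := by
      ext E
      exact ⟨fun h => h.1, fun h => ⟨h, le_top⟩⟩
    rw [h2] at h
    rw [h]
    refine Finset.sum_congr ?_ fun _ _ => rfl
    ext X
    rw [Set.Finite.mem_toFinset, Set.Finite.mem_toFinset]
    exact ⟨fun h => h.1, fun h => ⟨h, le_top⟩⟩
  have h2 : ∀ F, eu (Ain p (F.comap f)) =
      ∑ X ∈ (Set.toFinite (ApB p G)).toFinset, if X.map f ≤ F then mb p X else 0 := by
    intro F
    rw [eu_Ain, ← Finset.sum_filter]
    refine Finset.sum_congr ?_ fun _ _ => rfl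
    ext X
    rw [Set.Finite.mem_toFinset, Finset.mem_filter, Set.Finite.mem_toFinset,
      Subgroup.map_le_iff_le_comap]
    rfl
  have h3 : ∀ X ∈ (Set.toFinite (ApB p G)).toFinset,
      (∑ F ∈ (Set.toFinite (ApB p H)).toFinset, if X.map f ≤ F then kp p F else 0) = 1 := by
    intro X hX
    rw [Set.Finite.mem_toFinset] at hX
    rw [← Finset.sum_filter, ← sum_kp (map_ApB f hX)]
    refine Finset.sum_congr ?_ fun _ _ => rfl
    ext F
    rw [Set.Finite.mem_toFinset, Finset.mem_filter, Set.Finite.mem_toFinset]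
    rfl
  symm
  rw [h1, Finset.sum_congr rfl fun F _ => by rw [h2 F, Finset.sum_mul], Finset.sum_comm]
  refine Finset.sum_congr rfl fun X hX => ?_
  conv_rhs => rw [← mul_one (mb p X), ← h3 X hX, Finset.mul_sum]
  refine Finset.sum_congr rfl fun F _ => ?_
  split_ifs <;> ring

end

end Vale.Agent.P240.K
end

section

namespace Vale.Agent.P240.K

open Finsupp Subgroup

lemma mp_len {α β : Type*} {𝕜 : Type*} [Field 𝕜] (f : α → β) (n : ℕ) (c : Ch 𝕜 α) :
    mp f (len n c) = len n (mp f c) := by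
  have := lin_ext_apply (f := (mp f).comp (len n)) (g := (len n).comp (mp f))
    (fun l => by
      simp only [LinearMap.comp_apply]
      rw [len_single, mp_single, len_single, List.length_map]
      split_ifs
      · rw [mp_single]
      · rw [map_zero]) c
  simpa using this

section
variable {α β : Type*} [PartialOrder α] [PartialOrder β]

lemma low_image {m : ℕ} (h : LowAcyclic β m) {f : β → α} (hf : Function.Injective f)
    (hlt : ∀ x y, x < y ↔ f x < f y) {S : Set α} (hS : f '' Set.univ = S) : ∀ n < m,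
    ∀ z ∈ Finsupp.supported ℚ ℚ (stn S n), bd z = 0 →
      ∃ c ∈ Finsupp.supported ℚ ℚ (stn S (n + 1)), bd c = z := by
  subst hS
  intro n hn z hz hbz
  have hin : ∀ {c : Ch ℚ β}, c ∈ Sp ℚ (st (Set.univ : Set β)) →
      c ∈ Sp ℚ (fun l : List β => ∀ a ∈ l, a ∈ (Set.univ : Set β)) :=
    fun hc => Sp_mono (fun l hl => hl.2) hc
  have hinj : Set.InjOn f (Set.univ : Set β) := hf.injOn
  obtain ⟨z', hz', rfl⟩ := exists_lift (f := f) (S := (Set.univ : Set β))
    (fun x _ y _ h => (hlt x y).2 h) (Sp_mono (fun l (hl : l ∈ stn (f '' Set.univ) n) => hl.2) hz)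
  have hb' : bd z' = 0 := by
    refine mp_injOn hinj (hin (bd_st hz')) (Submodule.zero_mem _) ?_
    rw [← bd_mp, hbz, map_zero]
  have hlen : len n z' = z' := by
    refine mp_injOn hinj (Sp_mono (fun l hl => hl.2.2) (len_mem hz')) (hin hz') ?_
    rw [mp_len]
    exact len_of_mem (Sp_mono (fun l (hl : l ∈ stn (f '' Set.univ) n) => hl.1) hz)
  have hz2 : z' ∈ Sp ℚ (fun l : List β => l.length = n ∧ st (Set.univ : Set β) l) := by
    rw [← hlen]
    exact len_mem hz'
  obtain ⟨b, hb, hbz'⟩ := h n hn (rv z') (by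
    rw [isChain_iff]
    refine rv_mem (fun l hl => ⟨?_, ?_⟩) hz2
    · rw [List.length_reverse]; exact hl.1
    · rw [List.pairwise_reverse]
      exact hl.2.1) (by rw [bd_rv, hb', map_zero])
  rw [isChain_iff] at hb
  refine ⟨mp f (rv b), ?_, ?_⟩
  · have h1 : rv b ∈ Sp ℚ (fun l : List β => l.length = n + 1 ∧ st (Set.univ : Set β) l) := by
      refine rv_mem (fun l hl => ⟨?_, ?_, fun _ _ => trivial⟩) hb
      · rw [List.length_reverse]; exact hl.1
      · rw [List.pairwise_reverse]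
        exact hl.2
    refine mp_mem (P := fun l => l.length = n + 1 ∧ st (Set.univ : Set β) l)
      (Q := fun l => l ∈ stn (f '' Set.univ) (n + 1)) (fun l hl => ⟨?_, ?_⟩) h1
    · rw [List.length_map]; exact hl.1
    · exact st_map (T := f '' Set.univ) (fun x hx => Set.mem_image_of_mem f hx)
        (fun x _ y _ h => (hlt x y).1 h) l hl.2
  · rw [bd_mp, bd_rv, hbz', rv_rv]

end

section
universe u
variable {G : Type u} [Group G] {p : ℕ}

lemma chain_length [hp : Fact p.Prime] [Finite G] {F : Subgroup G} {k m : ℕ}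
    (hk : Nat.card F = p ^ k) (hm : ∀ E ∈ ApS p G, ∃ j ≤ m, Nat.card E = p ^ j)
    (l : List (Subgroup G)) (hl : st {A | A ∈ ApS p G ∧ F < A} l) : l.length ≤ m - k := by
  have hlt : ∀ A B : Subgroup G, A < B → Nat.card A < Nat.card B := by
    intro A B h
    refine lt_of_le_of_ne (Subgroup.card_le_of_le h.le) fun he => h.ne ?_
    exact Subgroup.eq_of_le_of_card_ge h.le he.ge
  have key : ∀ l : List (Subgroup G), ∀ a, st {A | A ∈ ApS p G ∧ F < A} (a :: l) →
      ∀ j, Nat.card a = p ^ j → k + (l.length + 1) ≤ j := by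
    intro l
    induction l with
    | nil =>
      intro a ha j hj
      have h1 := hlt _ _ (ha.2 a (by simp)).2
      rw [hk, hj] at h1
      have := (Nat.pow_lt_pow_iff_right hp.out.one_lt).1 h1
      simpa using this
    | cons b l ih =>
      intro a ha j hj
      have hb : st {A | A ∈ ApS p G ∧ F < A} (b :: l) :=
        ⟨(List.pairwise_cons.1 ha.1).2, fun x hx => ha.2 x (List.mem_cons_of_mem _ hx)⟩
      obtain ⟨i, _, hi⟩ := hm b (hb.2 b (by simp)).1
      have h1 := ih b hb i hi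
      have h2 := hlt _ _ ((List.pairwise_cons.1 ha.1).1 b (by simp))
      rw [hi, hj] at h2
      have := (Nat.pow_lt_pow_iff_right hp.out.one_lt).1 h2
      rw [List.length_cons]
      omega
  rcases l with _ | ⟨a, l⟩
  · simp
  · obtain ⟨j, hj, hcard⟩ := hm a (hl.2 a (by simp)).1
    have := key l a hl j hcard
    rw [List.length_cons]
    omega

/-- the sign of the local terms -/
lemma eu_comap_pos [hp : Fact p.Prime] [Finite G] {W : Subgroup G} [hW : W.Normal]
    (hsol : Group.IsSolvable W) (hpW : ¬ p ∣ Nat.card W)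
    (hfaith : ∀ x : G, x ^ p = 1 → (∀ w ∈ W, x * w = w * x) → x = 1) {F : Subgroup (G ⧸ W)}
    (hF : F ∈ ApB p (G ⧸ W)) {k : ℕ} (hk : Nat.card F = p ^ k) :
    0 < (-1 : ℤ) ^ k * eu (Ain p (F.comap (QuotientGroup.mk' W))) := by
  set f := QuotientGroup.mk' W with hf
  have hf1 : ∀ x : G, f x = 1 ↔ x ∈ W := fun x => by
    change ((x : G ⧸ W) = 1) ↔ _
    rw [QuotientGroup.eq_one_iff]
  have hFc : ∀ v ∈ F, ∀ w ∈ F, v * w = w * v := by
    rcases hF with hF | hF
    · rw [hF]
      intro v hv w hw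
      rw [mem_bot] at hv hw
      rw [hv, hw]
    · exact hF.2.1
  have hFp : ∀ v ∈ F, v ^ p = 1 := by
    rcases hF with hF | hF
    · rw [hF]
      intro v hv
      rw [mem_bot] at hv
      rw [hv, one_pow]
    · exact hF.2.2
  obtain ⟨P, hPD, hPp, hconj, hpos⟩ := eu_pos (p := p) (D := F.comap f) (Q := W)
    (fun x _ q hq => hW.conj_mem q hq x) (fun w hw => by
      rw [mem_comap, (hf1 w).2 hw]; exact one_mem _) hsol hpW
    (fun x hx y hy _ _ => by
      rw [← hf1, map_mul, map_mul, map_mul, map_inv, map_inv, hFc _ hx _ hy]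
      group) (fun x _ hx hxW => hfaith x hx hxW)
  apply hpos
  rw [← hk]
  have hcop : Nat.Coprime (Nat.card W) p :=
    ((Nat.Prime.coprime_iff_not_dvd hp.out).2 hpW).symm
  have hPW : ∀ x ∈ P, x ∈ W → x = 1 := by
    intro x hx hxW
    rw [← orderOf_eq_one_iff]
    have h1 : orderOf x ∣ p := orderOf_dvd_of_pow_eq_one (hPp x hx)
    have h2 : orderOf x ∣ Nat.card W := by
      have := orderOf_dvd_natCard (⟨x, hxW⟩ : W)
      rwa [← orderOf_coe] at this
    exact Nat.eq_one_of_dvd_coprimes hcop h2 h1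
  have hinj : Function.Injective (f.comp P.subtype) := by
    rw [injective_iff_map_eq_one]
    intro x hx
    exact Subtype.ext (hPW x x.2 ((hf1 _).1 hx))
  have hrange : (f.comp P.subtype).range = F := by
    rw [MonoidHom.range_comp, Subgroup.range_subtype]
    apply le_antisymm
    · rintro _ ⟨x, hx, rfl⟩
      exact hPD hx
    · intro v hv
      obtain ⟨x, rfl⟩ := QuotientGroup.mk'_surjective W v
      change f x ∈ F at hv
      have hxp : (x ^ p) ^ Nat.card W = 1 := by
        have h1 : x ^ p ∈ W := by rw [← hf1, map_pow, hFp _ hv]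
        have := pow_card_eq_one' (x := (⟨x ^ p, h1⟩ : W))
        exact congrArg Subtype.val this
      obtain ⟨s, hs⟩ := exists_pow_eq_self_of_coprime (x := f x) (n := Nat.card W)
        (hcop.coprime_dvd_right (orderOf_dvd_of_pow_eq_one (hFp _ hv)))
      set y : G := (x ^ Nat.card W) ^ s with hy
      have hyp : y ^ p = 1 := by
        rw [hy, ← pow_mul, ← pow_mul]
        have : Nat.card W * (s * p) = p * Nat.card W * s := by ring
        rw [this, pow_mul, pow_mul, hxp, one_pow]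
      have hfy : f y = f x := by rw [hy, map_pow, map_pow, hs]
      obtain ⟨q, hq, hqP⟩ := hconj (zpowers y) (by
        rw [zpowers_le, mem_comap, hfy]; exact hv) (by
        intro z hz
        obtain ⟨i, rfl⟩ := mem_zpowers_iff.1 hz
        rw [← zpow_natCast, ← zpow_mul, mul_comm, zpow_mul, zpow_natCast, hyp, one_zpow])
      refine ⟨q⁻¹ * y * q, hqP y (mem_zpowers y), ?_⟩
      rw [map_mul, map_mul, map_inv, (hf1 q).2 hq, hfy, inv_one, one_mul, mul_one]
  rw [← hrange]
  exact Nat.card_congr (MonoidHom.ofInjective hinj).toEquiv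

/-- **Non-vanishing** for groups with a solvable normal `p'`-subgroup and Cohen–Macaulay
quotient. -/
theorem cm_ne_zero [hp : Fact p.Prime] [Finite G] {W : Subgroup G} [hW : W.Normal]
    (hsol : Group.IsSolvable W) (hpW : ¬ p ∣ Nat.card W)
    (hfaith : ∀ x : G, x ^ p = 1 → (∀ w ∈ W, x * w = w * x) → x = 1)
    (hCM : CohenMacaulay p (G ⧸ W)) : eu (ApS p G) ≠ 0 := by
  classical
  obtain ⟨m, hm⟩ := hCM
  have hkey : 0 < (-1 : ℤ) ^ m * eu (ApS p G) := by
    rw [eu_cover (QuotientGroup.mk' W), Finset.mul_sum]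
    have hterm : ∀ F ∈ (Set.toFinite (ApB p (G ⧸ W))).toFinset,
        0 ≤ (-1 : ℤ) ^ m * (eu (Ain p (F.comap (QuotientGroup.mk' W))) * kp p F) ∧
        (kp p F ≠ 0 →
          0 < (-1 : ℤ) ^ m * (eu (Ain p (F.comap (QuotientGroup.mk' W))) * kp p F)) := by
      intro F hF
      rw [Set.Finite.mem_toFinset] at hF
      obtain ⟨k, hkm, hk, hlow⟩ := hm F hF
      have h1 := eu_comap_pos hsol hpW hfaith hF hk
      have h2 : 0 ≤ (-1 : ℤ) ^ (m - k) * kp p F := by
        refine eu_sign (Set.toFinite _) (m - k) (low_image hlow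
          (f := fun A => A.1.1) (fun A B h => Subtype.ext (Subtype.ext h)) (fun A B => Iff.rfl) ?_)
          (chain_length hk fun E hE => ?_)
        · ext A
          constructor
          · rintro ⟨B, _, rfl⟩
            exact ⟨B.1.2, B.2⟩
          · rintro ⟨h1, h2⟩
            exact ⟨⟨⟨A, h1⟩, h2⟩, trivial, rfl⟩
        · obtain ⟨j, hj, hc, _⟩ := hm E (Or.inr hE)
          exact ⟨j, hj, hc⟩
      have h3 : (-1 : ℤ) ^ m = (-1) ^ k * (-1) ^ (m - k) := by
        rw [← pow_add]
        congr 1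
        omega
      have h4 : (-1 : ℤ) ^ m * (eu (Ain p (F.comap (QuotientGroup.mk' W))) * kp p F) =
          ((-1 : ℤ) ^ k * eu (Ain p (F.comap (QuotientGroup.mk' W)))) *
            ((-1) ^ (m - k) * kp p F) := by
        rw [h3]; ring
      rw [h4]
      refine ⟨mul_nonneg h1.le h2, fun hne => mul_pos h1 (lt_of_le_of_ne h2 ?_)⟩
      intro h0
      rcases mul_eq_zero.1 h0.symm with h | h
      · exact absurd h (pow_ne_zero _ (by norm_num))
      · exact hne h
    refine Finset.sum_pos' (fun F hF => (hterm F hF).1) ?_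
    have h5 := sum_kp (p := p) (G := G ⧸ W) (F' := ⊥) (Or.inl rfl)
    obtain ⟨F, hF, hne⟩ := Finset.exists_ne_zero_of_sum_ne_zero
      (s := (Set.toFinite {F | F ∈ ApB p (G ⧸ W) ∧ ⊥ ≤ F}).toFinset) (f := kp p)
      (by rw [h5]; exact one_ne_zero)
    rw [Set.Finite.mem_toFinset] at hF
    have hF' : F ∈ (Set.toFinite (ApB p (G ⧸ W))).toFinset := by
      rw [Set.Finite.mem_toFinset]
      exact hF.1
    exact ⟨F, hF', (hterm F hF').2 hne⟩
  intro h
  rw [h, mul_zero] at hkey
  exact lt_irrefl _ hkey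

end

end Vale.Agent.P240.K
end

section

namespace Vale.Agent.P240.K

open Finsupp Subgroup

section
variable {α β : Type*} [PartialOrder α] [PartialOrder β]

/-- minus the reduced Euler characteristic -/
noncomputable def eulerT (α : Type*) [Preorder α] : ℤ :=
  ∑ᶠ n : ℕ, (-1) ^ n * (Nat.card {l : List α // l.length = n ∧ l.Pairwise (· < ·)} : ℤ)

lemma euler_eq {f : β → α} (hf : Function.Injective f)
    (hlt : ∀ x y, x < y ↔ f x < f y) {S : Set α} (hS : S.Finite) (himg : f '' Set.univ = S) :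
    eulerT β = eu S := by
  subst himg
  have h1 : ∀ n, Nat.card {l : List β // l.length = n ∧ l.Pairwise (· < ·)} =
      Nat.card (stn (f '' Set.univ) n) := by
    intro n
    have h2 : stn (f '' Set.univ) n = (fun l : List β => (l.map f).reverse) ''
        {l : List β | l.length = n ∧ l.Pairwise (· < ·)} := by
      ext l
      constructor
      · rintro ⟨h1, h2, h3⟩
        have key : ∀ l : List α, (∀ a ∈ l, a ∈ f '' Set.univ) → ∃ m : List β, m.map f = l := by
          intro l
          induction l with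
          | nil => intro _; exact ⟨[], rfl⟩
          | cons y l ih =>
            intro hl
            obtain ⟨m, rfl⟩ := ih fun a ha => hl a (List.mem_cons_of_mem _ ha)
            obtain ⟨x, _, rfl⟩ := hl y (by simp)
            exact ⟨x :: m, rfl⟩
        obtain ⟨m, hm⟩ := key l.reverse (fun a ha => h3 a (List.mem_reverse.1 ha))
        refine ⟨m, ⟨?_, ?_⟩, ?_⟩
        · rw [← h1, ← List.length_reverse (as := l), ← hm, List.length_map]
        · have h4 : (m.map f).Pairwise (· < ·) := by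
            rw [hm, List.pairwise_reverse]
            exact h2
          rw [List.pairwise_map] at h4
          exact h4.imp fun h => (hlt _ _).2 h
        · change (m.map f).reverse = l
          rw [hm, List.reverse_reverse]
      · rintro ⟨m, ⟨h1, h2⟩, rfl⟩
        refine ⟨by simpa using h1, ?_, ?_⟩
        · rw [List.pairwise_reverse, List.pairwise_map]
          exact h2.imp fun h => (hlt _ _).1 h
        · intro a ha
          rw [List.mem_reverse, List.mem_map] at ha
          obtain ⟨b, _, rfl⟩ := ha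
          exact ⟨b, trivial, rfl⟩
    rw [h2]
    symm
    refine Nat.card_image_of_injective ?_ _
    intro l m hlm
    exact List.map_injective_iff.2 hf (List.reverse_injective hlm)
  unfold eulerT
  simp only [h1]
  rw [← eu_eq hS le_rfl]
  refine finsum_eq_sum_of_support_subset _ ?_
  intro n hn
  rw [Finset.mem_coe, Finset.mem_range]
  by_contra h
  apply hn
  change (-1 : ℤ) ^ n * (Nat.card (stn (f '' Set.univ) n) : ℤ) = 0
  rw [stn_empty hS (by omega)]
  simp

end

section
variable {G : Type*} [Group G]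

/-- counting chains modulo `r` -/
lemma eu_mod {r : ℕ} [hr : Fact r.Prime] [Finite G] {S : Set (Subgroup G)}
    (U : Subgroup G) (hU : IsPGroup r U) (hstab : ∀ u ∈ U, ∀ E ∈ S, cj u E ∈ S) :
    (r : ℤ) ∣ eu S - eu {E | E ∈ S ∧ U ≤ normalizer (E : Set G)} := by
  have hS : S.Finite := Set.toFinite S
  set X : Set (Subgroup G) := {E | E ∈ S ∧ U ≤ normalizer (E : Set G)} with hX
  have hXS : Nat.card X ≤ Nat.card S := Nat.card_mono hS fun E hE => hE.1
  have hdiv : ∀ n, (r : ℤ) ∣ (Nat.card (stn S n) : ℤ) - (Nat.card (stn X n) : ℤ) := by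
    intro n
    have hfin : Finite (stn S n) := stn_finite hS n
    have hmap : ∀ u : U, ∀ l ∈ stn S n, l.map (cj (u : G)) ∈ stn S n := by
      rintro u l ⟨h1, h2, h3⟩
      refine ⟨by rw [List.length_map, h1], ?_, ?_⟩
      · rw [List.pairwise_map]
        exact h2.imp fun h => cj_lt.2 h
      · intro a ha
        obtain ⟨b, hb, rfl⟩ := List.mem_map.1 ha
        exact hstab u u.2 b (h3 b hb)
    let act : MulAction U (stn S n) :=
      { smul := fun u l => ⟨l.1.map (cj (u : G)), hmap u l.1 l.2⟩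
        one_smul := fun l => by
          apply Subtype.ext
          change l.1.map (cj ((1 : U) : G)) = l.1
          conv_rhs => rw [← List.map_id l.1]
          exact List.map_congr_left fun a _ => by simp [cj_one]
        mul_smul := fun u v l => by
          apply Subtype.ext
          change l.1.map (cj ((u * v : U) : G)) = (l.1.map (cj (v : G))).map (cj (u : G))
          rw [List.map_map]
          exact List.map_congr_left fun a _ => by simp [cj_mul] }
    have h1 := hU.card_modEq_card_fixedPoints (stn S n)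
    have h2 : Nat.card (MulAction.fixedPoints U (stn S n)) = Nat.card (stn X n) := by
      refine Nat.card_congr ⟨fun l => ⟨l.1.1, l.1.2.1, l.1.2.2.1, fun a ha =>
        ⟨l.1.2.2.2 a ha, ?_⟩⟩, fun l => ⟨⟨l.1, l.2.1, l.2.2.1, fun a ha => (l.2.2.2 a ha).1⟩, ?_⟩,
        fun _ => rfl, fun _ => rfl⟩
      · intro u hu
        rw [← cj_eq_iff]
        have h3 := congrArg Subtype.val (l.2 ⟨u, hu⟩)
        have h4 : l.1.1.map (cj u) = l.1.1.map id := by
          rw [List.map_id]; exact h3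
        exact List.map_inj_left.1 h4 a ha
      · intro u
        apply Subtype.ext
        change l.1.map (cj (u : G)) = l.1
        conv_rhs => rw [← List.map_id l.1]
        exact List.map_congr_left fun a ha => cj_eq_iff.2 ((l.2.2.2 a ha).2 u.2)
    rw [h2] at h1
    have h5 := (Nat.modEq_iff_dvd.1 h1.symm)
    exact h5
  rw [← eu_eq hS le_rfl, ← eu_eq (Set.toFinite X) hXS, ← Finset.sum_sub_distrib]
  refine Finset.dvd_sum fun n _ => ?_
  rw [← mul_sub]
  exact Dvd.dvd.mul_left (hdiv n) _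

end

end Vale.Agent.P240.K
end

section

namespace Vale.Agent.P240.K

open Finsupp Subgroup

variable {𝕜 : Type*} [Field 𝕜]

section
variable {α β : Type*} [PartialOrder α] [PartialOrder β]

lemma eu_emb {f : α → β} (hf : Function.Injective f) (hlt : ∀ x y, x < y ↔ f x < f y) (S : Set α) :
    eu (f '' S) = eu S := by
  have h1 : Nat.card (f '' S) = Nat.card S := Nat.card_image_of_injective hf S
  have key : ∀ l : List β, st (f '' S) l → ∃ l' : List α, st S l' ∧ l'.map f = l := by
    intro l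
    induction l with
    | nil => intro _; exact ⟨[], ⟨by simp, by simp⟩, rfl⟩
    | cons y l ih =>
      intro hl
      have hp := List.pairwise_cons.1 hl.1
      obtain ⟨l', hl', rfl⟩ := ih ⟨hp.2, fun a ha => hl.2 a (by simp [ha])⟩
      obtain ⟨x, hx, rfl⟩ := hl.2 y (by simp)
      refine ⟨x :: l', ⟨?_, ?_⟩, rfl⟩
      · rw [List.pairwise_cons]
        refine ⟨fun a ha => (hlt a x).2 (hp.1 _ (List.mem_map_of_mem ha)), hl'.1⟩
      · intro a ha
        rcases List.mem_cons.1 ha with h | ha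
        · rw [h]; exact hx
        · exact hl'.2 a ha
  have h2 : ∀ n, Nat.card (stn (f '' S) n) = Nat.card (stn S n) := by
    intro n
    have : stn (f '' S) n = (List.map f) '' stn S n := by
      ext l
      constructor
      · rintro ⟨hl1, hl2⟩
        obtain ⟨l', hl', rfl⟩ := key l hl2
        exact ⟨l', ⟨by simpa using hl1, hl'⟩, rfl⟩
      · rintro ⟨l, ⟨hl1, hl2⟩, rfl⟩
        exact ⟨by simpa using hl1, st_map (T := f '' S) (fun x hx => Set.mem_image_of_mem f hx)
          (fun x _ y _ h => (hlt x y).1 h) l hl2⟩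
    rw [this]
    exact Nat.card_image_of_injective (List.map_injective_iff.2 hf) _
  rw [eu, eu, h1]
  exact Finset.sum_congr rfl fun n _ => by rw [h2]

end

section
variable {G : Type*} [Group G] {p : ℕ}

lemma eu_sub (H : Subgroup G) : eu (Ain p H) = eu (ApS p H) := by
  have h : (fun E : Subgroup H => E.map H.subtype) '' (ApS p H) = Ain p H := by
    ext E
    constructor
    · rintro ⟨F, hF, rfl⟩
      exact ⟨(map_mem_ApS (f := H.subtype) H.subtype_injective).2 hF, Subgroup.map_subtype_le F⟩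
    · rintro ⟨hE, h4⟩
      refine ⟨E.subgroupOf H, ?_, Subgroup.map_subgroupOf_eq_of_le h4⟩
      rw [← map_mem_ApS (f := H.subtype) H.subtype_injective]
      rw [Subgroup.map_subgroupOf_eq_of_le h4]
      exact hE
  rw [← h]
  refine eu_emb (Subgroup.map_injective H.subtype_injective) (fun x y => ?_) _
  constructor
  · intro hxy
    refine lt_of_le_of_ne (Subgroup.map_mono hxy.le) fun h => hxy.ne ?_
    exact Subgroup.map_injective H.subtype_injective h
  · intro hxy
    refine lt_of_le_of_ne ?_ fun h => hxy.ne (by rw [h])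
    exact (Subgroup.map_le_map_iff_of_injective H.subtype_injective).1 hxy.le

end

section
universe u
variable {G : Type u} [Group G] {p : ℕ}

/-- the fixed points of a good element -/
lemma GoodElement.fixed [hp : Fact p.Prime] [Finite G] {F : Set (Subgroup G)} (hF : Family p F)
    {D : Set (Subgroup G)} {z : G} (hz : GoodElement p F D z)
    {E : Subgroup G} (hE : E ∈ Ain p (Rest F D))
    (hzE : z ∈ normalizer (E : Set G)) : E ⊓ centralizer {z} ∈ ApS p G := by
  have hord : Nat.Coprime (orderOf z) p :=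
    ((Nat.Prime.coprime_iff_not_dvd hp.out).2 hz.order).symm
  obtain ⟨hE1, hE2⟩ := hE
  have hdE : ∀ e ∈ E, z * e * z⁻¹ ∈ E := fun e he => (mem_normalizer_iff.1 hzE e).1 he
  refine mem_ApS_of_le hE1 inf_le_left ?_
  intro hbot
  have hfix : ∀ x ∈ E, z * x = x * z → x = 1 := by
    intro x hx hxd
    have h1 : x ∈ E ⊓ centralizer ({z} : Set G) := by
      refine Subgroup.mem_inf.2 ⟨hx, ?_⟩
      rw [mem_centralizer_iff]
      intro y hy
      rw [Set.mem_singleton_iff.1 hy]
      exact hxd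
    rw [hbot, mem_bot] at h1
    exact h1
  set E0 : Subgroup G := E ⊓ ⨅ L ∈ D, normalizer (L : Set G) with hE0
  have hE0E : E0 ≤ E := inf_le_left
  have hE0N : ∀ L ∈ D, E0 ≤ normalizer (L : Set G) := fun L hL =>
    inf_le_right.trans (iInf₂_le L hL)
  have hdE0 : ∀ e ∈ E0, z * e * z⁻¹ ∈ E0 := by
    intro e he
    refine Subgroup.mem_inf.2 ⟨hdE e (hE0E he), ?_⟩
    rw [mem_iInf]
    intro L
    rw [mem_iInf]
    intro hL
    exact mul_mem (mul_mem (hz.norm L hL) (hE0N L hL he)) (inv_mem (hz.norm L hL))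
  have hE0bot : E0 = ⊥ := by
    by_contra hE0ne
    have hE0A : E0 ∈ ApS p G := mem_ApS_of_le hE1 hE0E hE0ne
    apply hE0ne
    rw [eq_bot_iff]
    intro x hx
    rw [mem_bot]
    refine hF.faithful x (hE1.2.2 x (hE0E hx)) fun L hL y hy => ?_
    have hxL : x ∈ centralizer (L : Set G) := by
      by_cases hLD : L ∈ D
      swap
      · exact mem_Rest.1 (hE2 (hE0E hx)) L hL hLD
      refine hz.fix L hLD E0 hE0A (le_inf (hE0E.trans hE2) (hE0N L hLD))
        (fun e he => mem_sup_left (hdE0 e he)) ?_ hx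
      intro e he hcomm'
      exact fixed_mod (p := p) (E := E0) (A := centralizer (L : Set G)) (d := z) hE0A.2.1
        hE0A.2.2 hdE0 (fun y hy => conj_centralizer (hz.norm L hLD) (Subgroup.mem_inf.1 hy).2)
        hord (fun y hy => hfix y (hE0E hy)) he hcomm'
    exact ((mem_centralizer_iff.1 hxL) y hy).symm
  apply hE1.1
  rw [eq_bot_iff]
  intro e he
  rw [mem_bot]
  refine hfix e he ?_
  have hf1 : z * e * z⁻¹ * e⁻¹ ∈ E0 := by
    refine Subgroup.mem_inf.2 ⟨mul_mem (hdE e he) (inv_mem he), ?_⟩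
    rw [mem_iInf]
    intro L
    rw [mem_iInf]
    intro hL
    have h1 : z ∈ normalizer ((cj e⁻¹ L : Subgroup G) : Set G) := hz.norm _ (hz.conj L hL e⁻¹)
    rw [normalizer_cj, inv_inv] at h1
    have h2 : z * e * z⁻¹ * e⁻¹ = z * (e * z * e⁻¹)⁻¹ := by group
    rw [h2]
    exact mul_mem (hz.norm L hL) (inv_mem h1)
  rw [hE0bot, mem_bot] at hf1
  exact mul_inv_eq_iff_eq_mul.1 (mul_inv_eq_one.1 hf1)

/-- normalizing an intersection -/
lemma normalizer_inf_cent {E : Subgroup G} {z x : G} (hx : x ∈ normalizer (E : Set G))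
    (hxz : x * z = z * x) : x ∈ normalizer ((E ⊓ centralizer {z} : Subgroup G) : Set G) := by
  have hc : ∀ y, y ∈ centralizer ({z} : Set G) ↔ z * y = y * z := by
    intro y
    rw [mem_centralizer_iff]
    exact ⟨fun h => h z rfl, fun h w hw => by rw [Set.mem_singleton_iff.1 hw]; exact h⟩
  rw [mem_normalizer_iff] at hx ⊢
  intro y
  rw [Subgroup.mem_inf, Subgroup.mem_inf, hx y, hc, hc]
  have hx' : z * x⁻¹ = x⁻¹ * z := by
    have h1 : x * (z * x⁻¹) = z := by rw [← mul_assoc, hxz, mul_assoc, mul_inv_cancel, mul_one]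
    calc z * x⁻¹ = x⁻¹ * (x * (z * x⁻¹)) := by group
      _ = x⁻¹ * z := by rw [h1]
  have : z * (x * y * x⁻¹) = (x * y * x⁻¹) * z ↔ z * y = y * z := by
    constructor
    · intro h
      have h2 : x * (z * y) * x⁻¹ = x * (y * z) * x⁻¹ := by
        calc x * (z * y) * x⁻¹ = (x * z) * y * x⁻¹ := by group
          _ = (z * x) * y * x⁻¹ := by rw [hxz]
          _ = z * (x * y * x⁻¹) := by group
          _ = (x * y * x⁻¹) * z := h
          _ = x * y * (x⁻¹ * z) := by group
          _ = x * y * (z * x⁻¹) := by rw [hx']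
          _ = x * (y * z) * x⁻¹ := by group
      exact mul_left_cancel (mul_right_cancel h2)
    · intro h
      calc z * (x * y * x⁻¹) = (z * x) * y * x⁻¹ := by group
        _ = (x * z) * y * x⁻¹ := by rw [hxz]
        _ = x * (z * y) * x⁻¹ := by group
        _ = x * (y * z) * x⁻¹ := by rw [h]
        _ = x * y * (z * x⁻¹) := by group
        _ = x * y * (x⁻¹ * z) := by rw [hx']
        _ = (x * y * x⁻¹) * z := by group
  rw [this]

/-- coreflection to the centralizer of the good element -/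
lemma GoodElement.eu_eq [hp : Fact p.Prime] [Finite G] {F : Set (Subgroup G)} (hF : Family p F)
    {D : Set (Subgroup G)} {z : G} (hz : GoodElement p F D z) {g : G} (hzg : z ∈ zpowers g) :
    eu {E | E ∈ Ain p (Rest F D) ∧ g ∈ normalizer (E : Set G)} =
      eu {E | E ∈ Ain p (Rest F D ⊓ centralizer {z}) ∧ g ∈ normalizer (E : Set G)} := by
  have hgz : g * z = z * g := by
    obtain ⟨i, hi⟩ := mem_zpowers_iff.1 hzg
    rw [← hi]
    exact ((Commute.refl g).zpow_right i)
  refine eu_coreflect (fun E => E ⊓ centralizer {z}) _ _ _ (Set.toFinite _) rfl ?_ ?_ ?_ ?_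
  · rintro E ⟨⟨hE1, hE2⟩, hE3⟩
    exact ⟨⟨hE1, hE2.trans inf_le_left⟩, hE3⟩
  · rintro E ⟨hE, hE3⟩
    exact ⟨⟨hz.fixed hF hE ((zpowers_le.2 hE3) hzg), le_inf (inf_le_left.trans hE.2) inf_le_right⟩,
      normalizer_inf_cent hE3 hgz⟩
  · intro E _
    exact inf_le_left
  · rintro E _ Y ⟨⟨hY1, hY2⟩, _⟩ hYE
    exact le_inf hYE (hY2.trans inf_le_right)

/-- The residue argument with a good element and free `r`-subgroups. -/
theorem residue_elem [Fact p.Prime] [Finite G] {F : Set (Subgroup G)} (hF : Family p F)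
    {T D : Set (Subgroup G)} (hTF : T ⊆ F) (hDT : ∀ L ∈ D, L ∉ T)
    {z : G} (hz : GoodElement p F D z)
    {r : ℕ} (hrp : r ≠ p) {g : G} (hg : g ∈ Rest F D) (hzg : z ∈ zpowers g)
    (hno : ¬ (r : ℤ) ∣ eu {E | E ∈ Ain p (Rest F D ⊓ centralizer {z}) ∧
      g ∈ normalizer (E : Set G)})
    (hT : ∀ L ∈ F, L ∉ T → L ∉ D → r.Prime ∧ FreeSub p r L) : NA ℚ (Ain p (Cen T)) := by
  classical
  have hRC : Rest F D ≤ Cen T := by
    intro x hx
    rw [mem_Cen]
    exact fun L hL => mem_Rest.1 hx L (hTF hL) fun h => hDT L h hL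
  rw [← hz.eu_eq hF hzg] at hno
  by_contra hac
  apply hno
  have hS : (Ain p (Cen T)).Finite := Set.toFinite _
  have hlef := lefschetz (σ := cj g) (S := Ain p (Cen T)) (fun E hE => cj_mem_Ain (hRC hg) hE)
    (fun x _ y _ h => cj_lt.2 h) hS hac (Nat.lt_succ_self _)
  have hfixfin : {E | E ∈ Ain p (Cen T) ∧ cj g E = E}.Finite := Set.toFinite _
  rw [K.eu_eq hfixfin] at hlef
  swap
  · rw [← Nat.card_eq_card_finite_toFinset hS]
    exact (Nat.card_mono hS fun E hE => hE.1).trans (Nat.le_succ _)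
  by_cases hr : r.Prime
  swap
  · -- no free `r`-subgroups are used
    have h1 : {E | E ∈ Ain p (Rest F D) ∧ g ∈ normalizer (E : Set G)} =
        {E | E ∈ Ain p (Cen T) ∧ cj g E = E} := by
      ext E
      constructor
      · rintro ⟨h1, h2⟩
        exact ⟨⟨h1.1, h1.2.trans hRC⟩, cj_eq_iff.2 h2⟩
      · rintro ⟨h1, h2⟩
        refine ⟨⟨h1.1, le_Rest fun L hL hLD => ?_⟩, cj_eq_iff.1 h2⟩
        by_cases hLT : L ∈ T
        · exact fun x hx => mem_Cen.1 (h1.2 hx) L hLT
        · exact absurd (hT L hL hLT hLD).1 hr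
    rw [h1, hlef]
    exact dvd_zero _
  have : Fact r.Prime := ⟨hr⟩
  have hT' : ∀ L ∈ F, L ∉ T → L ∉ D → FreeSub p r L := fun L h1 h2 h3 => (hT L h1 h2 h3).2
  choose! U hUL hU hfree using hT'
  -- the product of the `U L`
  have hgrp : ∀ B : Set (Subgroup G), B.Finite → B ⊆ {L | L ∈ F ∧ L ∉ T ∧ L ∉ D} →
      IsPGroup r (⨆ L ∈ B, U L : Subgroup G) := by
    intro B hfin
    induction B, hfin using Set.Finite.induction_on with
    | empty =>
      intro _
      have hb : (⨆ L ∈ (∅ : Set (Subgroup G)), U L : Subgroup G) = ⊥ := by simp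
      rw [hb]
      exact IsPGroup.of_bot
    | @insert L B hLB _ ih =>
      intro hsub
      rw [iSup_insert]
      have hL := hsub (Set.mem_insert _ _)
      refine IsPGroup.to_sup_of_normal_left' (hU L hL.1 hL.2.1 hL.2.2)
        (ih fun M hM => hsub (Set.mem_insert_of_mem _ hM)) ?_
      refine iSup₂_le fun M hM => ?_
      have hM' := hsub (Set.mem_insert_of_mem _ hM)
      intro y hy
      have hne : L ≠ M := by
        rintro rfl
        exact hLB hM
      refine mem_of_comm fun x hx => ?_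
      exact (hF.comm L hL.1 M hM'.1 hne x (hUL L hL.1 hL.2.1 hL.2.2 hx) y
        (hUL M hM'.1 hM'.2.1 hM'.2.2 hy)).symm
  set W : Subgroup G := ⨆ L ∈ {L | L ∈ F ∧ L ∉ T ∧ L ∉ D}, U L with hW
  have hWp : IsPGroup r W := hgrp _ (Set.toFinite _) (Set.Subset.refl _)
  have hWC : W ≤ Cen T := by
    refine iSup₂_le fun M hM => ?_
    exact (hUL M hM.1 hM.2.1 hM.2.2).trans (hF.le_Cen hTF hM.1 hM.2.1)
  have hWR : ∀ u ∈ W, ∀ x ∈ Rest F D, u * x = x * u := by
    have h1 : W ≤ centralizer ((Rest F D : Subgroup G) : Set G) := by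
      refine iSup₂_le fun M hM => ?_
      intro u hu
      rw [mem_centralizer_iff]
      intro x hx
      exact ((mem_centralizer_iff.1 (mem_Rest.1 hx M hM.1 hM.2.2)) u
        (hUL M hM.1 hM.2.1 hM.2.2 hu)).symm
    intro u hu x hx
    exact ((mem_centralizer_iff.1 (h1 hu)) x hx).symm
  have hmod := eu_mod (r := r) (S := {E | E ∈ Ain p (Cen T) ∧ cj g E = E}) W hWp ?_
  swap
  · rintro u hu E ⟨h1, h2⟩
    refine ⟨cj_mem_Ain (hWC hu) h1, ?_⟩
    rw [← cj_mul, ← hWR u hu g hg, cj_mul, h2]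
  rw [hlef, zero_sub, dvd_neg] at hmod
  have h1 : {E | E ∈ Ain p (Rest F D) ∧ g ∈ normalizer (E : Set G)} =
      {E | E ∈ {E | E ∈ Ain p (Cen T) ∧ cj g E = E} ∧ W ≤ normalizer (E : Set G)} := by
    ext E
    constructor
    · rintro ⟨h1, h2⟩
      refine ⟨⟨⟨h1.1, h1.2.trans hRC⟩, cj_eq_iff.2 h2⟩, ?_⟩
      intro u hu
      exact mem_of_comm fun y hy => hWR u hu y (h1.2 hy)
    · rintro ⟨⟨h1, h2⟩, h3⟩
      refine ⟨⟨h1.1, le_Rest fun L hL hLD => ?_⟩, cj_eq_iff.1 h2⟩
      by_cases hLT : L ∈ T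
      · exact fun x hx => mem_Cen.1 (h1.2 hx) L hLT
      · have hle : U L ≤ W :=
          le_iSup₂_of_le (f := fun L (_ : L ∈ {L | L ∈ F ∧ L ∉ T ∧ L ∉ D}) => U L) L
            ⟨hL, hLT, hLD⟩ le_rfl
        exact free_spec hrp (hF.compLike hL) (hUL L hL hLT hLD) (hU L hL hLT hLD)
          (hfree L hL hLT hLD) E h1.1 (hle.trans h3)
  rw [h1]
  exact hmod

/-- **Good elements: the general criterion.** -/
theorem elem_main [hp : Fact p.Prime] [Finite G] {F : Set (Subgroup G)} (hF : Family p F)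
    {D : Set (Subgroup G)} {z : G} (hz : GoodElement p F D z) {r : ℕ} (hrp : r ≠ p)
    (hno : ¬ (r : ℤ) ∣ eu (ApS p (Rest F D ⊓ centralizer {z} : Subgroup G)))
    (hT : ∀ L ∈ F, L ∈ D ∨ Removable 𝕜 p L ∨ (r.Prime ∧ FreeSub p r L)) : HQ 𝕜 p G := by
  have h1 : {E | E ∈ Ain p (Rest F D ⊓ centralizer {z}) ∧ z ∈ normalizer (E : Set G)} =
      Ain p (Rest F D ⊓ centralizer {z}) := by
    ext E
    constructor
    · exact fun h => h.1
    · exact fun h => ⟨h, mem_of_comm fun y hy =>
        (mem_centralizer_iff.1 (Subgroup.mem_inf.1 (h.2 hy)).2) z rfl⟩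
  rw [← eu_sub, ← h1] at hno
  rw [HQ_iff]
  refine remove hF (T := {L | L ∈ F ∧ L ∉ D ∧ Removable 𝕜 p L}) (fun L hL => hL.1)
    (fun L hL => hL.2.2) (NA_of_rat (Set.toFinite _) ?_)
  refine residue_elem hF (fun L hL => hL.1) (fun L hL h => h.2.1 hL) hz hrp hz.rest
    (mem_zpowers z) hno ?_
  intro L hL hLT hLD
  rcases hT L hL with h | h | h
  · exact absurd h hLD
  · exact absurd ⟨hL, hLD, h⟩ hLT
  · exact h

lemma euler_Ap (H : Type*) [Group H] [Finite H] : euler p H = eu (ApS p H) := by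
  change eulerT (Ap p H) = _
  refine euler_eq (f := fun A => A.1) (fun A B h => Subtype.ext h) (fun A B => Iff.rfl)
    (Set.toFinite _) ?_
  ext A
  constructor
  · rintro ⟨B, _, rfl⟩
    exact B.2
  · intro h
    exact ⟨⟨A, h⟩, trivial, rfl⟩

/-- **Good elements with a Cohen–Macaulay quotient.** -/
theorem elem_cm [hp : Fact p.Prime] [Finite G] {F : Set (Subgroup G)} (hF : Family p F)
    {D : Set (Subgroup G)} {z : G} (hz : GoodElement p F D z)
    (W : Subgroup (Rest F D ⊓ centralizer {z} : Subgroup G)) [hW : W.Normal]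
    (hsol : Group.IsSolvable W) (hpW : ¬ p ∣ Nat.card W)
    (hfaith : ∀ x : (Rest F D ⊓ centralizer {z} : Subgroup G), x ^ p = 1 →
      (∀ w ∈ W, x * w = w * x) → x = 1)
    (hCM : CohenMacaulay p ((Rest F D ⊓ centralizer {z} : Subgroup G) ⧸ W))
    (hT : ∀ L ∈ F, L ∈ D ∨ Removable 𝕜 p L) : HQ 𝕜 p G := by
  refine elem_main (𝕜 := 𝕜) hF hz (r := 0) hp.out.ne_zero.symm ?_ ?_
  · rw [Nat.cast_zero, zero_dvd_iff]
    exact cm_ne_zero hsol hpW hfaith hCM
  · intro L hL
    rcases hT L hL with h | h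
    · exact Or.inl h
    · exact Or.inr (Or.inl h)

end

end Vale.Agent.P240.K
end

section

namespace Vale.Agent.P240.K

open Finsupp Subgroup

variable {𝕜 : Type*} [Field 𝕜] {G : Type*} [Group G] {p : ℕ}

lemma acyclic_of_normal' [Fact p.Prime] (hchar : (p : 𝕜) = 0) [Finite G] {H H1 : Subgroup G}
    (hle : H ≤ H1) (hn : (H.subgroupOf H1).Normal) (hac : ¬ NA 𝕜 (Ain p H)) :
    ¬ NA 𝕜 (Ain p H1) := by
  rw [← HQ_sub_iff, HQ_iff]
  refine acyclic_of_normal hchar (N := H.subgroupOf H1) ?_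
  rw [← NA_Ain_map H1.subtype_injective, Subgroup.map_subgroupOf_eq_of_le hle]
  exact hac

/-- If `W / M` is a `p`-group and `M ≤ H ≤ W`, acyclicity passes from `H` to `W`. -/
theorem acyclic_of_pquot [hp : Fact p.Prime] (hchar : (p : 𝕜) = 0) [Finite G] {M : Subgroup G}
    [hM : M.Normal] (hq : ∀ g : G, ∃ k : ℕ, g ^ p ^ k ∈ M) {H : Subgroup G} (hMH : M ≤ H)
    (hac : ¬ NA 𝕜 (Ain p H)) : ¬ NA 𝕜 (ApS p G) := by
  have hpg : IsPGroup p (G ⧸ M) := by
    intro x
    obtain ⟨g, rfl⟩ := QuotientGroup.mk_surjective x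
    obtain ⟨k, hk⟩ := hq g
    refine ⟨k, ?_⟩
    rw [← QuotientGroup.mk_pow, QuotientGroup.eq_one_iff]
    exact hk
  have hnil : Group.IsNilpotent (G ⧸ M) := hpg.isNilpotent
  have hnc : NormalizerCondition (G ⧸ M) := Group.normalizerCondition_of_isNilpotent
  have key : ∀ n : ℕ, ∀ H : Subgroup G, M ≤ H → Nat.card G - Nat.card H ≤ n →
      ¬ NA 𝕜 (Ain p H) → ¬ NA 𝕜 (ApS p G) := by
    intro n
    induction n with
    | zero =>
      intro H _ hn hac
      have h1 : Nat.card H = Nat.card G := le_antisymm (Subgroup.card_le_card_group H) (by omega)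
      have h2 : H = ⊤ := Subgroup.eq_top_of_card_eq H h1
      subst h2
      have : Ain p (⊤ : Subgroup G) = ApS p G := by
        ext E
        exact ⟨fun h => h.1, fun h => ⟨h, le_top⟩⟩
      rwa [this] at hac
    | succ n ih =>
      intro H hMH hn hac
      by_cases htop : H = ⊤
      · subst htop
        have : Ain p (⊤ : Subgroup G) = ApS p G := by
          ext E
          exact ⟨fun h => h.1, fun h => ⟨h, le_top⟩⟩
        rwa [this] at hac
      · have hker : (QuotientGroup.mk' M).ker ≤ H := by rw [QuotientGroup.ker_mk']; exact hMH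
        have hsurj : Function.Surjective (QuotientGroup.mk' M) := QuotientGroup.mk'_surjective M
        have hcm : (H.map (QuotientGroup.mk' M)).comap (QuotientGroup.mk' M) = H :=
          Subgroup.comap_map_eq_self hker
        have hlt : H.map (QuotientGroup.mk' M) < ⊤ := by
          rw [lt_top_iff_ne_top]
          intro h
          apply htop
          rw [← hcm, h, Subgroup.comap_top]
        have h1 := hnc _ hlt
        have h2 : (normalizer ((H.map (QuotientGroup.mk' M) : Subgroup (G ⧸ M)) : Set (G ⧸ M))).comap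
            (QuotientGroup.mk' M) = normalizer (H : Set G) := by
          rw [Subgroup.comap_normalizer_eq_of_surjective _ hsurj, hcm]
        have h3 : H < normalizer (H : Set G) := by
          refine lt_of_le_of_ne Subgroup.le_normalizer fun h => ?_
          apply h1.ne
          rw [← Subgroup.map_comap_eq_self_of_surjective hsurj
            (normalizer ((H.map (QuotientGroup.mk' M) : Subgroup (G ⧸ M)) : Set (G ⧸ M))), h2, ← h]
        have hcard : Nat.card H < Nat.card (normalizer (H : Set G)) := by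
          have hss : (H : Set G) ⊂ ((normalizer (H : Set G) : Subgroup G) : Set G) := h3
          exact Set.ncard_lt_ncard hss (Set.toFinite _)
        have hcard2 : Nat.card (normalizer (H : Set G)) ≤ Nat.card G :=
          Subgroup.card_le_card_group _
        exact ih _ (hMH.trans h3.le) (by omega)
          (acyclic_of_normal' hchar h3.le Subgroup.normal_in_normalizer hac)
  exact key _ H hMH le_rfl hac

/-- relative version -/
theorem acyclic_of_pquot' [hp : Fact p.Prime] (hchar : (p : 𝕜) = 0) [Finite G]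
    {M H W : Subgroup G} (hMH : M ≤ H) (hHW : H ≤ W) (hM : (M.subgroupOf W).Normal)
    (hq : ∀ g ∈ W, ∃ k : ℕ, g ^ p ^ k ∈ M) (hac : ¬ NA 𝕜 (Ain p H)) :
    ¬ NA 𝕜 (Ain p W) := by
  rw [← HQ_sub_iff, HQ_iff]
  refine acyclic_of_pquot hchar (M := M.subgroupOf W) (H := H.subgroupOf W) ?_ ?_ ?_
  · rintro ⟨g, hg⟩
    obtain ⟨k, hk⟩ := hq g hg
    exact ⟨k, by rw [mem_subgroupOf]; simpa using hk⟩
  · intro x hx
    rw [mem_subgroupOf] at hx ⊢
    exact hMH hx
  · rw [← NA_Ain_map W.subtype_injective, Subgroup.map_subgroupOf_eq_of_le hHW]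
    exact hac

end Vale.Agent.P240.K
end

section

namespace Vale.Agent.P240.K

open Finsupp Subgroup

variable {𝕜 : Type*} [Field 𝕜] {p : ℕ}

section
variable {A B : Type*} [Group A] [Group B]

lemma Ain_top {G : Type*} [Group G] : Ain p (⊤ : Subgroup G) = ApS p G := by
  ext E
  exact ⟨fun h => h.1, fun h => ⟨h, le_top⟩⟩

/-- the class of groups with nonacyclic `𝒜ₚ` is closed under products -/
theorem HQ_prod (hA : HQ 𝕜 p A) (hB : HQ 𝕜 p B) : HQ 𝕜 p (A × B) := by
  have hinl : Function.Injective (MonoidHom.inl A B) := fun x y h => congrArg Prod.fst h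
  have hinr : Function.Injective (MonoidHom.inr A B) := fun x y h => congrArg Prod.snd h
  set M : Subgroup (A × B) := (⊤ : Subgroup A).map (MonoidHom.inl A B) with hM
  set H1 : Subgroup (A × B) := (⊤ : Subgroup B).map (MonoidHom.inr A B) with hH1
  have hMm : ∀ x : A × B, x ∈ M ↔ x.2 = 1 := by
    intro x
    constructor
    · rintro ⟨a, -, rfl⟩; rfl
    · intro h; exact ⟨x.1, mem_top _, Prod.ext rfl h.symm⟩
  have hHm : ∀ x : A × B, x ∈ H1 ↔ x.1 = 1 := by
    intro x
    constructor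
    · rintro ⟨a, -, rfl⟩; rfl
    · intro h; exact ⟨x.2, mem_top _, Prod.ext h.symm rfl⟩
  let π : (⊤ : Subgroup (A × B)) →* B := (MonoidHom.snd A B).comp (⊤ : Subgroup (A × B)).subtype
  have hπ : ∀ n : (⊤ : Subgroup (A × B)), π n = 1 ↔ (n : A × B) ∈ M := fun n => (hMm n).symm
  rw [HQ_iff, ← Ain_top, ← NA_Ain_map hinl] at hA
  rw [HQ_iff] at hB ⊢
  obtain ⟨al, hal, hbal, haln⟩ := hA
  obtain ⟨be, hbe, hbbe, hben⟩ := hB
  set x : Ch 𝕜 (Subgroup (A × B)) := mp (Subgroup.map (MonoidHom.inr A B)) be with hx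
  have hxs : x ∈ Sp 𝕜 (st (Ain p H1)) := by
    refine mp_mem (st_map (T := Ain p H1) ?_ ?_) hbe
    · intro E hE
      exact ⟨(map_mem_ApS hinr).2 hE, Subgroup.map_mono le_top⟩
    · intro E _ F _ h
      exact (map_lt hinr).1 h
  have hfq : ∀ E : Subgroup B, fq ⊤ π (E.map (MonoidHom.inr A B)) = E := by
    intro E
    ext b
    rw [mem_fq]
    constructor
    · rintro ⟨n, ⟨e, he, hen⟩, rfl⟩
      have : π n = e := by
        change (n : A × B).2 = e
        rw [← hen]
        rfl
      rw [this]; exact he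
    · intro hb
      exact ⟨⟨(1, b), mem_top _⟩, ⟨b, hb, rfl⟩, rfl⟩
  have hmp : mp (fq ⊤ π) x = be := by
    rw [hx, mp_mp]
    have h1 : (fq ⊤ π ∘ Subgroup.map (MonoidHom.inr A B)) = id := funext hfq
    rw [h1]
    have := lin_ext_apply (f := (mp id : Ch 𝕜 (Subgroup B) →ₗ[𝕜] Ch 𝕜 (Subgroup B)))
      (g := LinearMap.id) (fun l => by simp) be
    simpa using this
  obtain ⟨lW, hnW, hW, -, hlW⟩ := exists_cocycle (ApS p B) ⊥ be (by
    rw [pi_of_st hbe, sup_bot_eq]
    rintro ⟨c, hc, hcz⟩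
    exact hben c hc hcz)
  obtain ⟨lD, hnD, hD, -, hlD⟩ := exists_cocycle (Ain p M) ⊥ al (by
    rw [pi_of_st hal, sup_bot_eq]
    rintro ⟨c, hc, hcz⟩
    exact haln c hc hcz)
  refine detect ⊤ M le_top π hπ (ApS p B)
    (fun E hE hEL => fq_mem_ApS hπ hE.1 hE.2 hEL) lW lD hnW hnD hW hD ?_
    H1 M le_top le_rfl ?_ ?_ x al
    (Sp_mono st_wk hxs) (Sp_mono st_wk hal) ?_ hbal (by rw [hmp]; exact hlW) hlD
  · intro g hg
    exact absurd (mem_top g) hg
  · intro a ha b hb
    rw [hHm] at ha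
    rw [hMm] at hb
    refine Prod.ext ?_ ?_
    · simp [ha]
    · simp [hb]
  · rw [eq_bot_iff]
    rintro a ⟨h1, h2⟩
    have h1' := (hHm a).1 h1
    have h2' := (hMm a).1 h2
    rw [mem_bot]
    exact Prod.ext h1' h2'
  · rw [hx, bd_mp, hbbe, map_zero]

end

section
variable {G : Type*} [Group G]

/-- If `G / M` is nilpotent and `M ≤ H ≤ G`, acyclicity passes from `H` to `G`. -/
theorem acyclic_of_nilquot [hp : Fact p.Prime] (hchar : (p : 𝕜) = 0) [Finite G] {M : Subgroup G}
    [hM : M.Normal] (hnil : Group.IsNilpotent (G ⧸ M)) {H : Subgroup G} (hMH : M ≤ H)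
    (hac : ¬ NA 𝕜 (Ain p H)) : ¬ NA 𝕜 (ApS p G) := by
  have hnc : NormalizerCondition (G ⧸ M) := Group.normalizerCondition_of_isNilpotent
  have key : ∀ n : ℕ, ∀ H : Subgroup G, M ≤ H → Nat.card G - Nat.card H ≤ n →
      ¬ NA 𝕜 (Ain p H) → ¬ NA 𝕜 (ApS p G) := by
    intro n
    induction n with
    | zero =>
      intro H _ hn hac
      have h1 : Nat.card H = Nat.card G := le_antisymm (Subgroup.card_le_card_group H) (by omega)
      have h2 : H = ⊤ := Subgroup.eq_top_of_card_eq H h1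
      subst h2
      rwa [Ain_top] at hac
    | succ n ih =>
      intro H hMH hn hac
      by_cases htop : H = ⊤
      · subst htop
        rwa [Ain_top] at hac
      · have hker : (QuotientGroup.mk' M).ker ≤ H := by rw [QuotientGroup.ker_mk']; exact hMH
        have hsurj : Function.Surjective (QuotientGroup.mk' M) := QuotientGroup.mk'_surjective M
        have hcm : (H.map (QuotientGroup.mk' M)).comap (QuotientGroup.mk' M) = H :=
          Subgroup.comap_map_eq_self hker
        have hlt : H.map (QuotientGroup.mk' M) < ⊤ := by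
          rw [lt_top_iff_ne_top]
          intro h
          apply htop
          rw [← hcm, h, Subgroup.comap_top]
        have h1 := hnc _ hlt
        have h2 : (normalizer ((H.map (QuotientGroup.mk' M) : Subgroup (G ⧸ M)) : Set (G ⧸ M))).comap
            (QuotientGroup.mk' M) = normalizer (H : Set G) := by
          rw [Subgroup.comap_normalizer_eq_of_surjective _ hsurj, hcm]
        have h3 : H < normalizer (H : Set G) := by
          refine lt_of_le_of_ne Subgroup.le_normalizer fun h => ?_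
          apply h1.ne
          rw [← Subgroup.map_comap_eq_self_of_surjective hsurj
            (normalizer ((H.map (QuotientGroup.mk' M) : Subgroup (G ⧸ M)) : Set (G ⧸ M))), h2, ← h]
        have hcard : Nat.card H < Nat.card (normalizer (H : Set G)) := by
          have hss : (H : Set G) ⊂ ((normalizer (H : Set G) : Subgroup G) : Set G) := h3
          exact Set.ncard_lt_ncard hss (Set.toFinite _)
        have hcard2 : Nat.card (normalizer (H : Set G)) ≤ Nat.card G :=
          Subgroup.card_le_card_group _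
        exact ih _ (hMH.trans h3.le) (by omega)
          (acyclic_of_normal' hchar h3.le Subgroup.normal_in_normalizer hac)
  exact key _ H hMH le_rfl hac

end

end Vale.Agent.P240.K
end

section

namespace Vale.Agent.P240.K

open Finsupp Subgroup

variable {𝕜 : Type*} [Field 𝕜] {p : ℕ}

section
variable {G : Type*} [Group G]

lemma nilpotent_quot {S : Subgroup G} [S.Normal] {n : ℕ}
    (h : (⊤ : Subgroup G).lowerCentralSeries n ≤ S) : Group.IsNilpotent (G ⧸ S) := by
  rw [Subgroup.nilpotent_iff_lowerCentralSeries]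
  refine ⟨n, ?_⟩
  have h1 : ((⊤ : Subgroup G).map (QuotientGroup.mk' S)) = ⊤ := by
    rw [← MonoidHom.range_eq_map, MonoidHom.range_eq_top]
    exact QuotientGroup.mk'_surjective S
  rw [← h1, ← map_lowerCentralSeries, eq_bot_iff, Subgroup.map_le_iff_le_comap]
  intro x hx
  rw [Subgroup.mem_comap, mem_bot]
  exact (QuotientGroup.eq_one_iff x).2 (h hx)

/-- Fibre products over a nilpotent quotient, in characteristic `p`. -/
theorem fibre_two [hp : Fact p.Prime] (hchar : (p : 𝕜) = 0) [Finite G] (N1 N2 : Subgroup G)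
    [h1 : N1.Normal] [h2 : N2.Normal] [h12 : (N1 ⊓ N2).Normal] {n : ℕ}
    (hn : (⊤ : Subgroup G).lowerCentralSeries n ≤ N1 ⊔ N2)
    (hQ1 : HQ 𝕜 p (G ⧸ N1)) (hQ2 : HQ 𝕜 p (G ⧸ N2)) : HQ 𝕜 p (G ⧸ (N1 ⊓ N2)) := by
  set S : Subgroup G := N1 ⊔ N2 with hS
  have hSn : S.Normal := inferInstance
  let φ : G →* (G ⧸ N1) × (G ⧸ N2) := (QuotientGroup.mk' N1).prod (QuotientGroup.mk' N2)
  have hker : φ.ker = N1 ⊓ N2 := by
    ext x
    rw [MonoidHom.mem_ker, mem_inf]
    constructor
    · intro h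
      exact ⟨(QuotientGroup.eq_one_iff x).1 (congrArg Prod.fst h),
        (QuotientGroup.eq_one_iff x).1 (congrArg Prod.snd h)⟩
    · rintro ⟨h, h'⟩
      exact Prod.ext ((QuotientGroup.eq_one_iff x).2 h) ((QuotientGroup.eq_one_iff x).2 h')
  let e : G ⧸ (N1 ⊓ N2) ≃* φ.range :=
    (QuotientGroup.quotientMulEquivOfEq hker.symm).trans (QuotientGroup.quotientKerEquivRange φ)
  rw [HQ_congr e, HQ_sub_iff]
  by_contra hac
  -- the map to the nilpotent group
  let f1 : (G ⧸ N1) →* (G ⧸ S) := QuotientGroup.map N1 S (MonoidHom.id G) le_sup_left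
  let f2 : (G ⧸ N2) →* (G ⧸ S) := QuotientGroup.map N2 S (MonoidHom.id G) le_sup_right
  have hf1 : ∀ g : G, f1 (QuotientGroup.mk' N1 g) = QuotientGroup.mk' S g := fun g => rfl
  have hf2 : ∀ g : G, f2 (QuotientGroup.mk' N2 g) = QuotientGroup.mk' S g := fun g => rfl
  let f : (G ⧸ N1) × (G ⧸ N2) →* (G ⧸ S) × (G ⧸ S) := f1.prodMap f2
  have hnilS : Group.IsNilpotent (G ⧸ S) := nilpotent_quot hn
  have hnil : Group.IsNilpotent (((G ⧸ N1) × (G ⧸ N2)) ⧸ f.ker) :=
    Group.nilpotent_of_mulEquiv (QuotientGroup.quotientKerEquivRange f).symm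
  have hle : f.ker ≤ φ.range := by
    rintro ⟨x, y⟩ hxy
    obtain ⟨g, rfl⟩ := QuotientGroup.mk'_surjective N1 x
    obtain ⟨g', rfl⟩ := QuotientGroup.mk'_surjective N2 y
    have hg : g ∈ S := by
      have := congrArg Prod.fst (MonoidHom.mem_ker.1 hxy)
      exact (QuotientGroup.eq_one_iff g).1 this
    have hg' : g' ∈ S := by
      have := congrArg Prod.snd (MonoidHom.mem_ker.1 hxy)
      exact (QuotientGroup.eq_one_iff g').1 this
    obtain ⟨a, ha, b, hb, rfl⟩ := Subgroup.mem_sup_of_normal_left.1 hg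
    obtain ⟨a', ha', b', hb', rfl⟩ := Subgroup.mem_sup_of_normal_left.1 hg'
    refine ⟨a' * b, ?_⟩
    refine Prod.ext ?_ ?_
    · change (QuotientGroup.mk' N1) (a' * b) = (QuotientGroup.mk' N1) (a * b)
      rw [map_mul, map_mul]
      have e1 : (QuotientGroup.mk' N1) a = 1 := (QuotientGroup.eq_one_iff a).2 ha
      have e2 : (QuotientGroup.mk' N1) a' = 1 := (QuotientGroup.eq_one_iff a').2 ha'
      rw [e1, e2]
    · change (QuotientGroup.mk' N2) (a' * b) = (QuotientGroup.mk' N2) (a' * b')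
      rw [map_mul, map_mul]
      have e1 : (QuotientGroup.mk' N2) b = 1 := (QuotientGroup.eq_one_iff b).2 hb
      have e2 : (QuotientGroup.mk' N2) b' = 1 := (QuotientGroup.eq_one_iff b').2 hb'
      rw [e1, e2]
  refine acyclic_of_nilquot (𝕜 := 𝕜) hchar hnil hle hac ?_
  rw [← HQ_iff]
  exact HQ_prod hQ1 hQ2

/-- Several normal subgroups. -/
theorem fibre_many [hp : Fact p.Prime] (hchar : (p : 𝕜) = 0) [Finite G] {ι : Type*} [Finite ι]
    [Nonempty ι] (N : ι → Subgroup G) [hN : ∀ i, (N i).Normal] (hbot : ⨅ i, N i = ⊥)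
    (hn : ∀ i, ∃ n, (⊤ : Subgroup G).lowerCentralSeries n ≤ N i ⊔ ⨅ (j) (_ : j ≠ i), N j)
    (hQ : ∀ i, HQ 𝕜 p (G ⧸ N i)) : HQ 𝕜 p G := by
  classical
  have := Fintype.ofFinite ι
  have hnorm : ∀ J : Finset ι, (⨅ j ∈ J, N j : Subgroup G).Normal := by
    intro J
    exact Subgroup.normal_iInf_normal fun j => Subgroup.normal_iInf_normal fun _ => hN j
  have key : ∀ J : Finset ι, J.Nonempty → @HQ 𝕜 _ p (G ⧸ (⨅ j ∈ J, N j : Subgroup G))
      (@QuotientGroup.Quotient.group G _ _ (hnorm J)) := by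
    intro J hJ
    induction hJ using Finset.Nonempty.cons_induction with
    | singleton a =>
      have h1 : (⨅ j ∈ ({a} : Finset ι), N j : Subgroup G) = N a := by simp
      have := hnorm {a}
      exact (HQ_congr (QuotientGroup.quotientMulEquivOfEq h1)).2 (hQ a)
    | cons a J ha hJ ih =>
      have hJn := hnorm J
      have h2 : (⨅ j ∈ Finset.cons a J ha, N j : Subgroup G) = N a ⊓ ⨅ j ∈ J, N j := by
        simp [iInf_or, iInf_inf_eq]
      have h3 : (N a ⊓ ⨅ j ∈ J, N j : Subgroup G).Normal := h2 ▸ hnorm (Finset.cons a J ha)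
      have h4 := hnorm (Finset.cons a J ha)
      obtain ⟨n, hn⟩ := hn a
      refine (HQ_congr (QuotientGroup.quotientMulEquivOfEq h2)).2 ?_
      refine fibre_two hchar (N a) (⨅ j ∈ J, N j) (n := n) ?_ (hQ a) ih
      refine hn.trans (sup_le_sup_left ?_ _)
      refine le_iInf₂ fun j hj => ?_
      refine iInf₂_le_of_le j ?_ le_rfl
      rintro rfl
      exact ha hj
  have h5 := key Finset.univ Finset.univ_nonempty
  have h6 : (⨅ j ∈ (Finset.univ : Finset ι), N j : Subgroup G) = ⊥ := by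
    simpa using hbot
  have := hnorm Finset.univ
  have h7 := (HQ_congr (QuotientGroup.quotientMulEquivOfEq h6)).1 h5
  exact (HQ_congr QuotientGroup.quotientBot).1 h7

end

end Vale.Agent.P240.K
end

section

namespace Vale.Agent.P240.K

open Finsupp Subgroup

variable {𝕜 : Type*} [Field 𝕜]

universe u

section
variable {G : Type u} [Group G] {p : ℕ}

/-- Elimination of several members of a family. -/
theorem elim_many [Fact p.Prime] [Finite G] {F : Set (Subgroup G)} (hF : Family p F)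
    {T : Set (Subgroup G)} (hTF : T ⊆ F) (hT : ∀ L ∈ T, Removable 𝕜 p L)
    (P : Subgroup G) (hPT : ∀ g ∈ P, ∀ L ∈ T, ∀ x ∈ L, g * x = x * g)
    (hPp : ∀ g : G, g ^ p = 1 → (∀ L ∈ T, ∀ x ∈ L, g * x = x * g) → g ∈ P)
    (hP : HQ 𝕜 p P) : HQ 𝕜 p G := by
  rw [HQ_iff]
  refine remove hF hTF hT ?_
  have hAin : Ain p (Cen T) = Ain p P := by
    ext E
    constructor
    · rintro ⟨h1, h2⟩
      refine ⟨h1, fun x hx => hPp x (h1.2.2 x hx) fun L hL y hy => ?_⟩
      exact ((mem_centralizer_iff.1 (mem_Cen.1 (h2 hx) L hL)) y hy).symm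
    · rintro ⟨h1, h2⟩
      refine ⟨h1, fun x hx => mem_Cen.2 fun L hL => ?_⟩
      rw [mem_centralizer_iff]
      intro y hy
      exact (hPT x (h2 hx) L hL y hy).symm
  rw [hAin, ← HQ_sub_iff]
  exact hP

/-- Elimination followed by a fibre product with nilpotent coupling. -/
theorem coupling_main [Fact p.Prime] [Finite G] (hchar : (p : 𝕜) = 0) {F : Set (Subgroup G)}
    (hF : Family p F) {T : Set (Subgroup G)} (hTF : T ⊆ F)
    (hT : ∀ L ∈ T, Removable 𝕜 p L)
    (P : Subgroup G) (hPT : ∀ g ∈ P, ∀ L ∈ T, ∀ x ∈ L, g * x = x * g)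
    (hPp : ∀ g : G, g ^ p = 1 → (∀ L ∈ T, ∀ x ∈ L, g * x = x * g) → g ∈ P)
    {ι : Type*} [Finite ι] [Nonempty ι] (N : ι → Subgroup P) [∀ i, (N i).Normal]
    (hbot : ⨅ i, N i = ⊥)
    (hn : ∀ i, ∃ n, (⊤ : Subgroup P).lowerCentralSeries n ≤ N i ⊔ ⨅ (j) (_ : j ≠ i), N j)
    (hQ : ∀ i, HQ 𝕜 p (P ⧸ N i)) : HQ 𝕜 p G :=
  elim_many hF hTF hT P hPT hPp (fibre_many hchar N hbot hn hQ)

/-- Inheritance by normal subgroups in characteristic `p`. -/
theorem HQ_normal [Fact p.Prime] [Finite G] (hchar : (p : 𝕜) = 0) (N : Subgroup G)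
    (hN : N.Normal) (h : HQ 𝕜 p G) : HQ 𝕜 p N := by
  rw [HQ_sub_iff]
  by_contra hac
  exact acyclic_of_normal hchar hac ((HQ_iff).1 h)

lemma opTrivial_quot (hO : OpTrivial p G) (M C : Subgroup G) [hM : M.Normal] [hC : C.Normal]
    (hCM : C = centralizer (M : Set G)) (hMC : M ⊓ C = ⊥) : OpTrivial p (G ⧸ C) := by
  intro Y hY hYp
  have hY' : (Y.comap (QuotientGroup.mk' C)).Normal := hY.comap _
  have h1 : M ⊓ Y.comap (QuotientGroup.mk' C) = ⊥ := by
    refine hO _ inferInstance ?_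
    rintro ⟨x, hx⟩
    obtain ⟨k, hk⟩ := hYp ⟨QuotientGroup.mk' C x, hx.2⟩
    refine ⟨k, ?_⟩
    have h2 : QuotientGroup.mk' C (x ^ p ^ k) = 1 := by
      rw [map_pow]
      exact congrArg Subtype.val hk
    have h3 : x ^ p ^ k ∈ M ⊓ C :=
      mem_inf.2 ⟨M.pow_mem hx.1 _, (QuotientGroup.eq_one_iff _).1 h2⟩
    rw [hMC, mem_bot] at h3
    exact Subtype.ext h3
  rw [eq_bot_iff]
  intro y hy
  obtain ⟨g, rfl⟩ := QuotientGroup.mk'_surjective C y
  rw [mem_bot]
  refine (QuotientGroup.eq_one_iff g).2 ?_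
  rw [hCM, mem_centralizer_iff]
  intro m hm
  have h4 : m * g * m⁻¹ * g⁻¹ ∈ M ⊓ Y.comap (QuotientGroup.mk' C) := by
    refine mem_inf.2 ⟨?_, ?_⟩
    · have : m * g * m⁻¹ * g⁻¹ = m * (g * m⁻¹ * g⁻¹) := by group
      rw [this]
      exact mul_mem hm (hM.conj_mem _ (inv_mem hm) g)
    · exact mul_mem (hY'.conj_mem g hy m) (inv_mem hy)
  rw [h1, mem_bot] at h4
  have h5 : m * g = g * m := by
    have := mul_inv_eq_one.1 h4
    calc m * g = (m * g * m⁻¹) * m := by group
      _ = g * m := by rw [this]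
  exact h5

lemma card_quot_lt [Finite G] (N : Subgroup G) (hN : N ≠ ⊥) : Nat.card (G ⧸ N) < Nat.card G := by
  have h1 := Subgroup.card_eq_card_quotient_mul_card_subgroup N
  have h2 : 1 < Nat.card N := by
    rw [Finite.one_lt_card_iff_nontrivial]
    exact (Subgroup.nontrivial_iff_ne_bot N).2 hN
  have h3 : 0 < Nat.card (G ⧸ N) := Nat.card_pos
  nlinarith

/-- In a minimal counterexample in characteristic `p` complementary normal subgroups are coupled
by a group that is not nilpotent. -/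
theorem min_coupling [Fact p.Prime] [Finite G] (hchar : (p : 𝕜) = 0) (hO : OpTrivial p G)
    (hG : ¬ HQ 𝕜 p G)
    (hmin : ∀ (H : Type u) [Group H] [Finite H], Nat.card H < Nat.card G →
      OpTrivial p H → HQ 𝕜 p H)
    (M C : Subgroup G) (hM : M.Normal) (hC : C = centralizer (M : Set G)) (hM1 : M ≠ ⊥)
    (hC1 : C ≠ ⊥) (hMC : M ⊓ C = ⊥) (hCC : C ⊓ centralizer (C : Set G) = ⊥) (n : ℕ) :
    ¬ (⊤ : Subgroup G).lowerCentralSeries n ≤ C ⊔ centralizer (C : Set G) := by
  intro hn
  have hCn : C.Normal := by rw [hC]; exact Subgroup.normal_centralizer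
  have hCCn : (centralizer (C : Set G)).Normal := Subgroup.normal_centralizer
  apply hG
  have h12 : (C ⊓ centralizer (C : Set G)).Normal := inferInstance
  have h1 : HQ 𝕜 p (G ⧸ C) :=
    hmin _ (card_quot_lt _ hC1) (opTrivial_quot hO M C hC hMC)
  have h2 : HQ 𝕜 p (G ⧸ centralizer (C : Set G)) := by
    refine hmin _ (card_quot_lt _ ?_) (opTrivial_quot hO C _ rfl hCC)
    intro h
    apply hM1
    rw [eq_bot_iff, ← h]
    intro m hm
    rw [mem_centralizer_iff]
    intro c hc
    rw [hC] at hc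
    exact ((mem_centralizer_iff.1 hc) m hm).symm
  have h3 := fibre_two hchar C (centralizer (C : Set G)) hn h1 h2
  have h4 := (HQ_congr (QuotientGroup.quotientMulEquivOfEq hCC)).1 h3
  exact (HQ_congr QuotientGroup.quotientBot).1 h4

end

end Vale.Agent.P240.K
end

section

namespace Vale.Agent.P240.K

open Subgroup

universe u v

variable {𝕜 : Type v} [Field 𝕜] {p : ℕ} [Fact p.Prime] {G : Type u} [Group G] [Finite G]

theorem final1 (F D : Set (Subgroup G)) (z : G) (r : ℕ) (hF : Family p F)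
    (hz : GoodElement p F D z) (hrp : r ≠ p) (hno : ¬ (r : ℤ) ∣ euler p (Cent F D z))
    (hT : ∀ L ∈ F, L ∈ D ∨ Removable 𝕜 p L ∨ (r.Prime ∧ FreeSub p r L)) : HQ 𝕜 p G := by
  rw [euler_Ap] at hno
  exact elem_main hF hz hrp hno hT

theorem final2 (F D : Set (Subgroup G)) (z : G) (hF : Family p F)
    (hz : GoodElement p F D z) (hC : SolvableByCM p (Cent F D z))
    (hT : ∀ L ∈ F, L ∈ D ∨ Removable 𝕜 p L) : HQ 𝕜 p G := by
  obtain ⟨W, hsol, hpW, hfaith, hW, hCM⟩ := hC
  exact elem_cm (hW := hW) hF hz W hsol hpW hfaith hCM hT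

theorem final3 (hchar : (p : 𝕜) = 0) :
    (∀ N : Subgroup G, N.Normal → HQ 𝕜 p G → HQ 𝕜 p N) ∧
    ∀ (F D : Set (Subgroup G)) (P : Subgroup G), Family p F →
      (∀ L ∈ F, L ∈ D ∨ Removable 𝕜 p L) → P ≤ Rest F D → (∀ g ∈ Rest F D, g ^ p = 1 → g ∈ P) →
      NilpotentCoupling 𝕜 p P → HQ 𝕜 p G := by
  refine ⟨fun N hN h => HQ_normal hchar N hN h, ?_⟩
  rintro F D P hF hT hPR hPp ⟨n, N, hbot, hn, hQ⟩
  have : ∀ i, (N i).Normal := fun i => (hQ i).choose
  refine coupling_main hchar hF (T := F \ D) (fun L hL => hL.1)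
    (fun L hL => (hT L hL.1).resolve_left hL.2) P (fun g hg L hL x hx => ?_)
    (fun g hg h => hPp g (mem_Rest.2 fun L hL hLD => mem_centralizer_iff.2 fun x hx =>
      (h L ⟨hL, hLD⟩ x hx).symm) hg) N hbot hn fun i => (hQ i).choose_spec
  exact (mem_centralizer_iff.1 (mem_Rest.1 (hPR hg) L hL.1 hL.2) x hx).symm

theorem final4 (h : MinimalCounterexample 𝕜 p G) (L : Subgroup G) (hL : ComponentLike p L)
    (hC : centralizer (L : Set G) ≠ ⊥) : ¬ FewOuter p L := by
  obtain ⟨hO, hG, hmin⟩ := h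
  obtain ⟨hcentre, hconj, hdvd⟩ := hL
  exact min_few hO hG hmin L ⟨hcentre, hconj, hdvd⟩ hC

end Vale.Agent.P240.K
end
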